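import Vale.Agent.P261Z.Ig.Sk1

/-!
# P261Z, block Ig: existence of points, and the units on the universal ring
-/

noncomputable section

open Matrix

namespace P261.Ig

open P261.C2

namespace IgxAux

section cm

variable {A : Type} [CommRing A] {n : ℕ} (c : Fin n → A)

theorem cm_apply (i k : Fin n) :
    Cm c i k = (if (i : ℕ) = k + 1 then 1 else 0) + if (k : ℕ) + 1 = n then c i else 0 := by
  have := i.2
  simp only [Cm, Matrix.of_apply]
  split_ifs <;> first | omega | simp

theorem sum_last (X : Fin n → A) (a : A) (l : Fin n) (hl : (l : ℕ) + 1 = n) :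
    ∑ k : Fin n, (if (k : ℕ) + 1 = n then a else 0) * X k = a * X l := by
  rw [Finset.sum_eq_single l]
  · rw [if_pos hl]
  · intro k _ hk
    rw [if_neg fun e => hk (Fin.ext (by omega)), zero_mul]
  · simp

theorem row_zero (X : Fin n → A) (i l : Fin n) (hi : (i : ℕ) = 0) (hl : (l : ℕ) + 1 = n) :
    ∑ k, Cm c i k * X k = c i * X l := by
  simp only [cm_apply, add_mul, Finset.sum_add_distrib, sum_last X _ l hl]
  simp [hi]

theorem row_succ (X : Fin n → A) (i j l : Fin n) (hi : (i : ℕ) = j + 1) (hl : (l : ℕ) + 1 = n) :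
    ∑ k, Cm c i k * X k = X j + c i * X l := by
  simp only [cm_apply, add_mul, Finset.sum_add_distrib, sum_last X _ l hl]
  congr 1
  rw [Finset.sum_eq_single j]
  · rw [if_pos hi, one_mul]
  · intro k _ hk
    rw [if_neg fun e => hk (Fin.ext (by omega)), zero_mul]
  · simp

theorem col_succ (X : Fin n → A) (i j : Fin n) (hi : (i : ℕ) = j + 1) :
    ∑ k, X k * Cm c k j = X i := by
  have := i.2
  rw [Finset.sum_eq_single i]
  · rw [cm_apply, if_pos hi, if_neg (by omega), add_zero, mul_one]
  · intro k _ hk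
    rw [cm_apply, if_neg fun e => hk (Fin.ext (by omega)), if_neg (by omega), add_zero, mul_zero]
  · simp

end cm

variable {p : ℕ} [hp : Fact p.Prime] {K : Type} [CommRing K] [Pf p K]

/-- the first digit -/
abbrev c0 : WittVector p K →+* K := WittVector.constantCoeff

theorem c0_si (x : WittVector p K) : c0 (si p K x) = rt p K (c0 x) := rfl

theorem c0_p : c0 (p : WittVector p K) = 0 := by rw [map_natCast, Ch.char]

omit [Pf p K] in
theorem c0_tm (a : K) : c0 (tm p a) = a := WittVector.teichmuller_coeff_zero p a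

theorem isUnit_of_map {I : Type} [Fintype I] [DecidableEq I] {M : Matrix I I (WittVector p K)}
    (h : IsUnit (M.map c0).det) : IsUnit M.det :=
  isUnit_of_coeff (by
    have e : c0 M.det = (M.map c0).det := RingHom.map_det _ M
    rw [← e] at h
    exact h)

end IgxAux

open IgxAux

variable (p : ℕ) [hp : Fact p.Prime]

theorem igx_of (hA : IGA p) (hB : IGB p) : IGX p := by
  intro h c K _ _ hK u hh hc hu hv
  obtain ⟨α, hα, hα'⟩ := hA h c K hK u hh hc hu hv
  obtain ⟨β, hβ, hβ', hβ''⟩ := hB h c K hK u hh hc hu hv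
  let e : Fin c ⊕ Fin h ≃ Fin (h + c) := (Equiv.sumComm _ _).trans finSumFinEquiv
  let M : Matrix (Fin c ⊕ Fin h) (Fin c ⊕ Fin h) (WittVector p K) := (fromRows α β).submatrix id e
  have hM : IsUnit M.det := by
    refine isUnit_of_map ?_
    have e1 : M.map c0 = fromBlocks (Matrix.of fun l i : Fin c => (α l (Fin.natAdd h i)).coeff 0)
        (Matrix.of fun l i => (α l (Fin.castAdd c i)).coeff 0) 0
        (Matrix.of fun j i : Fin h => (β j (Fin.castAdd c i)).coeff 0) := by
      ext (a | a) (b | b)
      · rfl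
      · rfl
      · exact hβ'' a b
      · rfl
    rw [e1, det_fromBlocks_zero₂₁]
    exact ((isUnit_iff_isUnit_det _).1 hα').mul ((isUnit_iff_isUnit_det _).1 hβ')
  have e2 : fromRows α β = M.submatrix id e.symm := by
    ext1 i j
    simp [M]
  refine ⟨fromRows α β, M⁻¹.submatrix e.symm id, ?_, ?_, ?_⟩
  · rw [e2, submatrix_mul_equiv, mul_nonsing_inv _ hM, submatrix_id_id]
  · rw [e2]
    refine (submatrix_mul_equiv M⁻¹ M e.symm (Equiv.refl _) e.symm).trans ?_
    rw [nonsing_inv_mul _ hM, submatrix_one_equiv]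
  · rw [V0_eq, fromRows_map, fromBlocks_mul_fromRows, fromRows_mul, ← hα, ← hβ]
    simp

theorem vu : VU p := by
  intro h c K _ _ u hh hc hu μ ν H
  let l : Fin (h + c) := ⟨h + c - 1, by omega⟩
  have hl : (l : ℕ) + 1 = h + c := by simp only [l]; omega
  have h1 : ∀ (i : Fin (h + c)) (a : Fin c),
      ∑ k, Au p (h + c) u i k * si p K (ν k (.inl a)) = ν i (.inl a) := by
    intro i a
    have := congrFun (congrFun H.symm.eq i) (.inl a)
    simpa [Matrix.mul_apply, V0, Matrix.one_apply] using this
  have h2 : ∀ (i j : Fin (h + c)) (a : Fin c), (i : ℕ) = j + 1 →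
      c0 (ν i (.inl a)) = rt p K (c0 (ν j (.inl a))) - u i * rt p K (c0 (ν l (.inl a))) := by
    intro i j a hi
    rw [← h1 i a, Au, row_succ _ _ i j l hi hl, if_neg (by omega), map_add, map_mul, map_neg, c0_tm,
      c0_si, c0_si]
    ring
  have h3 : ∀ (m : ℕ) (i : Fin (h + c)) (a : Fin c), (i : ℕ) = m → m < h → c0 (ν i (.inl a)) = 0 := by
    intro m
    induction m with
    | zero =>
      intro i a hi _
      rw [← h1 i a, Au, row_zero _ _ i l hi hl, if_pos hi, map_mul, c0_p, zero_mul]
    | succ m ih =>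
      intro i a hi hm
      rw [h2 i ⟨m, by omega⟩ a hi, ih _ a rfl (by omega), hu i (by omega), map_zero, zero_mul, sub_zero]
  have h4 : ∀ (i : Fin h) (a : Fin c), (ν (Fin.castAdd c i) (.inl a)).coeff 0 = 0 :=
    fun i a => h3 i _ a rfl i.2
  have h5 : ∀ a b, ∑ k, c0 (μ a k) * c0 (ν k b) = if a = b then 1 else 0 := by
    intro a b
    have := congrArg c0 (congrFun (congrFun H.mn a) b)
    rw [Matrix.mul_apply, map_sum, Matrix.one_apply, apply_ite c0, map_one, map_zero] at this
    simpa only [map_mul] using this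
  have h6 : (Matrix.of fun a i : Fin c => c0 (μ (.inl a) (Fin.natAdd h i))) *
      (Matrix.of fun i a : Fin c => (ν (Fin.natAdd h i) (.inl a)).coeff 0) = 1 := by
    ext a b
    have := h5 (.inl a) (.inl b)
    rw [Fin.sum_univ_add, Finset.sum_eq_zero fun i _ => by
      rw [show c0 (ν (Fin.castAdd c i) (.inl b)) = 0 from h4 i b, mul_zero], zero_add] at this
    simp only [Sum.inl.injEq] at this
    rw [Matrix.mul_apply, Matrix.one_apply]
    exact this
  have h7 := mul_eq_one_comm.1 h6
  refine ⟨?_, IsUnit.of_mul_eq_one _ h7, h4, ?_⟩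
  · let z : Fin c := ⟨0, hc⟩
    have := congrFun (congrFun h7 z) z
    rw [Matrix.mul_apply, Matrix.one_apply_eq] at this
    refine IsUnit.of_mul_eq_one
      (∑ a, -rt p K (c0 (ν l (.inl a))) * c0 (μ (.inl a) (Fin.natAdd h z))) ?_
    rw [← this, Finset.mul_sum]
    refine Finset.sum_congr rfl fun a _ => ?_
    have e := h2 (Fin.natAdd h z) ⟨h - 1, by omega⟩ a (by simp [z]; omega)
    rw [h3 (h - 1) ⟨h - 1, by omega⟩ a rfl (by omega), map_zero] at e
    change _ = c0 (ν (Fin.natAdd h z) (.inl a)) * c0 (μ (.inl a) (Fin.natAdd h z))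
    rw [e]
    change _ = (0 - u h * _) * _
    ring
  · intro i j hi hj
    have h8 : ∀ k : Fin (h + c), k ≠ i → c0 (μ (.inr j) k) = 0 := by
      intro k hk
      have hk' : (k : ℕ) ≠ 0 := fun e => hk (Fin.ext (by omega))
      have := congrArg c0 (congrFun (congrFun H.eq (.inr j)) ⟨k - 1, by omega⟩)
      rw [Matrix.mul_apply, Matrix.mul_apply, Au, col_succ _ _ k _ (by simp; omega), map_sum] at this
      rw [← this]
      refine Finset.sum_eq_zero fun b _ => ?_
      rw [map_mul]
      refine mul_eq_zero_of_left ?_ _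
      rcases b with b | b
      · simp [V0]
      · simp only [V0, fromBlocks_apply₂₂, Matrix.of_apply]
        rw [if_neg (by omega)]
        split_ifs
        · exact c0_p
        · exact map_zero _
    have := h5 (.inr j) (.inr j)
    rw [Finset.sum_eq_single i (fun k _ hk => by rw [h8 k hk, zero_mul]) (by simp), if_pos rfl] at this
    exact IsUnit.of_mul_eq_one _ this

end P261.Ig
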