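import Vale.Agent.P261Z.Ev
import Vale.Agent.P251.F.Series

/-!
# P261, block N3: evaluation of power series in arbitrary algebras over a complete ring
-/

set_option linter.unusedSectionVars false

noncomputable section

open MvPowerSeries

namespace P261.Ig

open Vale.Agent.P261Z.Ev Vale.Agent.P217 Vale.Agent.P251.F

section complete

variable {R B : Type*} [CommRing R] [CommRing B]

theorem complete_of_pow {I J : Ideal B} [h : IsAdicComplete I B] (h1 : I ≤ J) {N : ℕ}
    (h2 : J ^ N ≤ I) : IsAdicComplete J B where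
  haus' x hx := IsHausdorff.haus h.toIsHausdorff x fun n => by
    have := hx (N * n)
    simp only [smul_eq_mul, Ideal.mul_top, SModEq.zero] at this ⊢
    rw [pow_mul] at this
    exact Ideal.pow_right_mono h2 n this
  prec' f hf := by
    simp only [smul_eq_mul, Ideal.mul_top, SModEq.sub_mem] at hf ⊢
    obtain ⟨L, hL⟩ := IsPrecomplete.prec h.toIsPrecomplete (f := fun n => f ((N + 1) * n))
      fun {a b} hab => by
        simp only [smul_eq_mul, Ideal.mul_top, SModEq.sub_mem]
        have := hf (Nat.mul_le_mul_left (N + 1) hab)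
        rw [pow_mul] at this
        exact Ideal.pow_right_mono ((Ideal.pow_le_pow_right N.le_succ).trans h2) a this
    simp only [smul_eq_mul, Ideal.mul_top, SModEq.sub_mem] at hL
    refine ⟨L, fun n => ?_⟩
    have := add_mem (hf (show n ≤ (N + 1) * n by nlinarith)) (Ideal.pow_right_mono h1 n (hL n))
    rwa [sub_add_sub_cancel] at this

theorem complete_of_finite (m : Ideal R) [IsNoetherianRing R] [IsAdicComplete m R] (M : Type*)
    [AddCommGroup M] [Module R M] [Module.Finite R M] : IsAdicComplete m M where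
  toIsHausdorff := IsHausdorff.of_le_jacobson m M (IsAdicComplete.le_jacobson_bot m)
  toIsPrecomplete := AdicCompletion.of_surjective_iff.1 fun z => by
    obtain ⟨t, rfl⟩ := AdicCompletion.ofTensorProduct_surjective_of_finite m M z
    induction t with
    | zero => exact ⟨0, by simp⟩
    | tmul a x =>
      obtain ⟨r, rfl⟩ := AdicCompletion.of_surjective m R a
      refine ⟨r • x, ?_⟩
      rw [AdicCompletion.ofTensorProduct_tmul, map_smul]
      exact (algebraMap_smul (AdicCompletion m R) r _).symm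
    | add a b ha hb =>
      obtain ⟨a', ha⟩ := ha
      obtain ⟨b', hb⟩ := hb
      exact ⟨a' + b', by rw [map_add, map_add, ha, hb]⟩

/-- the radical of the extension of `m` -/
def JB (m : Ideal R) (B : Type*) [CommRing B] [Algebra R B] : Ideal B :=
  (m.map (algebraMap R B)).radical

instance complete_JB (m : Ideal R) [IsNoetherianRing R] [IsAdicComplete m R] [Algebra R B]
    [Module.Finite R B] : IsAdicComplete (JB m B) B := by
  have h := complete_of_finite m B
  have : IsAdicComplete (m.map (algebraMap R B)) B :=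
    { toIsHausdorff := IsHausdorff.map_algebraMap_iff.2 h.toIsHausdorff
      toIsPrecomplete := IsPrecomplete.map_algebraMap_iff.2 h.toIsPrecomplete }
  have : IsNoetherianRing B := IsNoetherianRing.of_finite R B
  obtain ⟨N, hN⟩ := Ideal.exists_radical_pow_le_of_fg (m.map (algebraMap R B))
    (IsNoetherian.noetherian _)
  exact complete_of_pow Ideal.le_radical hN

theorem map_mem_JB (m : Ideal R) [Algebra R B] {r : R} (h : r ∈ m) :
    algebraMap R B r ∈ JB m B := Ideal.le_radical (Ideal.mem_map_of_mem _ h)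

theorem JB_map {R' B' : Type*} [CommRing R'] [CommRing B'] [Algebra R B] [Algebra R' B']
    {m : Ideal R} {m' : Ideal R'} (φ : R →+* R') (Φ : B →+* B')
    (h : ∀ r, Φ (algebraMap R B r) = algebraMap R' B' (φ r)) (hm : ∀ r ∈ m, φ r ∈ m'.radical)
    {y : B} (hy : y ∈ JB m B) : Φ y ∈ JB m' B' := by
  have : JB m B ≤ (JB m' B').comap Φ := by
    rw [JB, JB, Ideal.comap_radical, Ideal.radical_le_radical_iff, Ideal.map_le_iff_le_comap]
    intro r hr
    obtain ⟨N, hN⟩ := hm r hr
    refine ⟨N, ?_⟩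
    rw [Ideal.mem_comap, map_pow, h, ← map_pow]
    exact Ideal.mem_map_of_mem _ hN
  exact this hy

theorem JB_comap {B' : Type*} [CommRing B'] [Algebra R B] [Algebra R B'] (m : Ideal R)
    (Φ : B →ₐ[R] B') (hΦ : Function.Injective Φ) (hi : (Φ : B →+* B').IsIntegral) {y : B}
    (hy : Φ y ∈ JB m B') : y ∈ JB m B := by
  rw [JB, Ideal.radical_eq_sInf, Submodule.mem_sInf]
  rintro P ⟨h1, h2⟩
  let _ := (Φ : B →+* B').toAlgebra
  have : Algebra.IsIntegral B B' := ⟨hi⟩
  obtain ⟨Q, -, hQ, rfl⟩ := Ideal.exists_ideal_over_prime_of_isIntegral P (⊥ : Ideal B')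
    (fun a ha => by
      have : a = 0 := hΦ (by rw [map_zero]; exact ha)
      rw [this]
      exact P.zero_mem)
  refine (hQ.radical_le_iff.2 (Ideal.map_le_iff_le_comap.2 fun r hr => ?_)) hy
  have := h1 (Ideal.mem_map_of_mem _ hr)
  rw [Ideal.mem_comap] at this ⊢
  rwa [← Φ.commutes]

end complete

variable {R R' U U' : Type*} [CommRing R] [CommRing R'] [CommRing U] [CommRing U']
  [Algebra R U] [Algebra R' U'] {σ τ : Type*}

/-- integral over `R` and nilpotent modulo `m` -/
def IsN (m : Ideal R) (y : U) : Prop :=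
  ∃ h : IsIntegral R y, (⟨y, h⟩ : integralClosure R U) ∈ JB m (integralClosure R U)

variable {m : Ideal R} {m' : Ideal R'}

theorem IsN.int {y : U} (h : IsN m y) : IsIntegral R y := h.1

theorem isN_iff (B : Subalgebra R U) [Algebra.IsIntegral R B] (y : B) :
    IsN m (y : U) ↔ y ∈ JB m B := by
  have hle : B ≤ integralClosure R U := fun x hx =>
    (Algebra.IsIntegral.isIntegral (⟨x, hx⟩ : B)).map B.val
  refine ⟨fun ⟨_, h⟩ => JB_comap m (Subalgebra.inclusion hle) (Subalgebra.inclusion_injective hle)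
    (fun x => ?_) h, fun h => ⟨hle y.2, JB_map (RingHom.id R)
      (Subalgebra.inclusion hle : B →+* integralClosure R U) (fun _ => rfl)
      (fun _ hr => Ideal.le_radical hr) h⟩⟩
  exact RingHom.IsIntegralElem.of_comp (f := algebraMap R B) (integralClosure.isIntegral x)

theorem IsN.zero : IsN m (0 : U) := ⟨isIntegral_zero, (JB m (integralClosure R U)).zero_mem⟩

theorem IsN.add {x y : U} (hx : IsN m x) (hy : IsN m y) : IsN m (x + y) :=
  ⟨hx.1.add hy.1, (JB m (integralClosure R U)).add_mem hx.2 hy.2⟩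

theorem IsN.neg {x : U} (hx : IsN m x) : IsN m (-x) :=
  ⟨hx.1.neg, (JB m (integralClosure R U)).neg_mem hx.2⟩

theorem IsN.sub {x y : U} (hx : IsN m x) (hy : IsN m y) : IsN m (x - y) :=
  ⟨hx.1.sub hy.1, (JB m (integralClosure R U)).sub_mem hx.2 hy.2⟩

theorem IsN.mul_left {x y : U} (hx : IsIntegral R x) (hy : IsN m y) : IsN m (x * y) :=
  ⟨hx.mul hy.1, (JB m (integralClosure R U)).mul_mem_left ⟨x, hx⟩ hy.2⟩

theorem IsN.mul_right {x y : U} (hx : IsN m x) (hy : IsIntegral R y) : IsN m (x * y) :=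
  mul_comm y x ▸ hx.mul_left hy

theorem IsN.of_pow {x : U} {N : ℕ} (hN : 0 < N) (hx : IsN m (x ^ N)) : IsN m x :=
  ⟨IsIntegral.of_pow hN hx.1, Ideal.mem_radical_of_pow_mem (m := N) (by
    have := hx.2
    rw [JB] at this
    exact this)⟩

theorem IsN.pow {x : U} (hx : IsN m x) {N : ℕ} (hN : 0 < N) : IsN m (x ^ N) :=
  ⟨hx.1.pow N, (JB m (integralClosure R U)).pow_mem_of_mem hx.2 N hN⟩

theorem IsN.of_nilpotent {x : U} (hx : IsNilpotent x) : IsN m x := by
  obtain ⟨N, hN⟩ := hx
  exact IsN.of_pow N.succ_pos (by rw [pow_succ, hN, zero_mul]; exact IsN.zero)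

theorem IsN.of_mem {r : R} (hr : r ∈ m) : IsN m (algebraMap R U r) :=
  ⟨isIntegral_algebraMap, map_mem_JB (B := integralClosure R U) m hr⟩

theorem IsN.sum {ι : Type*} {s : Finset ι} {f : ι → U} (h : ∀ i ∈ s, IsN m (f i)) :
    IsN m (∑ i ∈ s, f i) :=
  Finset.sum_induction f (IsN m) (fun _ _ => IsN.add) IsN.zero h

theorem int_map (φ : R →+* R') (Φ : U →+* U')
    (h : ∀ r, Φ (algebraMap R U r) = algebraMap R' U' (φ r)) {y : U} (hy : IsIntegral R y) :
    IsIntegral R' (Φ y) := by
  obtain ⟨g, h1, h2⟩ := hy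
  refine ⟨g.map φ, h1.map φ, ?_⟩
  rw [Polynomial.eval₂_map, show (algebraMap R' U').comp φ = Φ.comp (algebraMap R U) from
    RingHom.ext fun r => (h r).symm, ← Polynomial.hom_eval₂, h2, map_zero]

theorem IsN.map (φ : R →+* R') (Φ : U →+* U')
    (h : ∀ r, Φ (algebraMap R U r) = algebraMap R' U' (φ r)) (hm : ∀ r ∈ m, φ r ∈ m'.radical)
    {y : U} (hy : IsN m y) : IsN m' (Φ y) :=
  ⟨int_map φ Φ h hy.1, JB_map φ ((Φ.comp (integralClosure R U).val.toRingHom).codRestrict
    (integralClosure R' U') fun x => int_map φ Φ h x.2) (fun r => Subtype.ext (h r)) hm hy.2⟩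

theorem IsN.unit [IsNoetherianRing R] [IsAdicComplete m R] {x : U} (hx : IsN m x) :
    ∃ z ∈ Algebra.adjoin R {x}, (1 + x) * z = 1 := by
  have : Module.Finite R (Algebra.adjoin R {x}) := ⟨(Submodule.fg_top _).2 hx.1.fg_adjoin_singleton⟩
  have h1 := (isN_iff _ ⟨x, Algebra.self_mem_adjoin_singleton R x⟩).1 hx
  obtain ⟨z, hz⟩ := (Ideal.mem_jacobson_bot.1 (IsAdicComplete.le_jacobson_bot _ h1)
    1).exists_right_inv
  refine ⟨z, z.2, ?_⟩
  have := congrArg Subtype.val hz
  simpa [add_comm] using this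

variable [Finite σ] [Finite τ]

theorem finite_adjoin {y : σ → U} (h : ∀ i, IsIntegral R (y i)) :
    Module.Finite R (Algebra.adjoin R (Set.range y)) :=
  ⟨(Submodule.fg_top _).2 (fg_adjoin_of_finite (Set.finite_range y)
    (by rintro _ ⟨i, rfl⟩; exact h i))⟩

variable [IsNoetherianRing R] [IsAdicComplete m R] [IsNoetherianRing R'] [IsAdicComplete m' R']

open Classical in
variable (m) in
/-- evaluation of power series -/
def evO (y : σ → U) : MvPowerSeries σ R →+* U :=
  if h : ∀ i, IsN m (y i) then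
    have := finite_adjoin fun i => (h i).int
    (Algebra.adjoin R (Set.range y)).val.toRingHom.comp
      (ev (JB m (Algebra.adjoin R (Set.range y))) (algebraMap R _)
        fun i => ⟨y i, Algebra.subset_adjoin ⟨i, rfl⟩⟩)
  else (algebraMap R U).comp constantCoeff

theorem evO_eq {B : Type*} [CommRing B] [Algebra R B] [Module.Finite R B] (Φ : B →ₐ[R] U)
    {y : σ → B} (h : ∀ i, y i ∈ JB m B) (g : MvPowerSeries σ R) :
    evO m (fun i => Φ (y i)) g = Φ (ev (JB m B) (algebraMap R B) y g) := by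
  have h0 : ∀ i, Φ.rangeRestrict (y i) ∈ JB m Φ.range := fun i => JB_map (RingHom.id R)
    (Φ.rangeRestrict : B →+* Φ.range) Φ.rangeRestrict.commutes (fun _ hr => Ideal.le_radical hr)
    (h i)
  have : Module.Finite R Φ.range :=
    Module.Finite.of_surjective Φ.rangeRestrict.toLinearMap Φ.rangeRestrict_surjective
  have h1 : ∀ i, IsN m (Φ (y i)) := fun i => (isN_iff Φ.range _).2 (h0 i)
  have := finite_adjoin fun i => (h1 i).int
  have hle : Algebra.adjoin R (Set.range fun i => Φ (y i)) ≤ Φ.range :=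
    Algebra.adjoin_le (by rintro _ ⟨i, rfl⟩; exact ⟨_, rfl⟩)
  have e1 := comp_ev (J' := JB m Φ.range) (algebraMap R B) (Φ.rangeRestrict : B →+* Φ.range) h h0 g
  have e2 := comp_ev (J := JB m (Algebra.adjoin R (Set.range fun i => Φ (y i))))
    (J' := JB m Φ.range) (algebraMap R _) (Subalgebra.inclusion hle).toRingHom
    (y := fun i => ⟨Φ (y i), Algebra.subset_adjoin ⟨i, rfl⟩⟩)
    (fun i => (isN_iff _ _).1 (h1 i)) h0 g
  rw [evO, dif_pos h1]
  rw [show (Φ.rangeRestrict : B →+* Φ.range).comp (algebraMap R B) = algebraMap R _ from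
    RingHom.ext Φ.rangeRestrict.commutes] at e1
  exact (congrArg Subtype.val e2).trans (congrArg Subtype.val e1).symm

theorem evO_sub (B : Subalgebra R U) [Module.Finite R B] {y : σ → U} (h : ∀ i, IsN m (y i))
    (hB : ∀ i, y i ∈ B) (g : MvPowerSeries σ R) :
    evO m y g = (ev (JB m B) (algebraMap R B) (fun i => ⟨y i, hB i⟩) g : B) :=
  evO_eq B.val (y := fun i => ⟨y i, hB i⟩) (fun i => (isN_iff B _).1 (h i)) g

@[simp] theorem evO_C (y : σ → U) (r : R) : evO m y (C r) = algebraMap R U r := by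
  unfold evO
  split_ifs <;> simp

variable {y : σ → U}

theorem evO_X (h : ∀ i, IsN m (y i)) (i : σ) : evO m y (X i) = y i := by
  have := finite_adjoin fun i => (h i).int
  rw [evO_sub (Algebra.adjoin R (Set.range y)) h fun i => Algebra.subset_adjoin ⟨i, rfl⟩,
    ev_X _ fun i => (isN_iff _ _).1 (h i)]

theorem evO_mem (B : Subalgebra R U) (hB : ∀ i, y i ∈ B) (g : MvPowerSeries σ R) :
    evO m y g ∈ B := by
  unfold evO
  split_ifs with h
  · exact Algebra.adjoin_le (by rintro _ ⟨i, rfl⟩; exact hB i) (Subtype.property _)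
  · exact B.algebraMap_mem _

theorem evO_int (h : ∀ i, IsN m (y i)) (g : MvPowerSeries σ R) : IsIntegral R (evO m y g) :=
  evO_mem (integralClosure R U) (fun i => (h i).int) g

theorem evO_sub_const (h : ∀ i, IsN m (y i)) (g : MvPowerSeries σ R) :
    IsN m (evO m y g - algebraMap R U (constantCoeff g)) := by
  have := finite_adjoin fun i => (h i).int
  rw [evO_sub (Algebra.adjoin R (Set.range y)) h fun i => Algebra.subset_adjoin ⟨i, rfl⟩]
  exact (isN_iff (Algebra.adjoin R (Set.range y)) _).2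
    (ev_sub_const _ (fun i => (isN_iff _ _).1 (h i)) g)

theorem evO_isN (h : ∀ i, IsN m (y i)) {g : MvPowerSeries σ R} (hg : constantCoeff g = 0) :
    IsN m (evO m y g) := by
  simpa [hg] using evO_sub_const h g

theorem evO_subst (h : ∀ i, IsN m (y i)) {a : τ → MvPowerSeries σ R}
    (ha : ∀ s, constantCoeff (a s) = 0) (g : MvPowerSeries τ R) :
    evO m y (subst a g) = evO m (fun s => evO m y (a s)) g := by
  have := finite_adjoin fun i => (h i).int
  have hB : ∀ i, y i ∈ Algebra.adjoin R (Set.range y) := fun i => Algebra.subset_adjoin ⟨i, rfl⟩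
  rw [evO_sub _ h hB, ev_subst _ (fun i => (isN_iff _ _).1 (h i)) ha,
    evO_sub _ (fun s => evO_isN h (ha s)) fun s => evO_mem _ hB _]
  congr 3
  funext s
  exact Subtype.ext (evO_sub _ h hB _).symm

/-- naturality -/
theorem map_evO (φ : R →+* R') (Φ : U →+* U')
    (hφ : ∀ r, Φ (algebraMap R U r) = algebraMap R' U' (φ r)) (h : ∀ i, IsN m (y i))
    (h' : ∀ i, IsN m' (Φ (y i))) (g : MvPowerSeries σ R) :
    Φ (evO m y g) = evO m' (fun i => Φ (y i)) (map φ g) := by
  have := finite_adjoin fun i => (h i).int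
  have := finite_adjoin fun i => (h' i).int
  have hB : ∀ i, y i ∈ Algebra.adjoin R (Set.range y) := fun i => Algebra.subset_adjoin ⟨i, rfl⟩
  have hB' : ∀ i, Φ (y i) ∈ Algebra.adjoin R' (Set.range fun i => Φ (y i)) := fun i =>
    Algebra.subset_adjoin ⟨i, rfl⟩
  have hle : ∀ x : Algebra.adjoin R (Set.range y),
      Φ x ∈ Algebra.adjoin R' (Set.range fun i => Φ (y i)) := fun ⟨x, hx⟩ => by
    induction hx using Algebra.adjoin_induction with
    | mem x hx => obtain ⟨i, rfl⟩ := hx; exact hB' i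
    | algebraMap r => rw [hφ]; exact Subalgebra.algebraMap_mem _ _
    | add a b _ _ ha hb => rw [map_add]; exact add_mem ha hb
    | mul a b _ _ ha hb => rw [map_mul]; exact mul_mem ha hb
  have e := comp_ev (J := JB m (Algebra.adjoin R (Set.range y)))
    (J' := JB m' (Algebra.adjoin R' (Set.range fun i => Φ (y i)))) (algebraMap R _)
    ((Φ.comp (Algebra.adjoin R (Set.range y)).val.toRingHom).codRestrict _ hle)
    (y := fun i => ⟨y i, hB i⟩) (fun i => (isN_iff _ _).1 (h i))
    (fun i => (isN_iff _ _).1 (h' i)) g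
  rw [evO_sub _ h hB, evO_sub _ h' hB', ev_map _ _ fun i => (isN_iff _ _).1 (h' i)]
  refine (congrArg Subtype.val e).trans ?_
  congr 3
  exact RingHom.ext fun r => Subtype.ext (hφ r)

theorem alg_evO [Algebra R U'] (Φ : U →ₐ[R] U') (h : ∀ i, IsN m (y i)) (g : MvPowerSeries σ R) :
    Φ (evO m y g) = evO m (fun i => Φ (y i)) g := by
  have := map_evO (m' := m) (RingHom.id R) (Φ : U →+* U') Φ.commutes h (fun i => (h i).map
    (RingHom.id R) (Φ : U →+* U') Φ.commutes fun _ hr => Ideal.le_radical hr) g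
  rwa [map_id] at this

/-- comparison with the evaluation in a complete ring -/
theorem evO_eq_ev (J : Ideal U) [IsAdicComplete J U] (h : ∀ i, IsN m (y i)) (hJ : ∀ i, y i ∈ J)
    (g : MvPowerSeries σ R) : evO m y g = ev J (algebraMap R U) y g :=
  eq_ev _ _ (evO_C y) (evO_X h) hJ g

theorem evO_zero (g : MvPowerSeries σ R) :
    evO m (fun _ => (0 : U)) g = algebraMap R U (constantCoeff g) := by
  rw [evO_eq_ev ⊥ (fun _ => IsN.zero) fun _ => Ideal.zero_mem _, ev_zero]

variable (m) in
/-- evaluation of power series in one variable -/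
def evO1 (x : U) : PowerSeries R →+* U := evO m fun _ : Unit => x

variable {x : U}

@[simp] theorem evO1_C (r : R) : evO1 m x (PowerSeries.C r) = algebraMap R U r := evO_C _ r

theorem evO1_X (h : IsN m x) : evO1 m x (PowerSeries.X : PowerSeries R) = x := evO_X (fun _ => h) ()

theorem evO1_isN (h : IsN m x) {g : PowerSeries R} (hg : PowerSeries.constantCoeff g = 0) :
    IsN m (evO1 m x g) := evO_isN (fun _ => h) hg

theorem evO1_mem (B : Subalgebra R U) (hB : x ∈ B) (g : PowerSeries R) : evO1 m x g ∈ B :=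
  evO_mem B (fun _ => hB) g

theorem evO_subst1 (h : ∀ i, IsN m (y i)) {a : MvPowerSeries σ R} (ha : constantCoeff a = 0)
    (g : PowerSeries R) : evO m y (PowerSeries.subst a g) = evO1 m (evO m y a) g :=
  evO_subst h (fun _ => ha) g

theorem evO1_subst1 (h : IsN m x) {a : PowerSeries R} (ha : PowerSeries.constantCoeff a = 0)
    (g : PowerSeries R) : evO1 m x (PowerSeries.subst a g) = evO1 m (evO1 m x a) g :=
  evO_subst1 (fun _ => h) ha g

theorem map_evO1 (φ : R →+* R') (Φ : U →+* U')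
    (hφ : ∀ r, Φ (algebraMap R U r) = algebraMap R' U' (φ r)) (h : IsN m x)
    (h' : IsN m' (Φ x)) (g : PowerSeries R) :
    Φ (evO1 m x g) = evO1 m' (Φ x) (PowerSeries.map φ g) :=
  map_evO φ Φ hφ (fun _ => h) (fun _ => h') g

theorem evO1_zero (g : PowerSeries R) :
    evO1 m (0 : U) g = algebraMap R U (PowerSeries.constantCoeff g) := evO_zero g

/-! ### points -/

/-- the generic point -/
def xx' (F : Law R) : ZPt F.toFG Unit := ZPt.mk F.toFG PowerSeries.X PowerSeries.constantCoeff_X

variable (m U) in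
/-- the points of a law -/
@[ext] structure Pt (F : Law R) where
  /-- the coordinate -/
  val : U
  isN : IsN m val

namespace Pt

variable {F : Law R}

theorem isN2 (a b : Pt U m F) : ∀ i, IsN m (![a.val, b.val] i) :=
  Fin.forall_fin_two.2 ⟨a.isN, b.isN⟩

instance : Add (Pt U m F) := ⟨fun a b => ⟨evO m ![a.val, b.val] F.ps,
  evO_isN (isN2 a b) F.toFG.zero_constantCoeff⟩⟩

instance : Zero (Pt U m F) := ⟨⟨0, IsN.zero⟩⟩

instance : Neg (Pt U m F) := ⟨fun a => ⟨evO1 m a.val (-xx' F).val,
  evO1_isN a.isN (ZPt.constantCoeff_val _)⟩⟩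

theorem val_add (a b : Pt U m F) : (a + b).val = evO m ![a.val, b.val] F.ps := rfl

@[simp] theorem val_zero : (0 : Pt U m F).val = 0 := rfl

/-- evaluation of formal points -/
def ofZ (h : ∀ i, IsN m (y i)) (z : ZPt F.toFG σ) : Pt U m F :=
  ⟨evO m y z.val, evO_isN h z.constantCoeff_val⟩

theorem ofZ_add (h : ∀ i, IsN m (y i)) (z z' : ZPt F.toFG σ) :
    ofZ h (z + z') = ofZ h z + ofZ h z' := Pt.ext (by
  refine (evO_subst h (Fin.forall_fin_two.2 ⟨z.constantCoeff_val, z'.constantCoeff_val⟩)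
    _).trans ?_
  rw [val_add]
  congr 2
  funext i
  fin_cases i <;> rfl)

theorem ofZ_zero (h : ∀ i, IsN m (y i)) : ofZ h (0 : ZPt F.toFG σ) = 0 := Pt.ext (map_zero _)

theorem ofZ_X (a : σ → Pt U m F) (i : σ) :
    ofZ (fun i => (a i).isN) (ZPt.mk F.toFG (X i) (constantCoeff_X i)) = a i :=
  Pt.ext (evO_X (fun i => (a i).isN) i)

theorem exists_ofZ (a : σ → Pt U m F) : ∃ (z : σ → ZPt F.toFG σ) (E : ZPt F.toFG σ → Pt U m F),
    (∀ i, E (z i) = a i) ∧ (∀ s t, E (s + t) = E s + E t) ∧ E 0 = 0 :=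
  ⟨_, _, ofZ_X a, ofZ_add _, ofZ_zero _⟩

instance : AddCommGroup (Pt U m F) where
  add_assoc a b c := by
    obtain ⟨z, E, h1, h2, -⟩ := exists_ofZ ![a, b, c]
    have := congrArg E (add_assoc (z 0) (z 1) (z 2))
    simpa [h1, h2] using this
  zero_add a := by
    obtain ⟨z, E, h1, h2, h3⟩ := exists_ofZ ![a]
    have := h2 0 (z 0)
    rw [zero_add, h1, h3] at this
    exact this.symm
  add_zero a := by
    obtain ⟨z, E, h1, h2, h3⟩ := exists_ofZ ![a]
    have := h2 (z 0) 0
    rw [add_zero, h1, h3] at this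
    exact this.symm
  add_comm a b := by
    obtain ⟨z, E, h1, h2, -⟩ := exists_ofZ ![a, b]
    have := congrArg E (add_comm (z 0) (z 1))
    simpa [h1, h2] using this
  neg_add_cancel a := by
    have := ofZ_add (y := fun _ : Unit => a.val) (fun _ => a.isN) (-xx' F) (xx' F)
    rw [neg_add_cancel, ofZ_zero] at this
    refine Eq.trans ?_ this.symm
    congr 1
    exact Pt.ext (evO1_X a.isN).symm
  nsmul := nsmulRec
  zsmul := zsmulRec

/-- evaluation of formal points is additive -/
def ofZH (h : ∀ i, IsN m (y i)) : ZPt F.toFG σ →+ Pt U m F where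
  toFun := ofZ h
  map_zero' := ofZ_zero h
  map_add' := ofZ_add h

theorem val_nsmul (k : ℕ) (a : Pt U m F) :
    (k • a).val = evO1 m a.val (multSeries F.toFG k) := by
  have h := map_nsmul (ofZH (y := fun _ : Unit => a.val) fun _ => a.isN) k (xx' F)
  have e : ofZH (y := fun _ : Unit => a.val) (fun _ => a.isN) (xx' F) = a := Pt.ext (evO1_X a.isN)
  rw [e] at h
  rw [← h]
  change evO1 m a.val (k • xx' F).val = _
  rw [ZPt.val_nsmul]
  exact congrArg _ (PowerSeries.X_subst _)

theorem val_neg (a : Pt U m F) : (-a).val = evO1 m a.val (-xx' F).val := rfl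

/-- change of rings -/
def map (φ : R →+* R') (Φ : U →+* U')
    (hφ : ∀ r, Φ (algebraMap R U r) = algebraMap R' U' (φ r)) (hm : ∀ r ∈ m, φ r ∈ m'.radical)
    {F' : Law R'} (hF : F.map φ = F') : Pt U m F →+ Pt U' m' F' where
  toFun a := ⟨Φ a.val, a.isN.map φ Φ hφ hm⟩
  map_zero' := Pt.ext (map_zero Φ)
  map_add' a b := Pt.ext (by
    subst hF
    refine (map_evO φ Φ hφ (isN2 a b) (fun i => (isN2 a b i).map φ Φ hφ hm) _).trans ?_
    rw [val_add]
    congr 2
    funext i
    fin_cases i <;> rfl)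

/-- change of the algebra -/
def mapA [Algebra R U'] (Φ : U →ₐ[R] U') : Pt U m F →+ Pt U' m F :=
  map (RingHom.id R) (Φ : U →+* U') Φ.commutes (fun _ hr => Ideal.le_radical hr) F.map_id

@[simp] theorem mapA_val [Algebra R U'] (Φ : U →ₐ[R] U') (a : Pt U m F) :
    (mapA Φ a).val = Φ a.val := rfl

/-- the map given by a homomorphism of laws -/
def hom {F' : Law R} {g : PowerSeries R} (hg : IsHom F.toFG F'.toFG g) :
    Pt U m F →+ Pt U m F' where
  toFun a := ⟨evO1 m a.val g, evO1_isN a.isN hg.1⟩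
  map_zero' := Pt.ext ((evO1_zero g).trans (by rw [hg.1, map_zero]; rfl))
  map_add' a b := Pt.ext (by
    have := congrArg (evO m ![a.val, b.val]) hg.2
    rw [evO_subst1 (isN2 a b) F.toFG.zero_constantCoeff, evO_subst (isN2 a b)
      (Fin.forall_fin_two.2 ⟨PowerSeries.constantCoeff_subst_eq_zero (constantCoeff_X _) _ hg.1,
        PowerSeries.constantCoeff_subst_eq_zero (constantCoeff_X _) _ hg.1⟩)] at this
    refine this.trans ?_
    rw [val_add]
    congr 2
    funext i
    fin_cases i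
    · exact (evO_subst1 (isN2 a b) (constantCoeff_X _) g).trans (by rw [evO_X (isN2 a b)]; rfl)
    · exact (evO_subst1 (isN2 a b) (constantCoeff_X _) g).trans (by rw [evO_X (isN2 a b)]; rfl))

theorem hom_val {F' : Law R} {g : PowerSeries R} (hg : IsHom F.toFG F'.toFG g) (a : Pt U m F) :
    (hom hg a).val = evO1 m a.val g := rfl

variable (m F) in
/-- the points with coordinate in a subalgebra -/
def sub (B : Subalgebra R U) : AddSubgroup (Pt U m F) where
  carrier := {a | a.val ∈ B}
  add_mem' ha hb := evO_mem B (Fin.forall_fin_two.2 ⟨ha, hb⟩) _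
  zero_mem' := B.zero_mem
  neg_mem' ha := evO1_mem B ha _

/-- the difference of two coordinates -/
theorem exists_val_add (a b : Pt U m F) : ∃ u : Uˣ, (u : U) ∈ Algebra.adjoin R {a.val, b.val} ∧
    (u⁻¹ : Uˣ).val ∈ Algebra.adjoin R {a.val, b.val} ∧ (a + b).val = a.val * u + b.val := by
  obtain ⟨H, hH⟩ := exists_FG_decomp F.toFG
  have ha : a.val ∈ Algebra.adjoin R {a.val, b.val} := Algebra.subset_adjoin (by simp)
  have hb : b.val ∈ Algebra.adjoin R {a.val, b.val} := Algebra.subset_adjoin (by simp)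
  have hH' := mul_mem hb (evO_mem (m := m) _ (Fin.forall_fin_two.2 ⟨ha, hb⟩ :
    ∀ i, ![a.val, b.val] i ∈ _) H)
  obtain ⟨z, hz, h1⟩ := (b.isN.mul_right (evO_int (isN2 a b) H)).unit
  refine ⟨⟨_, z, h1, mul_comm z _ ▸ h1⟩, add_mem (one_mem _) hH',
    Algebra.adjoin_le (by simpa using hH') hz, ?_⟩
  rw [val_add, Law.ps, hH, map_add, map_add, map_mul, map_mul, evO_X (isN2 a b), evO_X (isN2 a b)]
  simp only [Matrix.cons_val_zero, Matrix.cons_val_one]
  ring

end Pt

end P261.Ig
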