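import Vale.Agent.P261Z.Ig.Univ
import Vale.Agent.P261Z.C2.Alg
import Vale.Agent.P261Z.L.Defs
import Vale.Agent.P261Z.W.Aic

/-!
# P261Z, block Ig, first layer: statements on points
-/

noncomputable section

open Matrix

namespace P261.Ig

open P261.C2

variable (p : ℕ) [hp : Fact p.Prime]

theorem V0_eq (E : Type) [Fintype E] [DecidableEq E] (h : ℕ) (K : Type) [CommRing K] :
    V0 p E h (WittVector p K) = fromBlocks 1 0 0 (Au p h (0 : ℕ → K)) := by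
  rw [V0]
  congr 1
  ext1 i j
  by_cases h1 : (i : ℕ) = j + 1 <;> by_cases h2 : (i : ℕ) = 0 <;> by_cases h3 : (j : ℕ) + 1 = h <;>
    simp [Au, Cm, h1, h2, h3]

theorem mw_V0 (E : Type) [Fintype E] [DecidableEq E] (h : ℕ) {K L : Type} [CommRing K]
    [CommRing L] (f : K →+* L) : mw f (V0 p E h (WittVector p K)) = V0 p E h (WittVector p L) :=
  V0_map (wm p f)

theorem mw_Au {K L : Type} [CommRing K] [CommRing L] (f : K →+* L) (n : ℕ) (u : ℕ → K) :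
    mw f (Au p n u) = Au p n fun i => f (u i) := Au_map p f n u

/-- zeros of additive operators can be lifted -/
def WLIFT : Prop := ∀ (K : Type) [CommRing K] [Pf p K] (I : Type)
  (Ψ : (I → WittVector p K) →+ (I → WittVector p K)),
  (∀ y : I → K, ∃ x, ∀ i, (Ψ x i).coeff 0 = y i) → ∀ x₀, (∀ i, (Ψ x₀ i).coeff 0 = 0) →
    ∃ x, Ψ x = 0 ∧ ∀ i, (x i).coeff 0 = (x₀ i).coeff 0

/-- independent roots of additive polynomials -/
def MOORE : Prop := ∀ (K : Type) [CommRing K] [Ch p K], Aic K → ∀ (c : ℕ) (a : ℕ → K),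
  IsUnit (a 0) → IsUnit (a c) → ∃ s : Fin c → K,
    (∀ l, ∑ i ∈ Finset.range (c + 1), a i * s l ^ p ^ i = 0) ∧
    IsUnit (Matrix.of fun l i : Fin c => s l ^ p ^ (i : ℕ))

/-- the rows of slope zero -/
def IGA : Prop := ∀ (h c : ℕ) (K : Type) [CommRing K] [Pf p K], Aic K → ∀ u : ℕ → K, 1 ≤ h →
  0 < c → (∀ i < h, u i = 0) → IsUnit (u h) →
  ∃ α : Matrix (Fin c) (Fin (h + c)) (WittVector p K), α.map (si p K) = α * Au p (h + c) u ∧
    IsUnit (Matrix.of fun l i : Fin c => (α l (Fin.natAdd h i)).coeff 0)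

/-- the rows of positive slope -/
def IGB : Prop := ∀ (h c : ℕ) (K : Type) [CommRing K] [Pf p K], Aic K → ∀ u : ℕ → K, 1 ≤ h →
  0 < c → (∀ i < h, u i = 0) → IsUnit (u h) →
  ∃ β : Matrix (Fin h) (Fin (h + c)) (WittVector p K),
    Au p h (0 : ℕ → K) * β.map (si p K) = β * Au p (h + c) u ∧
    IsUnit (Matrix.of fun j i : Fin h => (β j (Fin.castAdd c i)).coeff 0) ∧
    ∀ (j : Fin h) (i : Fin c), (β j (Fin.natAdd h i)).coeff 0 = 0

/-- existence of points -/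
def IGX : Prop := ∀ (h c : ℕ) (K : Type) [CommRing K] [Pf p K], Aic K → ∀ u : ℕ → K, 1 ≤ h →
  0 < c → (∀ i < h, u i = 0) → IsUnit (u h) →
  ∃ μ ν, Iso (V0 p (Fin c) h (WittVector p K)) (Au p (h + c) u) μ ν

/-- the first parameter is a unit -/
def VU : Prop := ∀ (h c : ℕ) (K : Type) [CommRing K] [Pf p K] (u : ℕ → K), 1 ≤ h → 0 < c →
  (∀ i < h, u i = 0) → ∀ μ ν, Iso (V0 p (Fin c) h (WittVector p K)) (Au p (h + c) u) μ ν →
    IsUnit (u h) ∧ IsUnit (Matrix.of fun i l : Fin c => (ν (Fin.natAdd h i) (.inl l)).coeff 0) ∧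
    (∀ (i : Fin h) (l : Fin c), (ν (Fin.castAdd c i) (.inl l)).coeff 0 = 0) ∧
    ∀ (i : Fin (h + c)) (j : Fin h), (i : ℕ) = 0 → (j : ℕ) = 0 → IsUnit ((μ (.inr j) i).coeff 0)

end P261.Ig
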