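import Vale.Agent.P261Z.KS.Line
import Vale.Agent.P261Z.PB.Amb
import Vale.Agent.P261Z.P.Defs
import Vale.Agent.P261Z.NM.Defs
import Vale.Agent.P261Z.N.Log

/-!
# P261, blocks N3 N4 N6: the formal data on the big ring, the rings of finite level, statements
-/

set_option linter.unusedSectionVars false

noncomputable section

namespace P261.Ig

open Vale.Agent.P261Z Vale.Agent.P261Z.N Vale.Agent.P217 Vale.Agent.P251.F

variable {p h c : ℕ} [hp : Fact p.Prime] {K G : Type} [Field K] [Pf p K] [Group G]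
  [TopologicalSpace G]

variable (p h) in
/-- the law of height `h` -/
def HL (S : Type) [CommRing S] : Law S := hzn p h fun _ => 0

theorem HL_map {S S' : Type} [CommRing S] [CommRing S'] (φ : S →+* S') :
    (HL p h S).map φ = HL p h S' := by
  rw [HL, hzn_map, HL]
  exact congrArg _ (funext fun _ => map_zero φ)

theorem HL_p {S : Type} [CommRing S] (hS : (p : S) = 0) (hh : h ≠ 0) :
    multSeries (HL p h S).toFG p = PowerSeries.X ^ p ^ h := by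
  obtain ⟨n, rfl⟩ := Nat.exists_eq_succ_of_ne_zero hh
  have h1 := N.pser p S hS (par (n + 1) fun _ => (0 : S)) (n + 1) fun i hi => by
    rw [par, if_neg (by omega), if_neg (by omega)]
  rw [Finset.sum_range_succ, Finset.sum_eq_zero fun i hi => by
    rw [par, if_pos (by simpa using hi), mon_zero], zero_add, par, if_neg (lt_irrefl _),
    if_pos rfl] at h1
  have h2 := congrArg Cv.ser h1
  rwa [Cv.ser_nsmul, xx_ser, PowerSeries.X_subst, mon_xx_ser, map_one, one_mul] at h2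

variable (h c) in
/-- coordinates on a group functor -/
structure GC (H : PC.GF p) : Type 1 where
  /-- the coordinates -/
  co : ∀ {S : Type} [CommRing S] [Algebra (ZMod p) S],
    H.Pt S ≃+ (Fin c → Pt S (⊥ : Ideal (ZMod p)) (HL p h (ZMod p)))
  co_map : ∀ {S S' : Type} [CommRing S] [Algebra (ZMod p) S] [CommRing S'] [Algebra (ZMod p) S']
    (f : S →ₐ[ZMod p] S') (τ : H.Pt S) (i : Fin c), (co (H.map f τ) i).val = f (co τ i).val

variable (c K) in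
/-- the maximal ideal -/
abbrev mm : Ideal (RR c K) := Ev.IX (Fin c) K

variable (K) in
/-- the first parameter -/
abbrev vR (hc : 0 < c) : RR c K := MvPowerSeries.X ⟨0, hc⟩

variable (p h c K) in
/-- the points of the law over the base ring -/
abbrev PtR (U : Type) [CommRing U] [Algebra (RR c K) U] : Type := Pt U (mm c K) (FR p h c K)

/-- The formal data on the big perfect ring `AA`. -/
structure FD (A : RG p h c G K) (hc : 0 < c) (AA : Type) [CommRing AA] [Algebra (RR c K) AA]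
    [Pf p AA] (Γ : Type) [Group Γ] where
  hh : h ≠ 0
  inj : Function.Injective (algebraMap (RR c K) AA)
  /-- the first parameter as a unit -/
  v : AAˣ
  v_eq : (v : AA) = algebraMap (RR c K) AA (vR K hc)
  /-- the action of `Γ` -/
  ga : Γ →* (AA →ₐ[RR c K] AA)
  /-- the congruence subgroups -/
  Gs : ℕ → Subgroup Γ
  Gs_zero : Gs 0 = ⊤
  Gs_anti : Antitone Gs
  Gs_normal : ∀ j, (Gs j).Normal
  Gs_index : ∃ D : ℕ, ∀ j, (Gs j).index ≠ 0 ∧ (Gs j).index ≤ D ^ j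
  smooth : ∀ z, ∃ j, ∀ γ ∈ Gs j, ga γ z = z
  inv : ∀ z, (∀ γ, ga γ z = z) → ∃ (k N : ℕ) (r : RR c K),
    (v : AA) ^ N * z ^ p ^ k = algebraMap (RR c K) AA r
  /-- the action of `G` -/
  gg : G →* (AA →+* AA)
  gg_alg : ∀ g r, gg g (algebraMap (RR c K) AA r) = algebraMap (RR c K) AA (A.phi g r)
  comm : ∀ g γ z, gg g (ga γ z) = ga γ (gg g z)
  /-- the isomorphism with the law of height `h` -/
  f : PowerSeries AA
  f_hom : IsHom ((FR p h c K).map (algebraMap (RR c K) AA)).toFG (HL p h AA).toFG f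
  f_unit : IsUnit (PowerSeries.coeff 1 f)
  gg_f : ∀ g, PowerSeries.map (gg g) f =
    f.subst (PowerSeries.map (algebraMap (RR c K) AA) (A.ser g).val)
  /-- the points of order `p ^ L` -/
  P : ℕ → Fin c → PtR p h c K AA
  P_zero : ∀ i, P 0 i = 0
  P_succ : ∀ L i, p • P (L + 1) i = P L i
  P_unit : ∀ l : Fin c → ℕ, (∃ i, ¬ p ∣ l i) → IsUnit (∑ i, l i • P 1 i).val
  gg_P : ∀ g L i, evO1 (mm c K) (gg g (P L i).val) (A.ser g).val = (P L i).val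
  /-- the series of an element of `Γ` -/
  eg : Γ → PowerSeries K
  /-- the matrices of an element of `Γ` -/
  en : Γ → ℕ → Fin c → Fin c → ℕ
  eg_zero : ∀ γ, PowerSeries.constantCoeff (eg γ) = 0
  ga_f : ∀ γ, PowerSeries.map (ga γ : AA →+* AA) f =
    (PowerSeries.map ((algebraMap (RR c K) AA).comp MvPowerSeries.C) (eg γ)).subst f
  ga_P : ∀ γ L i, Pt.mapA (ga γ) (P L i) = ∑ k, en γ L i k • P L k
  mem_Gs : ∀ γ j, γ ∈ Gs j ↔
    (∀ d < (p ^ h) ^ j, PowerSeries.coeff d (eg γ) = PowerSeries.coeff d PowerSeries.X) ∧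
      ∀ i k, en γ j i k ≡ (if i = k then 1 else 0) [MOD p ^ j]
  /-- the central elements -/
  a : ℕ → Γ
  a_comm : ∀ s γ, a s * γ = γ * a s
  a_one : a 1 = 1
  a_mul : ∀ s t, s % p = 1 → t % p = 1 → a (s * t) = a s * a t
  a_f : ∀ s, PowerSeries.map (ga (a s) : AA →+* AA) f = f
  a_P : ∀ s, s % p = 1 → ∀ L i, Pt.mapA (ga (a s)) (P L i) = s • P L i

namespace FD

variable {A : RG p h c G K} {hc : 0 < c} {AA : Type} [CommRing AA] [Algebra (RR c K) AA]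
  [Pf p AA] {Γ : Type} [Group Γ] (I : FD A hc AA Γ)

/-- the coordinate of the point of order `p ^ M` -/
abbrev x (M : ℕ) (i : Fin c) : AA := (I.P M i).val

/-- its power of level zero -/
abbrev y (M : ℕ) (i : Fin c) : AA := I.x M i ^ (p ^ h) ^ M

/-- the generators -/
def gens (j : ℕ) : Set AA :=
  {z | (∃ d < (p ^ h) ^ j, z = PowerSeries.coeff d I.f) ∨ ∃ i, z = I.y j i}

/-- the naive integral ring -/
def L (j : ℕ) : Subalgebra (RR c K) AA := Algebra.adjoin (RR c K) (I.gens j)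

/-- the ring of level zero -/
def T (j : ℕ) : Subalgebra (RR c K) AA :=
  Algebra.adjoin (RR c K) (insert ((I.v⁻¹ : AAˣ) : AA) (I.gens j))

/-- the integral elements -/
abbrev OO (_I : FD A hc AA Γ) : Subalgebra (RR c K) AA := integralClosure (RR c K) AA

/-- the integral elements of level zero -/
def O (j : ℕ) : Subalgebra (RR c K) AA := I.OO ⊓ I.T j

/-- the ring of level `M` -/
abbrev TL (M j : ℕ) : Subalgebra (RR c K) AA := P.rtA p (h * M) (I.T j)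

theorem mem_TL {M j : ℕ} {z : AA} : z ∈ I.TL M j ↔ z ^ (p ^ h) ^ M ∈ I.T j := by
  rw [P.mem_rtA, pow_mul]

/-- the integral elements of level `M` -/
def OL (M j : ℕ) : Subalgebra (RR c K) AA := I.OO ⊓ I.TL M j

/-- the trace -/
def Tr (j j' : ℕ) (z : AA) : AA :=
  ∑ᶠ δ : I.Gs j ⧸ (I.Gs j').subgroupOf (I.Gs j), I.ga (δ.out : I.Gs j) z

/-- elementary facts on `f` -/
structure BasF : Prop where
  rel : ∀ d, PowerSeries.coeff d I.f ^ p ^ h - (I.v : AA) ^ d * PowerSeries.coeff d I.f ∈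
    Algebra.adjoin (RR c K) {z | ∃ e < d, z = PowerSeries.coeff e I.f}
  int : ∀ d, IsIntegral (RR c K) (PowerSeries.coeff d I.f)
  one : PowerSeries.coeff 1 I.f ^ (p ^ h - 1) = I.v
  gg_one : ∀ g, I.gg g (PowerSeries.coeff 1 I.f) =
    algebraMap (RR c K) AA (A.t g) * PowerSeries.coeff 1 I.f
  gg_v : ∀ g, I.gg g I.v = algebraMap (RR c K) AA (A.t g ^ (p ^ h - 1)) * I.v
  ga_f : ∀ γ d, I.ga γ (PowerSeries.coeff d I.f) ∈
    Algebra.adjoin (RR c K) {z | ∃ e ≤ d, z = PowerSeries.coeff e I.f}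
  gg_f : ∀ g d, I.gg g (PowerSeries.coeff d I.f) ∈
    Algebra.adjoin (RR c K) {z | ∃ e ≤ d, z = PowerSeries.coeff e I.f}
  fix_f : ∀ j, ∀ γ ∈ I.Gs j, ∀ d < (p ^ h) ^ j,
    I.ga γ (PowerSeries.coeff d I.f) = PowerSeries.coeff d I.f

/-- elementary facts on the rings -/
structure Bas : Prop extends I.BasF where
  tor : ∀ M i, p ^ M • I.P M i = 0
  sum_mem : ∀ j (l : Fin c → ℕ),
    (∑ i, l i • I.P j i).val ∈ Algebra.adjoin (RR c K) (Set.range (I.x j))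
  pow_L : ∀ j, ∀ z ∈ Algebra.adjoin (RR c K) (Set.range (I.x j)), z ^ (p ^ h) ^ j ∈ I.L j
  step : ∀ j i (σ : RR c K →+* RR c K), (∀ r, σ r = r ^ (p ^ h) ^ j) →
    evO1 (mm c K) (I.y (j + 1) i) (PowerSeries.map σ (KS.psi p h (FR p h c K))) = I.y j i
  gg_x : ∀ g M i, I.gg g (I.x M i) = evO1 (mm c K) (I.x M i) (A.ser g)⁻¹.val
  L_mono : Monotone I.L
  T_mono : Monotone I.T
  L_le : ∀ j, I.L j ≤ I.O j
  L_fin : ∀ j, Module.Finite (RR c K) (I.L j)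
  mem_T : ∀ j z, z ∈ I.T j ↔ ∃ N : ℕ, (I.v : AA) ^ N * z ∈ I.L j
  mem_T0 : ∀ z, z ∈ I.T 0 ↔ ∃ (N : ℕ) (r : RR c K), (I.v : AA) ^ N * z = algebraMap (RR c K) AA r
  O_zero : I.O 0 = ⊥
  ga_L : ∀ γ j, ∀ z ∈ I.L j, I.ga γ z ∈ I.L j
  ga_T : ∀ γ j, ∀ z ∈ I.T j, I.ga γ z ∈ I.T j
  gg_L : ∀ g j, ∀ z ∈ I.L j, I.gg g z ∈ I.L j
  gg_T : ∀ g j, ∀ z ∈ I.T j, I.gg g z ∈ I.T j
  gg_OO : ∀ g, ∀ z ∈ I.OO, I.gg g z ∈ I.OO
  fix : ∀ j, ∀ γ ∈ I.Gs j, ∀ z ∈ I.T j, I.ga γ z = z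

/-- the generators separate the cosets -/
def Sep : Prop := ∀ j γ, γ ∉ I.Gs j → ∃ z ∈ I.L j, ∃ w ∈ I.L j,
  w * (I.ga γ z - z) = (I.v : AA) ^ (p ^ h) ^ j

open Classical in
/-- the separability elements -/
def Gal : Prop := ∃ D : ℕ, ∀ j, ∃ N ≤ D ^ (j + 1), ∃ (n : ℕ) (a b : Fin n → AA),
  (∀ i, a i ∈ I.L j) ∧ (∀ i, b i ∈ I.L j) ∧
    ∀ γ, ∑ i, a i * I.ga γ (b i) = if γ ∈ I.Gs j then (I.v : AA) ^ N else 0

/-- the rings of level zero are generated by powers -/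
def Rf : Prop := ∀ j k, I.T j ≤
  Algebra.adjoin (RR c K) (insert ((I.v⁻¹ : AAˣ) : AA) {z | ∃ z' ∈ I.L j, z = z' ^ p ^ k})

/-- traces -/
structure Trc : Prop where
  fin : ∀ j j', ((I.Gs j').subgroupOf (I.Gs j)).FiniteIndex
  Tr_fix : ∀ j j' z, (∀ γ ∈ I.Gs j', I.ga γ z = z) →
    ∀ γ ∈ I.Gs j, I.ga γ (I.Tr j j' z) = I.Tr j j' z
  dual : ∃ D : ℕ, ∀ j, ∃ N ≤ D ^ (j + 1), ∃ (n : ℕ) (a b : Fin n → AA), (∀ i, a i ∈ I.L j) ∧
    (∀ i, b i ∈ I.L j) ∧ ∀ z, (∀ γ ∈ I.Gs j, I.ga γ z = z) →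
      (I.v : AA) ^ N * z = ∑ i, a i * I.Tr 0 j (b i * z)
  perf : ∀ j z, (∀ γ ∈ I.Gs j, I.ga γ z = z) → ∃ M, z ∈ I.TL M j
  exh : ∀ z, ∃ N : ℕ, (I.v : AA) ^ N * z ∈ I.OO
  one : ∃ D : ℕ, ∀ j j', j ≤ j' → ∃ N ≤ D ^ (j' + 1), ∃ t ∈ I.L j', I.Tr j j' t = (I.v : AA) ^ N

/-- invariants -/
structure Inv : Prop where
  invT : ∀ j j', ∀ z ∈ I.T j', (∀ γ ∈ I.Gs j, I.ga γ z = z) → z ∈ I.T j
  Tr_base : ∀ j, ∀ z ∈ I.O j, ∃ r : RR c K, I.Tr 0 j z = algebraMap (RR c K) AA r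

/-- the monomials in the points are a basis -/
def Mon : Prop := ∃ D : ℕ, ∀ B M j, B ≤ M → M ≤ j →
  (∀ z ∈ I.OL M j, ∃ r : (Fin c → Fin ((p ^ h) ^ B)) → AA, (∀ α, r α ∈ I.OL (M - B) j) ∧
    (I.v : AA) ^ D ^ (j + 1) * z = ∑ α, r α * PB.mn (I.x M) α) ∧
  ∀ r : (Fin c → Fin ((p ^ h) ^ B)) → AA, (∀ α, r α ∈ I.TL (M - B) j) →
    ∑ α, r α * PB.mn (I.x M) α = 0 → ∀ α, r α = 0

/-- retractions to level zero -/
def Ret : Prop := ∃ D : ℕ, ∀ j n, ∃ π : P.rtA p n (I.T j) →+ AA, π 1 = 1 ∧ (∀ x, π x ∈ I.T j) ∧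
  (∀ y x : P.rtA p n (I.T j), (y : AA) ∈ I.T j → π (y * x) = y * π x) ∧
  ∀ x : P.rtA p n (I.T j), IsIntegral (RR c K) (x : AA) →
    IsIntegral (RR c K) (algebraMap (RR c K) AA (vR K hc) ^ D ^ (j + 1) * π x)

/-- continuity of the action of `G` -/
def Adm : Prop := ∀ z : AA, (fun g => I.gg g z) ∈ NM.Cts (mm c K) G AA

/-- the torsors -/
def Td [Algebra (ZMod p) (RR c K)] [Algebra (ZMod p) AA] [IsScalarTower (ZMod p) (RR c K) AA]
    (H : PC.GF p) : Prop := ∃ D : ℕ, ∀ j M B, B ≤ M → M + 1 ≤ j →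
  Nonempty (P.RT H (fun g => I.gg g) (fun s => (I.ga (I.a s) : AA →+* AA)) (vR K hc)
    (I.T j) (I.TL (M - B) j) (I.TL M j) h M B (D ^ (j + 1)))

end FD

end P261.Ig
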