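import Vale.Agent.P261Z.Ig.Inv
import Vale.Agent.P261Z.C2.TG
import Vale.Agent.P261Z.L.Act
import Vale.Agent.P261Z.NM.Nf
import Vale.Agent.P261Z.Ser.RGsa

/-!
# P261Z, block Ig: the concrete model
-/

noncomputable section

open Matrix MvPowerSeries

namespace P261.Ig

open P261.C2 UN Vale.Agent.P261Z Vale.Agent.P261Z.N

variable {p : ℕ} [hp : Fact p.Prime]

/-! ### central elements -/

section cen

variable {E : Type} [Fintype E] [DecidableEq E] {h : ℕ} {k : Type} [CommRing k] [Pf p k] {s t : ℕ}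

theorem iso_Th (hs : s % p = 1) : Iso (V0 p E h _) (V0 p E h _) (Th E h _ (s : WittVector p k))
    (Th E h _ (Ring.inverse (s : WittVector p k))) :=
  ⟨Th_inv' hs, Th_inv hs, by rw [Th_map, map_natCast, Th_V0]⟩

variable (p E h k) in
/-- multiplication by `s` on the part of slope zero -/
def cen (s : ℕ) : Gam p E h k := if hs : s % p = 1 then Gam.mk (iso_Th hs) else 1

theorem cen_mat (hs : s % p = 1) : (cen p E h k s).mat = Th E h _ (s : WittVector p k) := by
  rw [cen, dif_pos hs, Gam.mat_mk]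

theorem cen_inv_mat (hs : s % p = 1) :
    (cen p E h k s)⁻¹.mat = Th E h _ (Ring.inverse (s : WittVector p k)) := by
  rw [cen, dif_pos hs, Gam.mat_mk_inv]

theorem cen_ne (hs : ¬s % p = 1) : cen p E h k s = 1 := dif_neg hs

theorem cen_one : cen p E h k 1 = 1 :=
  Gam.ext (by rw [cen_mat (Nat.mod_eq_of_lt one_lt_p), Nat.cast_one, Th_one, Gam.mat_one])

theorem cen_mul (hs : s % p = 1) (ht : t % p = 1) :
    cen p E h k (s * t) = cen p E h k s * cen p E h k t :=
  Gam.ext (by
    rw [Gam.mat_mul, cen_mat hs, cen_mat ht, Th_mul, cen_mat, Nat.cast_mul]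
    rw [Nat.mul_mod, hs, ht]
    exact Nat.mod_eq_of_lt one_lt_p)

theorem cen_comm (s : ℕ) (g : Gam p E h k) : cen p E h k s * g = g * cen p E h k s := by
  by_cases hs : s % p = 1
  · refine Gam.ext ?_
    rw [Gam.mat_mul, Gam.mat_mul, cen_mat hs, ← fromBlocks_toBlocks g.mat,
      show g.mat.toBlocks₁₂ = 0 from Matrix.ext g.inl_inr,
      show g.mat.toBlocks₂₁ = 0 from Matrix.ext g.inr_inl]
    simp [Th, fromBlocks_multiply]
  · rw [cen_ne hs, one_mul, mul_one]

theorem cen_cong {j : ℕ} (hs : s % p = 1) (ht : t % p = 1) (e : s ≡ t [MOD p ^ j]) :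
    (cen p E h k s)⁻¹ * cen p E h k t ∈ Gs p E h k j := by
  have h1 : Cg j (s : WittVector p k) t := by
    obtain ⟨y, hy⟩ := (Nat.modEq_iff_dvd.1 e.symm)
    refine Cg.iff_sub.2 (cg_zero_iff.2 ⟨y, ?_⟩)
    exact_mod_cast congrArg (Int.cast : ℤ → WittVector p k) hy
  rw [inv_mul_mem_Gs, cen_mat hs, cen_mat ht]
  rintro (a | a) (b | b) <;>
    simp only [Th, fromBlocks_apply₁₁, fromBlocks_apply₁₂, fromBlocks_apply₂₁, fromBlocks_apply₂₂,
      Matrix.smul_apply, smul_eq_mul, Cg.refl]
  exact h1.mul (Cg.refl _)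

end cen

/-! ### the ring -/

variable (p) (h c : ℕ) (K : Type) [Field K] [Pf p K]

/-- the matrix of `V` over the base -/
abbrev AU : Matrix (Fin (h + c)) (Fin (h + c)) (WittVector p (A0 p c K)) := Au p (h + c) (uu p h c K)

/-- the big perfect ring -/
abbrev AA : Type := UN (Fin c) h (AU p h c K)

/-- the structure map -/
abbrev oA : A0 p c K →+* AA p h c K := UN.of (Fin c) h (AU p h c K)

/-- the universal isomorphism -/
abbrev muA : Matrix (Fin c ⊕ Fin h) (Fin (h + c)) (WittVector p (AA p h c K)) :=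
  mu (Fin c) h (AU p h c K)

/-- its inverse -/
abbrev nuA : Matrix (Fin (h + c)) (Fin c ⊕ Fin h) (WittVector p (AA p h c K)) :=
  nu (Fin c) h (AU p h c K)

/-- the constants -/
def kap : K →+* A0 p c K := (algebraMap (RR c K) _).comp C

instance : Algebra (RR c K) (AA p h c K) :=
  ((oA p h c K).comp (algebraMap (RR c K) (A0 p c K))).toAlgebra

instance [Algebra (ZMod p) K] : Algebra (ZMod p) (AA p h c K) :=
  ((algebraMap (RR c K) _).comp (algebraMap (ZMod p) (RR c K))).toAlgebra

instance [Algebra (ZMod p) K] : IsScalarTower (ZMod p) (RR c K) (AA p h c K) :=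
  IsScalarTower.of_algebraMap_eq fun _ => rfl

theorem alg_eq (r : RR c K) :
    algebraMap (RR c K) (AA p h c K) r = oA p h c K (algebraMap _ (A0 p c K) r) := rfl

theorem of_kap : (oA p h c K).comp (kap p c K) =
    (algebraMap (RR c K) (AA p h c K)).comp C := rfl

/-- the action of `Γ` -/
def gam : Gam p (Fin c) h K →* (AA p h c K →ₐ[RR c K] AA p h c K) where
  toFun g := { act (kap p c K) _ g with commutes' := fun _ => act_of _ _ g _ }
  map_one' := AlgHom.ext fun x => RingHom.congr_fun (map_one (act (kap p c K) (AU p h c K))) x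
  map_mul' g g' :=
    AlgHom.ext fun x => RingHom.congr_fun (map_mul (act (kap p c K) (AU p h c K)) g g') x

variable {p h c K}

theorem gam_apply (g : Gam p (Fin c) h K) (x : AA p h c K) :
    gam p h c K g x = act (kap p c K) _ g x := rfl

theorem gam_coe (g : Gam p (Fin c) h K) :
    (gam p h c K g : AA p h c K →+* AA p h c K) = act (kap p c K) _ g := rfl

variable {G : Type} [Group G] [TopologicalSpace G] {A : RG p h c G K} {h1 : 1 ≤ h} (Θ : TGd A h1)

theorem T_iso (g : G) : Iso (AU p h c K) (mw (PH.map (A.ph g)) (AU p h c K)) (Θ.T g) (Θ.T' g) :=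
  ⟨Θ.T_inv g, Θ.T_inv' g, by rw [mw_Au]; exact Θ.T_itw g⟩

theorem map_kap (g : G) : (PH.map (A.ph g)).comp (kap p c K) = kap p c K :=
  RingHom.ext fun a => (PH.map_of _ _).trans (congrArg _ ((A.phi g).commutes a))

/-- the action of `G` -/
def Phi : G →* (AA p h c K →+* AA p h c K) where
  toFun g := tr (Fin c) h (PH.map (A.ph g)) (T_iso Θ g)
  map_one' := hom_ext (by rw [tr_comp, A.ph_one, PH.map_id]; rfl) (by
    rw [tr_mu, Θ.T_one, mw_one, Matrix.mul_one]; rfl)
  map_mul' g g' := hom_ext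
    (by rw [RingHom.mul_def, RingHom.comp_assoc, tr_comp, tr_comp, ← RingHom.comp_assoc, tr_comp,
      A.ph_mul, PH.map_comp, RingHom.comp_assoc]) (by
      rw [RingHom.mul_def, ← mw_mw (tr (Fin c) h _ (T_iso Θ g)), tr_mu, tr_mu, mw_mul, tr_mu, mw_mw,
        tr_comp, Θ.T_mul, mw_mul, Matrix.mul_assoc, ← mw_mw (oA p h c K), mw.eq_1 (PH.map _)])

theorem Phi_eq (g : G) : Phi Θ g = tr (Fin c) h (PH.map (A.ph g)) (T_iso Θ g) := rfl

theorem Phi_of (g : G) (a : A0 p c K) : Phi Θ g (oA p h c K a) = oA p h c K (PH.map (A.ph g) a) :=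
  tr_of _ (T_iso Θ g) a

theorem Phi_alg (g : G) (r : RR c K) :
    Phi Θ g (algebraMap _ _ r) = algebraMap _ _ (A.phi g r) := by
  rw [alg_eq, Phi_of, PH.map_of]; rfl

theorem Phi_mu (g : G) : mw (Phi Θ g) (muA p h c K) = muA p h c K * mw (oA p h c K) (Θ.T g) :=
  tr_mu _ (T_iso Θ g)

theorem Phi_nu (g : G) : mw (Phi Θ g) (nuA p h c K) = mw (oA p h c K) (Θ.T' g) * nuA p h c K :=
  tr_nu _ (T_iso Θ g)

theorem Phi_gam (g : G) (d : Gam p (Fin c) h K) (x : AA p h c K) :
    Phi Θ g (gam p h c K d x) = gam p h c K d (Phi Θ g x) :=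
  RingHom.congr_fun (act_comm _ _ (map_kap g) (T_iso Θ g) d) x

/-! ### continuity -/

section cts

open NM

variable {R U : Type} [CommRing R] [CommRing U] [Algebra R U] (m : Ideal R) (Y : Type)
  [TopologicalSpace Y]

variable (U) in
/-- the continuous functions form a ring -/
def CtsR : Subring (Y → U) :=
  { (Cts m Y U).toAddSubgroup with
    one_mem' := cts_const 1
    mul_mem' := fun {F F'} hF hF' => cts_ind (P := fun F => F * F' ∈ Cts m Y U)
      (by rw [zero_mul]; exact zero_mem _) (fun _ _ a b => by rw [add_mul]; exact add_mem a b)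
      (fun f hf x => cts_map (fun y => AddMonoidHom.mulLeft (f y • x)) id (fun f' hf' x' => by
        have := cts_smul (mul_mem hf hf') (cts_const (x * x'))
        simp only [Pi.mul_apply, ← smul_mul_smul_comm] at this
        exact this) hF') hF }

variable {m Y}

theorem alg_mem {f : Y → R} (hf : f ∈ LC m Y) : (fun y => algebraMap R U (f y)) ∈ CtsR U m Y := by
  simp only [Algebra.algebraMap_eq_smul_one]
  exact cts_smul hf (cts_const 1)

theorem rt_mem [Ch p R] [Pf p U] (hP : PBs (fr p R) m m) {F : Y → U} (hF : F ∈ CtsR U m Y) :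
    (fun y => rt p U (F y)) ∈ CtsR U m Y :=
  cts_map (fun _ => (rt p U).toAddMonoidHom) id (fun f hf x => by
    obtain ⟨β, _, a, b, k1, k2⟩ := hP Y f hf
    have : (fun y => rt p U (f y • x)) = ∑ i, fun y => a i y • rt p U (b i • x) := funext fun y => by
      rw [k2, Finset.sum_smul, map_sum, Finset.sum_apply]
      refine Finset.sum_congr rfl fun i _ => ?_
      rw [mul_smul, Algebra.smul_def, map_mul, fr_apply, map_pow, rt_pow', ← Algebra.smul_def]
    exact this ▸ sum_mem fun i _ => cts_smul (k1 i) (cts_const _)) hF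

theorem rt_pow_mem [Ch p R] [Pf p U] (hP : PBs (fr p R) m m) {F : Y → U} (hF : F ∈ CtsR U m Y)
    (N : ℕ) : (fun y => (rt p U ^ N) (F y)) ∈ CtsR U m Y := by
  induction N with
  | zero => exact hF
  | succ N ih => rw [pow_succ']; exact rt_mem hP ih

omit [TopologicalSpace Y] in
theorem mul_coeff_mem {I J L : Type} [Fintype J] (S : Subring (Y → U))
    {M : Y → Matrix I J (WittVector p U)} {M' : Y → Matrix J L (WittVector p U)}
    (hM : ∀ a b l, (fun y => (M y a b).coeff l) ∈ S) (hM' : ∀ a b l, (fun y => (M' y a b).coeff l) ∈ S)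
    (a b l) : (fun y => ((M y * M' y) a b).coeff l) ∈ S := by
  let N : Matrix I J (WittVector p S) := Matrix.of fun a b => WittVector.mk p fun l => ⟨_, hM a b l⟩
  let N' : Matrix J L (WittVector p S) :=
    Matrix.of fun a b => WittVector.mk p fun l => ⟨_, hM' a b l⟩
  have e : ∀ y, mw ((Pi.evalRingHom _ y).comp S.subtype) (N * N') = M y * M' y := fun y => mw_mul _ _ _
  simp only [← e]
  exact (((N * N') a b).coeff l).2

end cts

variable [IsTopologicalGroup G] {k₀ ι : Type} [CommRing k₀] [Algebra k₀ (RR c K)]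
  {A' : NM.Act k₀ (RR c K) G ι} (hA : IsAct A A')

include hA in
theorem Phi_cts (x : AA p h c K) : (fun g => Phi Θ g x) ∈ CtsR (AA p h c K) A'.m G := by
  have hP : NM.PBs (fr p (RR c K)) A'.m A'.m := hA.m ▸ NM.pbs_ser
  have hup : ∀ M : G → Matrix (Fin (h + c)) (Fin (h + c)) (WittVector p (RR c K)),
      (∀ a b l, (fun g => (M g a b).coeff l) ∈ NM.LC A'.m G) → ∀ a b l,
      (fun g => (mw (oA p h c K) (up Θ.N (M g)) a b).coeff l) ∈ CtsR _ A'.m G :=
    fun M hM a b l => by
      simp only [mw_coeff, up_coeff, map_rt_pow]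
      exact rt_pow_mem hP (alg_mem (hM a b l)) _
  have hth : ∀ a b l, (fun g => (Θ.th g a b).coeff l) ∈ NM.LC A'.m G :=
    fun a b l => hA.m ▸ C2.lc_iff.2 (Θ.lc a b l)
  have : (CtsR _ A'.m G).comap (RingHom.pi fun g => Phi Θ g) = ⊤ := by
    refine eq_top _ (fun x hx => ?_) (fun a => ?_) (fun a b l => ?_) fun a b l => ?_
    · change (fun g => Phi Θ g _) ∈ CtsR _ A'.m G
      simp only [map_rt]
      exact rt_mem hP hx
    · obtain ⟨N, r, rfl⟩ := PH.exists_rt a
      change (fun g => Phi Θ g _) ∈ CtsR _ A'.m G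
      simp only [map_rt_pow, ← alg_eq, Phi_alg]
      exact rt_pow_mem hP (alg_mem (by simpa only [hA.φ, RingHom.coe_coe] using A'.φ_lc r)) _
    · change (fun g => (mw (Phi Θ g) (muA p h c K) a b).coeff l) ∈ CtsR _ A'.m G
      simp only [Phi_mu]
      exact mul_coeff_mem _ (M := fun _ => muA p h c K) (M' := fun g => mw _ (Θ.T g))
        (fun _ _ _ => NM.cts_const _) (hup _ hth) a b l
    · change (fun g => (mw (Phi Θ g) (nuA p h c K) a b).coeff l) ∈ CtsR _ A'.m G
      simp only [Phi_nu]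
      refine mul_coeff_mem _ (M := fun g => mw _ (Θ.T' g)) (M' := fun _ => nuA p h c K)
        (hup _ fun a b l => ?_) (fun _ _ _ => NM.cts_const _) a b l
      simp only [Θ.th'_eq, ← hA.φ]
      exact A'.lc_φ continuous_id (NM.lc_comp (hth a b l) continuous_inv)
  exact (this.ge (Subring.mem_top x) :)

/-- the big ring as a module with a continuous action -/
def VA : A'.Mod (AA p h c K) where
  ρ :=
    { toFun := fun g => (Phi Θ g).toAddMonoidHom
      map_one' := congrArg RingHom.toAddMonoidHom (map_one (Phi Θ))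
      map_mul' := fun g g' => congrArg RingHom.toAddMonoidHom (map_mul (Phi Θ) g g') }
  semi g r x := by
    change Phi Θ g _ = _ • Phi Θ g x
    rw [Algebra.smul_def, Algebra.smul_def, map_mul, Phi_alg, hA.φ]
    rfl
  adm := Phi_cts Θ hA

theorem VA_rho (g : G) (x : AA p h c K) : (VA Θ hA).ρ g x = Phi Θ g x := rfl

variable [CharP K p] [Algebra (ZMod p) K]

omit [Pf p K] [IsTopologicalGroup G] in
theorem isAct_sa : IsAct A (NM.ofSA (Ser.sa A h1) (ZMod p)) := ⟨rfl, fun _ => rfl⟩

/-- the module over the triangular action -/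
def V : (NM.ofSA (Ser.sa A h1) (ZMod p)).Mod (AA p h c K) := VA Θ isAct_sa

theorem V_rho (g : G) (x : AA p h c K) : (V Θ).ρ g x = Phi Θ g x := rfl

end P261.Ig
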