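import Vale.Agent.P261Z.W.Hull
import Vale.Agent.P261Z.W.Witt

/-!
# P261Z, block Ig: the universal isomorphism of two semilinear modules
-/

noncomputable section

open Matrix

namespace P261.Ig

variable {p : ℕ} [hp : Fact p.Prime] {I J I' J' : Type} {K L M : Type} [CommRing K] [CommRing L]
  [CommRing M]

/-- base change of matrices of Witt vectors -/
def mw (f : K →+* L) (X : Matrix I J (WittVector p K)) : Matrix I J (WittVector p L) :=
  X.map (wm p f)

theorem mw_apply (f : K →+* L) (X : Matrix I J (WittVector p K)) (i : I) (j : J) :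
    mw f X i j = wm p f (X i j) := rfl

theorem mw_coeff (f : K →+* L) (X : Matrix I J (WittVector p K)) (i : I) (j : J) (n : ℕ) :
    (mw f X i j).coeff n = f ((X i j).coeff n) := rfl

theorem mw_mw (g : L →+* M) (f : K →+* L) (X : Matrix I J (WittVector p K)) :
    mw g (mw f X) = mw (g.comp f) X := rfl

theorem mw_id (X : Matrix I J (WittVector p K)) : mw (RingHom.id K) X = X := rfl

theorem mw_mul [Fintype J] (f : K →+* L) (X : Matrix I J (WittVector p K))
    (Y : Matrix J I' (WittVector p K)) : mw f (X * Y) = mw f X * mw f Y := Matrix.map_mul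

theorem mw_one [DecidableEq I] (f : K →+* L) : mw f (1 : Matrix I I (WittVector p K)) = 1 :=
  Matrix.map_one _ (map_zero _) (map_one _)

theorem mw_sub (f : K →+* L) (X Y : Matrix I J (WittVector p K)) :
    mw f (X - Y) = mw f X - mw f Y := Matrix.map_sub _ (map_sub _) _ _

theorem mw_si [Pf p K] [Pf p L] (f : K →+* L) (X : Matrix I J (WittVector p K)) :
    mw f (X.map (si p K)) = (mw f X).map (si p L) := Matrix.ext fun _ _ => wm_si f _

theorem mw_eq_zero {f : K →+* L} {X : Matrix I J (WittVector p K)} :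
    mw f X = 0 ↔ ∀ i j n, f ((X i j).coeff n) = 0 :=
  ⟨fun h i j n => by rw [← mw_coeff, h]; exact WittVector.zero_coeff p L n,
    fun h => Matrix.ext fun i j => WittVector.ext fun n =>
      (h i j n).trans (WittVector.zero_coeff p L n).symm⟩

variable [Fintype I] [Fintype J] [DecidableEq I] [DecidableEq J]

/-- `μ` is an isomorphism from the module with `V = A σ⁻¹` to the module with `V = B σ⁻¹` -/
structure Iso [Pf p K] (B : Matrix I I (WittVector p K)) (A : Matrix J J (WittVector p K))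
    (μ : Matrix I J (WittVector p K)) (ν : Matrix J I (WittVector p K)) : Prop where
  mn : μ * ν = 1
  nm : ν * μ = 1
  eq : B * μ.map (si p K) = μ * A

namespace Iso

variable [Pf p K] [Pf p L] {B B' : Matrix I I (WittVector p K)} {A A' : Matrix J J (WittVector p K)}
  {μ μ' : Matrix I J (WittVector p K)} {ν ν' : Matrix J I (WittVector p K)}

theorem map (h : Iso B A μ ν) (f : K →+* L) : Iso (mw f B) (mw f A) (mw f μ) (mw f ν) :=
  ⟨by rw [← mw_mul, h.mn, mw_one], by rw [← mw_mul, h.nm, mw_one],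
    by rw [← mw_si, ← mw_mul, h.eq, mw_mul]⟩

theorem inv_eq (h : Iso B A μ ν) (h' : Iso B' A' μ ν') : ν = ν' := by
  rw [← Matrix.one_mul ν, ← h'.nm, Matrix.mul_assoc, h.mn, Matrix.mul_one]

theorem si_mn (h : Iso B A μ ν) : μ.map (si p K) * ν.map (si p K) = 1 := by
  rw [← Matrix.map_mul, h.mn, Matrix.map_one _ (map_zero _) (map_one _)]

theorem symm (h : Iso B A μ ν) : Iso A B ν μ :=
  ⟨h.nm, h.mn, by
    rw [← Matrix.one_mul A, ← h.nm, Matrix.mul_assoc ν, ← h.eq, Matrix.mul_assoc, Matrix.mul_assoc,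
      h.si_mn, Matrix.mul_one]⟩

theorem refl (B : Matrix I I (WittVector p K)) : Iso B B 1 1 :=
  ⟨Matrix.mul_one _, Matrix.mul_one _, by
    rw [Matrix.map_one _ (map_zero _) (map_one _), Matrix.mul_one, Matrix.one_mul]⟩

theorem trans [Fintype J'] [DecidableEq J'] {C : Matrix J' J' (WittVector p K)}
    {T : Matrix J J' (WittVector p K)} {T' : Matrix J' J (WittVector p K)} (h : Iso B A μ ν)
    (h' : Iso A C T T') : Iso B C (μ * T) (T' * ν) :=
  ⟨by rw [Matrix.mul_assoc, ← Matrix.mul_assoc T, h'.mn, Matrix.one_mul, h.mn],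
    by rw [Matrix.mul_assoc, ← Matrix.mul_assoc ν, h.nm, Matrix.one_mul, h'.nm],
    by rw [Matrix.map_mul, ← Matrix.mul_assoc, h.eq, Matrix.mul_assoc, h'.eq, Matrix.mul_assoc]⟩

end Iso

/-! ### the universal ring -/

variable {A₀ : Type} [CommRing A₀] [Pf p A₀]

variable (p A₀ I J) in
/-- the ring of the coefficients -/
abbrev U0 : Type := PPoly p A₀ ((I × J × ℕ) ⊕ (J × I × ℕ))

/-- the generic matrix -/
def mu0 : Matrix I J (WittVector p (U0 p I J A₀)) :=
  Matrix.of fun i j => WittVector.mk p fun n => PPoly.X (.inl (i, j, n))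

/-- the generic inverse -/
def nu0 : Matrix J I (WittVector p (U0 p I J A₀)) :=
  Matrix.of fun j i => WittVector.mk p fun n => PPoly.X (.inr (j, i, n))

variable (B : Matrix I I (WittVector p A₀)) (A : Matrix J J (WittVector p A₀))

/-- the coefficients of a matrix -/
def cfs (X : Matrix I J (WittVector p K)) : Set K := {x | ∃ i j n, x = (X i j).coeff n}

omit [Fintype I] [Fintype J] [DecidableEq I] [DecidableEq J] in
theorem cfs_iff (f : K →+* L) (X : Matrix I J (WittVector p K)) :
    (∀ x ∈ cfs X, f x = 0) ↔ mw f X = 0 :=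
  ⟨fun h => mw_eq_zero.2 fun i j n => h _ ⟨i, j, n, rfl⟩,
    fun h _ ⟨i, j, n, e⟩ => e ▸ mw_eq_zero.1 h i j n⟩

/-- the coefficients of the equations -/
def rl [Pf p K] (B : Matrix I I (WittVector p K)) (A : Matrix J J (WittVector p K))
    (μ : Matrix I J (WittVector p K)) (ν : Matrix J I (WittVector p K)) : Set K :=
  cfs (μ * ν - 1) ∪ (cfs (ν * μ - 1) ∪ cfs (B * μ.map (si p K) - μ * A))

theorem rl_iff [Pf p K] [Pf p L] (f : K →+* L) (B : Matrix I I (WittVector p K))
    (A : Matrix J J (WittVector p K)) (μ : Matrix I J (WittVector p K))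
    (ν : Matrix J I (WittVector p K)) :
    (∀ x ∈ rl B A μ ν, f x = 0) ↔ Iso (mw f B) (mw f A) (mw f μ) (mw f ν) := by
  simp only [rl, Set.mem_union, or_imp, forall_and, cfs_iff, mw_sub, mw_mul, mw_one, mw_si,
    sub_eq_zero]
  exact ⟨fun h => ⟨h.1, h.2.1, h.2.2⟩, fun h => ⟨h.mn, h.nm, h.eq⟩⟩

/-- the relations -/
def rel : Set (U0 p I J A₀) :=
  rl (mw (algebraMap A₀ (U0 p I J A₀)) B) (mw (algebraMap A₀ (U0 p I J A₀)) A) mu0 nu0

theorem rel_iff [Pf p K] (f : U0 p I J A₀ →+* K) : (∀ x ∈ rel B A, f x = 0) ↔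
    Iso (mw (f.comp (algebraMap A₀ _)) B) (mw (f.comp (algebraMap A₀ _)) A) (mw f mu0)
      (mw f nu0) := rl_iff f _ _ _ _

/-- the universal ring -/
def UI : Type := U0 p I J A₀ ⧸ (Ideal.span (rel B A)).radical

namespace UI

instance : CommRing (UI B A) :=
  inferInstanceAs (CommRing (U0 p I J A₀ ⧸ (Ideal.span (rel B A)).radical))

instance : Pf p (UI B A) := Pf.quot_radical _

/-- the projection -/
def pr : U0 p I J A₀ →+* UI B A := Ideal.Quotient.mk _

/-- the structure map -/
def of : A₀ →+* UI B A := (pr B A).comp (algebraMap A₀ _)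

/-- the universal isomorphism -/
def mu : Matrix I J (WittVector p (UI B A)) := mw (pr B A) mu0

/-- its inverse -/
def nu : Matrix J I (WittVector p (UI B A)) := mw (pr B A) nu0

theorem iso : Iso (mw (of B A) B) (mw (of B A) A) (mu B A) (nu B A) :=
  (rel_iff B A (pr B A)).1 fun _ hx =>
    Ideal.Quotient.eq_zero_iff_mem.2 (Ideal.le_radical (Ideal.subset_span hx))

variable {B A} [Pf p K]

theorem exists_lift (φ : A₀ →+* K) {μ : Matrix I J (WittVector p K)}
    {ν : Matrix J I (WittVector p K)} (h : Iso (mw φ B) (mw φ A) μ ν) :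
    ∃ f : UI B A →+* K, f.comp (of B A) = φ ∧ mw f (mu B A) = μ ∧ mw f (nu B A) = ν := by
  let := φ.toAlgebra
  let g : U0 p I J A₀ →ₐ[A₀] K := PPoly.lift (Sum.elim (fun x => (μ x.1 x.2.1).coeff x.2.2)
    fun x => (ν x.1 x.2.1).coeff x.2.2)
  have e0 : (g : U0 p I J A₀ →+* K).comp (algebraMap A₀ _) = φ := g.comp_algebraMap
  have e1 : mw (g : U0 p I J A₀ →+* K) mu0 = μ :=
    Matrix.ext fun i j => WittVector.ext fun n => PPoly.lift_X _ _
  have e2 : mw (g : U0 p I J A₀ →+* K) nu0 = ν :=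
    Matrix.ext fun i j => WittVector.ext fun n => PPoly.lift_X _ _
  have hr := (rel_iff B A (g : U0 p I J A₀ →+* K)).2 (by rw [e0, e1, e2]; exact h)
  refine ⟨Ideal.Quotient.lift _ (g : U0 p I J A₀ →+* K) fun x ⟨n, hn⟩ => ?_, e0, e1, e2⟩
  refine eq_zero_of_pow (p := p) (N := n) ?_
  rw [← map_pow]
  exact (Ideal.span_le (I := RingHom.ker (g : U0 p I J A₀ →+* K))).2 hr hn

/-- the universal property -/
def lift (φ : A₀ →+* K) {μ : Matrix I J (WittVector p K)} {ν : Matrix J I (WittVector p K)}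
    (h : Iso (mw φ B) (mw φ A) μ ν) : UI B A →+* K := (exists_lift φ h).choose

section

variable (φ : A₀ →+* K) {μ : Matrix I J (WittVector p K)} {ν : Matrix J I (WittVector p K)}
  (h : Iso (mw φ B) (mw φ A) μ ν)

theorem lift_comp : (lift φ h).comp (of B A) = φ := (exists_lift φ h).choose_spec.1

theorem lift_of (a : A₀) : lift φ h (of B A a) = φ a := RingHom.congr_fun (lift_comp φ h) a

theorem lift_mu : mw (lift φ h) (mu B A) = μ := (exists_lift φ h).choose_spec.2.1

theorem lift_nu : mw (lift φ h) (nu B A) = ν := (exists_lift φ h).choose_spec.2.2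

end

theorem iso_map (f : UI B A →+* K) : Iso (mw (f.comp (of B A)) B) (mw (f.comp (of B A)) A)
    (mw f (mu B A)) (mw f (nu B A)) := (iso B A).map f

theorem hom_ext {f g : UI B A →+* K} (h0 : f.comp (of B A) = g.comp (of B A))
    (h1 : mw f (mu B A) = mw g (mu B A)) : f = g := by
  have h2 : mw f (nu B A) = mw g (nu B A) := (iso_map f).inv_eq (h1 ▸ iso_map g)
  refine Ideal.Quotient.ringHom_ext (PPoly.ringHom_ext (fun c => RingHom.congr_fun h0 c) ?_)
  rintro (⟨i, j, n⟩ | ⟨j, i, n⟩)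
  · exact congrArg (fun X => (X i j).coeff n) h1
  · exact congrArg (fun X => (X j i).coeff n) h2

/-- a perfect subring which contains all the coefficients is everything -/
theorem eq_top (S : Subring (UI B A)) (hS : ∀ x ∈ S, rt p _ x ∈ S) (h0 : ∀ a, of B A a ∈ S)
    (h1 : ∀ i j n, (mu B A i j).coeff n ∈ S) (h2 : ∀ j i n, (nu B A j i).coeff n ∈ S) :
    S = ⊤ := by
  refine (Subring.eq_top_iff' S).2 fun x => ?_
  obtain ⟨y, rfl⟩ := Ideal.Quotient.mk_surjective x
  obtain ⟨k, a, rfl⟩ := PH.exists_rt y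
  change pr B A _ ∈ S
  rw [map_rt_pow]
  have ha : pr B A (algebraMap _ _ a) ∈ S := by
    induction a using MvPolynomial.induction_on with
    | C c => exact h0 c
    | add a b ha hb => rw [map_add, map_add]; exact S.add_mem ha hb
    | mul_X a s ha =>
      rw [map_mul, map_mul]
      refine S.mul_mem ha ?_
      rcases s with ⟨i, j, n⟩ | ⟨j, i, n⟩
      · exact h1 i j n
      · exact h2 j i n
  induction k with
  | zero => exact ha
  | succ k ih => rw [pow_succ']; exact hS _ ih

/-- the endomorphism `μ ↦ γ μ T` over `φ` -/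
def tr (φ : A₀ →+* A₀) {γ γ' : Matrix I I (WittVector p A₀)} {T T' : Matrix J J (WittVector p A₀)}
    (hγ : Iso (mw φ B) B γ γ') (hT : Iso A (mw φ A) T T') : UI B A →+* UI B A :=
  lift ((of B A).comp φ) (((hγ.map (of B A)).trans (iso B A)).trans (hT.map (of B A)))

section

variable (φ : A₀ →+* A₀) {γ γ' : Matrix I I (WittVector p A₀)}
  {T T' : Matrix J J (WittVector p A₀)} (hγ : Iso (mw φ B) B γ γ') (hT : Iso A (mw φ A) T T')

theorem tr_comp : (tr φ hγ hT).comp (of B A) = (of B A).comp φ := lift_comp _ _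

theorem tr_of (a : A₀) : tr φ hγ hT (of B A a) = of B A (φ a) := lift_of _ _ a

theorem tr_mu : mw (tr φ hγ hT) (mu B A) = mw (of B A) γ * mu B A * mw (of B A) T := lift_mu _ _

theorem tr_nu : mw (tr φ hγ hT) (nu B A) = mw (of B A) T' * (nu B A * mw (of B A) γ') :=
  lift_nu _ _

end

end UI

end P261.Ig
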