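import Vale.Agent.P261Z.Ig.FD
import Vale.Agent.P261Z.P.Fin

/-!
# P261: from the formal data to the Igusa tower of block P
-/

set_option linter.unusedSectionVars false

noncomputable section

namespace P261.P

variable {p : ℕ} [hp : Fact p.Prime] {R AA : Type} [CommRing R] [CommRing AA] [Algebra R AA]
  [Algebra (ZMod p) R] [Algebra (ZMod p) AA] [IsScalarTower (ZMod p) R AA]

theorem int_pow_mono {v : R} {N N' : ℕ} (h : N ≤ N') {x : AA}
    (hx : IsIntegral R (algebraMap R AA v ^ N * x)) : IsIntegral R (algebraMap R AA v ^ N' * x) := by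
  obtain ⟨d, rfl⟩ := Nat.exists_eq_add_of_le' h
  rw [pow_add, mul_assoc]
  exact (isIntegral_algebraMap.pow d).mul hx

theorem pole_mono {v : R} {N N' : ℕ} (h : N ≤ N') (T : Subalgebra R AA) :
    pole p v N T ≤ pole p v N' T := fun _ hx => mem_pole.2 (int_pow_mono h (mem_pole.1 hx))

/-- the bound for the poles may be raised -/
def RT.mono [Pf p AA] {H : PC.GF p} {G : Type} {Φ : G → AA →+* AA} {a : ℕ → AA →+* AA} {v : R}
    {T0 T1 T : Subalgebra R AA} {h M A N N' : ℕ} (X : RT H Φ a v T0 T1 T h M A N) (hN : N ≤ N') :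
    RT H Φ a v T0 T1 T h M A N' :=
  { X with
    loss := fun τ hτ x hx => Submodule.baseChange_mono _ (pole_mono hN T) (X.loss τ hτ x hx)
    gam_loss := fun f => pole_mono hN T (X.gam_loss f) }

end P261.P

namespace P261.Ig.FD

open Vale.Agent.P261Z Vale.Agent.P261Z.N Vale.Agent.P217 Vale.Agent.P251.F

variable {p h c : ℕ} [hp : Fact p.Prime] {K : Type} [Field K] [Pf p K] {hc : 0 < c} {AA : Type}
  [CommRing AA] [Algebra (RR c K) AA] [Pf p AA] {Γ : Type} [Group Γ]
  [Algebra (ZMod p) (RR c K)] [Algebra (ZMod p) AA] [IsScalarTower (ZMod p) (RR c K) AA]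

theorem igd {G : Type} [Group G] [TopologicalSpace G] {A : RG p h c G K} (I : FD A hc AA Γ)
    (hB : I.Bas) (hT : I.Trc) (hI : I.Inv) (hR : I.Ret)
    (ha : ∀ s t j, s % p = 1 → t % p = 1 → s ≡ t [MOD p ^ j] → (I.a s)⁻¹ * I.a t ∈ I.Gs j)
    (H : PC.GF p) (hf : ∀ m, Module.Finite (ZMod p) (H.O m 1)) (hD : I.Td H) :
    ∃ J : P.IgD p h (vR K hc) AA (fun g => A.ph g) I.gg Γ H, J.γ = I.ga ∧ J.a = I.a ∧
      J.T = I.T ∧ J.Gs = I.Gs ∧ J.vi = ((I.v⁻¹ : AAˣ) : AA) := by
  obtain ⟨D₁, h1⟩ := hT.one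
  obtain ⟨D₂, h2⟩ := hR
  obtain ⟨D₃, h3⟩ := hD
  refine ⟨{ inj := I.inj
            vi := ((I.v⁻¹ : AAˣ) : AA)
            v_vi := by rw [← I.v_eq, Units.mul_inv]
            loc := fun x => by
              rw [← I.v_eq]
              exact hT.exh x
            semi := I.gg_alg
            γ := I.ga
            comm := I.comm
            Gs := I.Gs
            Gs_anti := I.Gs_anti
            Gs_normal := I.Gs_normal
            Gs_fin := fun j j' _ => hT.fin j j'
            T := I.T
            T_mono := hB.T_mono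
            vi_mem := Algebra.subset_adjoin (Set.mem_insert _ _)
            T_Φ := fun j g => hB.gg_T g j
            T_γ := fun j δ => hB.ga_T δ j
            T_fix := hB.fix
            T_inv := fun j j' _ => hI.invT j j'
            T_zero := fun x hx hi => Algebra.mem_bot.1 (hB.O_zero ▸ (⟨hi, hx⟩ : x ∈ I.O 0))
            T_exh := fun x => by
              obtain ⟨j, hj⟩ := I.smooth x
              obtain ⟨M, hM⟩ := hT.perf j x hj
              exact ⟨h * M, j, hM⟩
            D := max D₁ (max D₂ D₃)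
            tr := fun j j' hj => by
              obtain ⟨N, hN, t, ht, e⟩ := h1 j j' hj
              exact ⟨t, (hB.L_le j' ht).2, (hB.L_le j' ht).1, N,
                hN.trans (Nat.pow_le_pow_left (le_max_left _ _) _), I.v_eq ▸ e⟩
            a := I.a
            a_comm := I.a_comm
            a_one := I.a_one
            a_mul := I.a_mul
            a_cong := ha
            c0 := 1
            ret := fun j _ n => by
              obtain ⟨π, e1, e2, e3, e4⟩ := h2 j n
              exact ⟨π, e1, e2, e3, fun x hx => P.int_pow_mono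
                (Nat.pow_le_pow_left ((le_max_left _ _).trans (le_max_right _ _)) _) (e4 x hx)⟩
            fin := hf
            td := fun j M B hB hM => (h3 j M B hB hM).map fun X =>
              X.mono (Nat.pow_le_pow_left ((le_max_right _ _).trans (le_max_right _ _)) _) },
    rfl, rfl, rfl, rfl, rfl⟩

theorem gen {n : ℕ} {k : Type} [Field k] {D : LTD p n k} {κ : k →+* K} {A : RG p h c D.GG K}
    (I : FD A hc AA Γ) (hB : I.Bas) (hT : IsT D κ A) (hn : h + c = n)
    {j : D.GG → (RR c K)ˣ} (hj : ∀ g, (j g : RR c K) = KS.jac A g) {l : D.GG → RR c K} {a b : ℤ}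
    {i : ℕ} (hl : ∀ g, l g = ((A.t g ^ a * j g ^ b : (RR c K)ˣ) : RR c K) *
      MvPowerSeries.C (κ (g.cf 1 ^ (i * ((p ^ n - 1) / (p - 1))))))
    {φ : D.GG → RR c K →+* RR c K} {H : PC.GF p} (J : P.IgD p h (vR K hc) AA φ I.gg Γ H)
    (hJ : J.T = I.T) : ∃ s s', J.Gen l s s' :=
  P.gen_of J (algebraMap _ (I.T 1)) (I.T 1).val.toRingHom (fun _ => rfl) (j := 1)
    (fun x => by rw [hJ]; exact x.2) (fun g => (I.gg g).restrict (I.T 1) (I.T 1) (hB.gg_T g 1))
    (fun _ _ => rfl)
    (KS.gen_line_of A hT hn hc I.hh Ch.char (fun g => I.gg g) I.gg_alg (I.T 1) _ (fun _ _ => rfl)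
      (I.v_eq ▸ I.v.isUnit.mem_nonZeroDivisors) (I.P 1) (fun i => (I.P_succ 0 i).trans (I.P_zero i))
      (fun i => Algebra.subset_adjoin (Set.mem_insert_of_mem _ (.inr ⟨i, by rw [y, pow_one]⟩)))
      (fun m hm => (I.P_unit m hm).mem_nonZeroDivisors) (fun g i => (I.gg_P g 1 i).symm)
      (Algebra.subset_adjoin (Set.mem_insert_of_mem _ (.inl ⟨1, by
        rw [pow_one]
        exact Nat.one_lt_pow I.hh hp.out.one_lt, rfl⟩)))
      (hB.one.trans I.v_eq) hB.gg_one hj hl)

end P261.Ig.FD
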