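import Vale.Agent.P261Z.Ig.Th
import Vale.Agent.P261Z.Ig.Asm

/-!
# P261, torsors: the statement `Td`
-/

set_option linter.unusedSectionVars false

noncomputable section

namespace P261.Ig.Th

open Vale.Agent.P261Z Vale.Agent.P261Z.N Vale.Agent.P217 Vale.Agent.P251.F P261.RT P261.PB P261.P

variable {p h c : ℕ} [hp : Fact p.Prime] {K G : Type} [Field K] [Pf p K] [Group G]
  [TopologicalSpace G] {A : RG p h c G K} {hc : 0 < c} {AA : Type} [CommRing AA]
  [Algebra (RR c K) AA] [Pf p AA] {Γ : Type} [Group Γ] {I : FD A hc AA Γ}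

theorem vi_mem (j : ℕ) : ((I.v⁻¹ : AAˣ) : AA) ∈ I.T j := Algebra.subset_adjoin (Set.mem_insert _ _)

theorem T_le (M j : ℕ) : I.T j ≤ I.TL M j := fun _ hz => I.mem_TL.2 (pow_mem hz _)

theorem monS (hB : I.Bas) (hT : I.Trc) {B M j N : ℕ} (hBM : B ≤ M) (hj : M ≤ j)
    (h1 : ∀ z ∈ I.OL M j, ∃ r : (Fin c → Fin ((p ^ h) ^ B)) → AA, (∀ α, r α ∈ I.OL (M - B) j) ∧
      (I.v : AA) ^ N * z = ∑ α, r α * mn (I.x M) α)
    (h2 : ∀ r : (Fin c → Fin ((p ^ h) ^ B)) → AA, (∀ α, r α ∈ I.TL (M - B) j) →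
      ∑ α, r α * mn (I.x M) α = 0 → ∀ α, r α = 0) :
    MonS (I.TL (M - B) j) (I.TL M j) ((p ^ h) ^ B) (I.x M) := by
  have hy : ∀ i, I.y M i ∈ I.T j := fun i =>
    (hB.L_le j (hB.L_mono hj (Algebra.subset_adjoin (.inr ⟨i, rfl⟩)))).2
  refine ⟨fun z hz => I.mem_TL.2 ?_, pow_pos (pow_pos p_pos h) B, fun i => I.mem_TL.2 (hy i),
    fun i => I.mem_TL.2 ?_, fun z hz => ?_, h2⟩
  · rw [← Nat.sub_add_cancel hBM, pow_add, pow_mul]
    exact pow_mem (I.mem_TL.1 hz) _
  · rw [← pow_mul, ← pow_add, Nat.add_sub_cancel' hBM]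
    exact hy i
  · obtain ⟨N', hN⟩ := hT.exh z
    obtain ⟨r, hr, e⟩ := h1 _ ⟨hN, mul_mem (pow_mem (I.v_eq ▸ Subalgebra.algebraMap_mem _ _) _) hz⟩
    refine ⟨fun α => ((I.v⁻¹ : AAˣ) : AA) ^ (N + N') * r α,
      fun α => mul_mem (pow_mem (T_le _ _ (vi_mem j)) _) (hr α).2, ?_⟩
    simp only [mul_assoc]
    rw [← Finset.mul_sum, ← e, ← mul_assoc ((I.v : AA) ^ N), ← pow_add, ← mul_assoc, ← mul_pow,
      Units.inv_mul, one_pow, one_mul]

theorem two_le_q (hh : h ≠ 0) : 2 ≤ p ^ h := Nat.one_lt_pow hh one_lt_p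

theorem exists_dt (hB : I.Bas) {M j : ℕ} (hj : M + 1 ≤ j)
    (hm : MonS (I.T j) (I.TL M j) ((p ^ h) ^ M) (I.x M)) :
    ∃ (D : DT p h (mm c K) (FR p h c K) I.f (I.T j) (I.TL M j) M ((p ^ h) ^ j) (I.x M))
      (ui : I.T j), IsIntegral (RR c K) ((I.v : AA) * ui) ∧
      (∀ d, IsIntegral (RR c K) ((PowerSeries.coeff d D.fb : I.T j) : AA)) ∧
      ∀ (U : Type) [CommRing U] (ι : I.T j →+* U) (t : U) (Λ : Subring U), IsNilpotent t →
        (∀ x : I.T j, IsIntegral (RR c K) (x : AA) → ι x ∈ Λ) → ι ui ^ 2 * t ∈ Λ →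
        evN1 ι t D.g ∈ Λ := by
  have hq := two_le_q (p := p) I.hh
  have hn : 2 * (p ^ h) ^ M ≤ (p ^ h) ^ j := by
    refine le_trans ?_ (Nat.pow_le_pow_right (by omega) hj)
    rw [pow_succ']
    exact Nat.mul_le_mul_right _ hq
  have h1 : 1 < (p ^ h) ^ j := by have := pow_pos (pow_pos (p_pos (p := p)) h) M; omega
  have hf : ∀ d < (p ^ h) ^ j, PowerSeries.coeff d I.f ∈ I.T j := fun d hd =>
    Algebra.subset_adjoin (Set.mem_insert_of_mem _ (.inl ⟨d, hd, rfl⟩))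
  let fb : PowerSeries (I.T j) := PowerSeries.mk fun d =>
    if hd : d < (p ^ h) ^ j then ⟨_, hf d hd⟩ else 0
  have hfb : ∀ d < (p ^ h) ^ j, ((PowerSeries.coeff d fb : I.T j) : AA) = PowerSeries.coeff d I.f :=
    fun d hd => by rw [PowerSeries.coeff_mk, dif_pos hd]
  have h0 : PowerSeries.constantCoeff fb = 0 := Subtype.ext (by
    rw [← PowerSeries.coeff_zero_eq_constantCoeff_apply, hfb 0 (by omega),
      PowerSeries.coeff_zero_eq_constantCoeff_apply, I.f_hom.1]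
    rfl)
  have hi : ∀ d, IsIntegral (RR c K) ((PowerSeries.coeff d fb : I.T j) : AA) := fun d => by
    by_cases hd : d < (p ^ h) ^ j
    · rw [hfb d hd]
      exact hB.int d
    · rw [PowerSeries.coeff_mk, dif_neg hd]
      exact isIntegral_zero
  obtain ⟨g, g0, fg, gf, hg⟩ := exists_inv (fb := fb)
    ((integralClosure (RR c K) AA).toSubring.comap (I.T j).val.toRingHom) h0 hi
    (ui := ⟨PowerSeries.coeff 1 I.f ^ (p ^ h - 2) * (I.v⁻¹ : AAˣ),
      mul_mem (pow_mem (hf 1 h1) _) (vi_mem j)⟩) (Subtype.ext (by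
      rw [Subalgebra.coe_mul, hfb 1 h1, ← mul_assoc, ← pow_succ', show p ^ h - 2 + 1 = p ^ h - 1 by
        omega, hB.one, Units.mul_inv]
      rfl))
  refine ⟨⟨hm, fun i => (I.P M i).isN, I.f_hom, hn, fb, g, h0, hfb, g0, fg, gf⟩, _, ?_, hi, hg⟩
  rw [mul_left_comm, Units.mul_inv, mul_one]
  exact (hB.int 1).pow _

variable [Algebra (ZMod p) (RR c K)] [Algebra (ZMod p) AA] [IsScalarTower (ZMod p) (RR c K) AA]

theorem td_at (hB : I.Bas) (hT : I.Trc) {H : PC.GF p} (C : GC h c H) {B M j N : ℕ} (hBM : B ≤ M)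
    (hj : M + 1 ≤ j) (hM : ∀ B, B ≤ M →
      (∀ z ∈ I.OL M j, ∃ r : (Fin c → Fin ((p ^ h) ^ B)) → AA, (∀ α, r α ∈ I.OL (M - B) j) ∧
        (I.v : AA) ^ N * z = ∑ α, r α * mn (I.x M) α) ∧
      ∀ r : (Fin c → Fin ((p ^ h) ^ B)) → AA, (∀ α, r α ∈ I.TL (M - B) j) →
        ∑ α, r α * mn (I.x M) α = 0 → ∀ α, r α = 0) :
    Nonempty (P.RT H (fun g => I.gg g) (fun s => (I.ga (I.a s) : AA →+* AA)) (vR K hc)
      (I.T j) (I.TL (M - B) j) (I.TL M j) h M B (2 * ((p ^ h) ^ M * c) + N)) := by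
  have hh := I.hh
  have e0 : I.TL (M - M) j = I.T j := Subalgebra.ext fun z => by
    rw [I.mem_TL, Nat.sub_self, pow_zero, pow_one]
  have m0 := monS hB hT le_rfl (by omega) (hM M le_rfl).1 (hM M le_rfl).2
  have m1 := monS hB hT hBM (by omega) (hM B hBM).1 (hM B hBM).2
  rw [e0] at m0
  obtain ⟨D, ui, hu, hi, hg⟩ := exists_dt hB hj m0
  obtain ⟨π, p1, p2, p3, p4⟩ := m1.exists_ret
  have hv : ∀ n, ((algebraMap (RR c K) (I.TL M j) (vR K hc) ^ n : I.TL M j) : AA) = I.v ^ n :=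
    fun n => by rw [I.v_eq]; rfl
  have hAM : ∀ {U : Type} [CommRing U] [Algebra (ZMod p) U] {τ : H.Pt U}, p ^ B • τ = 0 →
      p ^ M • τ = 0 := fun h => by
    rw [← Nat.sub_add_cancel hBM, pow_add, mul_smul, h, smul_zero]
  let E : TS H (vR K hc) (I.T j) (I.TL (M - B) j) (I.TL M j) M B (2 * ((p ^ h) ^ M * c) + N) :=
    { mv := D.mv C
      nat := fun g τ k hτ => D.eq_mv C hh (by rw [← map_nsmul, hτ, map_zero]) (by
        simp only [C.co_map]
        exact (D.mv_spec C hh hτ k).map (fun i => ⟨_, (tor_iff hh C).1 hτ i⟩) _)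
      zero := fun k => (D.eq_mv C hh (smul_zero _) (DT.Mv.zero fun i => by
        rw [map_zero]; rfl)).symm
      add := fun τ τ' k hτ hτ' => (D.eq_mv C hh (by rw [smul_add, hτ, hτ', add_zero]) (by
        simp only [map_add, Pi.add_apply]
        exact (D.mv_spec C hh hτ k).add ((tor_iff hh C).1 hτ) ((tor_iff hh C).1 hτ')
          (D.mv_spec C hh hτ' _))).symm
      bot := fun τ k hτ => (D.mv_spec C hh hτ k).1
      fix := fun {U} _ _ τ k hτ x hx => by
        have : Ch p U := Ch.of_hom (algebraMap (ZMod p) U)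
        have e : x = (⟨(rt p AA ^ (h * B)) x, I.mem_TL.2 (by
            rw [show (p ^ h) ^ M = p ^ (h * B) * (p ^ h) ^ (M - B) by
              rw [pow_mul, ← pow_add, Nat.add_sub_cancel' hBM], pow_mul, rt_pow_pp]
            exact I.mem_TL.1 hx)⟩ : I.TL M j) ^ p ^ (h * B) :=
          Subtype.ext (rt_pow_pp _ _).symm
        rw [e]
        exact (D.mv_spec C hh (hAM hτ) k).pow (fun i => by
          rw [pow_mul]; exact (tor_iff hh C).1 hτ i) _
      free := fun τ k hτ e => C.co.injective (funext fun i => Pt.ext (by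
        have := D.mv_spec C hh hτ k
        rw [e] at this
        rw [map_zero]
        exact this.free (fun i => ⟨_, (tor_iff hh C).1 hτ i⟩) i))
      div := fun {U} _ _ k k' e => by
        have : Ch p U := Ch.of_hom (algebraMap (ZMod p) U)
        obtain ⟨τ, t1, t2, t3⟩ := D.div (k := (k : _ →+* U)) (k' := (k' : _ →+* U))
          (fun t ht => e t (T_le _ _ ht)) (a := h * B) fun i => by
            rw [← map_pow, ← map_pow, pow_mul]
            exact e _ (m1.pw i)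
        let τ' : H.Pt U := C.co.symm fun i => ⟨τ i, IsN.of_nilpotent ⟨_, t1 i⟩⟩
        have t4 : ∀ i, (C.co τ' i).val = τ i := fun i => by rw [AddEquiv.apply_symm_apply]
        have t5 : p ^ B • τ' = 0 := (tor_iff hh C).2 fun i => by rw [t4, ← pow_mul, t1]
        refine ⟨τ', t5, D.eq_mv C hh (hAM t5) (by simpa only [t4] using t2), fun Λ hΛ =>
          lift_mem hh C t5 Λ fun i => ?_⟩
        rw [t4]
        exact t3 Λ (fun d => (hΛ _ (hi d)).2) (fun r => (hΛ _ isIntegral_algebraMap).2)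
          (fun i => (hΛ _ (D.xN i).int).1) (fun i => (hΛ _ (D.xN i).int).2) i
      loss := fun g τ k Λ hτ h1 h2 x hx => by
        have hτ' : p ^ M • H.map g τ = 0 := by rw [← map_nsmul, hτ, map_zero]
        have e := D.mv_spec C hh hτ' k
        obtain ⟨r, hr, er⟩ := (hM M le_rfl).1 x ⟨hx, x.2⟩
        have ex : algebraMap (RR c K) (I.TL M j) (vR K hc) ^ N * x =
            ∑ α, (⟨r α, m0.le (e0 ▸ (hr α).2)⟩ : I.TL M j) * mn D.X α :=
          Subtype.ext (by
            rw [coe_sum, Subalgebra.coe_mul, hv]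
            exact er)
        have e1 : k (algebraMap (RR c K) (I.TL M j) (vR K hc) ^ N) =
            D.mv C (H.map g τ) k (algebraMap (RR c K) (I.TL M j) (vR K hc) ^ N) :=
          (e.1 _ (by
            rw [hv]
            exact pow_mem (I.v_eq ▸ Subalgebra.algebraMap_mem _ _) _)).symm
        rw [pow_add, map_mul, mul_assoc, e1, ← map_mul (D.mv C (H.map g τ) k), ex, map_sum,
          Finset.mul_sum]
        refine sum_mem fun α _ => ?_
        rw [map_mul, mul_left_comm, pow_mul, map_pow]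
        refine mul_mem ?_ (e.loss ((tor_iff hh C).1 hτ') Λ (u := D.k0 (k : _ →+* _) ui ^ 2)
          (h2 _ ?_) (fun i => ?_) (fun r => h2 _ isIntegral_algebraMap)
          (fun i => h2 _ (D.xN i).int) (fun t Λ' hΛ ht h3 => hg _ _ t Λ' ht
            (fun z hz => hΛ (h2 _ hz)) h3) α)
        · exact (e.1 ⟨r α, _⟩ (e0 ▸ (hr α).2)).symm ▸ h2 ⟨r α, _⟩ (hr α).1
        · rw [hv, I.v_eq]
          exact isIntegral_algebraMap.pow _
        · rw [C.co_map, ← mul_assoc]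
          refine mul_mem ?_ (h1 _)
          rw [map_pow, ← mul_pow]
          refine pow_mem ?_ _
          refine (map_mul k _ _).symm ▸ h2 (_ * ⟨ui, m0.le ui.2⟩) ?_
          rw [Subalgebra.coe_mul, ← pow_one (algebraMap _ _ _), hv, pow_one]
          exact hu
      π := π
      π_one := p1
      π_mem := p2
      π_mul := p3
      π_loss := fun x hx => by
        obtain ⟨r, hr, er⟩ := (hM B hBM).1 x ⟨hx, x.2⟩
        refine pole_mono (Nat.le_add_left N _) _ (mem_pole.2 ?_)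
        have e1 := p4 (algebraMap (RR c K) (I.TL M j) (vR K hc) ^ N * x) r (fun α => (hr α).2) (by
          rw [Subalgebra.coe_mul, hv]
          exact er)
        rw [p3 _ _ (by
          rw [hv]
          exact pow_mem (I.v_eq ▸ Subalgebra.algebraMap_mem _ _) _), Subalgebra.coe_mul, hv] at e1
        rw [← I.v_eq, e1]
        exact (hr _).1 }
  have hκ : ∀ κ : AA →+* AA, (∀ z ∈ I.T j, κ z ∈ I.T j) → ∀ z ∈ I.TL M j, κ z ∈ I.TL M j :=
    fun κ h1 z hz => I.mem_TL.2 (map_pow κ z _ ▸ h1 _ (I.mem_TL.1 hz))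
  refine E.nonempty_RT hBM m1.le (vi := ⟨_, T_le _ _ (vi_mem j)⟩) (Subtype.ext ?_)
    (fun g => ?_) ?_ fun s hs => ?_
  · rw [Subalgebra.coe_mul, ← pow_one (algebraMap _ _ _), hv, pow_one]
    exact I.v.mul_inv
  · refine ⟨alg ((I.gg g).restrict _ _ (hκ _ (hB.gg_T g j))), fun _ => rfl, fun U _ _ τ k hτ => ?_⟩
    rw [one_smul]
    have ht := (tor_iff hh C).1 hτ
    refine D.eq_mv C hh hτ ((D.mv_spec C hh hτ k).sym ht (I.gg g) _ (fun _ => rfl) (hB.gg_T g j)
      (A.ph g) (I.gg_alg g) (s := (A.ser g)⁻¹.val) (w := (A.ser g).val)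
      ((InvSeries.smul_eq_iff_isHom _ _ _).1 (inv_smul_eq_iff.2 (A.law g).symm)) (hB.gg_x g M)
      (A.ser g).cc (I.gg_f g) fun i => ?_)
    have t1 := D.tt_nil (k : _ →+* U) ⟨_, ht i⟩
    rw [e1_nil t1, ← evN1_subst t1 (A.ser g)⁻¹.cc, InvSeries.inv_subst_val, evN1_X t1,
      D.f_tt _ ⟨_, ht i⟩]
  · have : Ch p (I.TL M j) := Ch.of_hom (algebraMap (ZMod p) _)
    refine ⟨alg (fr p _ ^ h), fun x => by rw [alg_apply, fr_pow_apply, fr_pow_apply]; rfl,
      fun U _ _ τ k hτ => ?_⟩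
    have : Ch p U := Ch.of_hom (algebraMap (ZMod p) U)
    refine D.eq_mv C hh (by rw [smul_comm, hτ, smul_zero]) ?_
    have e := (D.mv_spec C hh hτ k).map (fun i => ⟨_, (tor_iff hh C).1 hτ i⟩) (fr p U ^ h)
    convert e using 1
    · exact RingHom.ext fun x => ((congrArg k (fr_pow_apply h x)).trans (map_pow k _ _)).trans
        (fr_pow_apply h _).symm
    · funext i
      have := val_pp hh 1 (C.co τ i)
      rw [pow_one, pow_one] at this
      rw [map_nsmul, Pi.smul_apply, this, fr_pow_apply]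
    · exact RingHom.ext fun x => ((congrArg (D.mv C τ k) (fr_pow_apply h x)).trans
        (map_pow _ _ _)).trans (fr_pow_apply h _).symm
  · refine ⟨alg ((I.ga (I.a s) : AA →+* AA).restrict _ _ (hκ _ (hB.ga_T _ j))), fun _ => rfl,
      fun U _ _ τ k hτ => ?_⟩
    have ht := (tor_iff hh C).1 hτ
    have hs' : p ^ M • s • τ = 0 := by rw [smul_comm, hτ, smul_zero]
    have ht' := (tor_iff hh C).1 hs'
    refine D.eq_mv C hh hs' ((D.mv_spec C hh hτ k).sym ht (I.ga (I.a s) : AA →+* AA) _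
      (fun _ => rfl) (hB.ga_T _ j) (RingHom.id _) (I.ga (I.a s)).commutes
      (s := multSeries (FR p h c K).toFG s) (w := PowerSeries.X)
      (by rw [Law.map_id]; exact isHom_multSeries _ s)
      (fun i => (congrArg Pt.val (I.a_P s hs M i)).trans (Pt.val_nsmul _ _))
      PowerSeries.constantCoeff_X
      (by rw [I.a_f, PowerSeries.map_X, PowerSeries.X_subst]) fun i => ?_)
    have t1 := ht' i
    rw [map_nsmul, Pi.smul_apply] at t1
    rw [DT.e1_mult hh _ (ht i), evN1_X (D.tt_nil _ ⟨_, t1⟩), D.f_tt _ ⟨_, t1⟩, map_nsmul]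
    rfl

theorem td (hB : I.Bas) (hT : I.Trc) (hM : I.Mon) (H : PC.GF p) (C : GC h c H) : I.Td H := by
  obtain ⟨D, hD⟩ := hM
  refine ⟨2 * c + 1 + (p ^ h + D), fun j M B hBM hj => (td_at hB hT C hBM hj fun B hB =>
    hD B M j hB (by omega)).map fun X => X.mono ?_⟩
  have h0 : 0 < p ^ h := pow_pos p_pos h
  have h1 : (p ^ h) ^ M ≤ (2 * c + 1 + (p ^ h + D)) ^ j :=
    (Nat.pow_le_pow_right h0 (by omega)).trans (Nat.pow_le_pow_left (by omega) _)
  have h2 : D ^ j ≤ (2 * c + 1 + (p ^ h + D)) ^ j := Nat.pow_le_pow_left (by omega) _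
  rw [pow_succ, pow_succ]
  generalize (2 * c + 1 + (p ^ h + D)) ^ j = E at h1 h2
  have h3 := Nat.mul_le_mul_right c h1
  have h4 := Nat.mul_le_mul_right D h2
  have h5 : E * (2 * c + 1 + (p ^ h + D)) = 2 * (E * c) + E * D + E * (1 + p ^ h) := by ring
  omega

end P261.Ig.Th
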