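import Vale.Agent.P261Z.Ig.All0
import Vale.Agent.P261Z.Ig.Th2

/-!
# P261: the Igusa data of the concrete model
-/

namespace P261.Top

open P261.Ig

variable {p : ℕ} [hp : Fact p.Prime]

theorem stTD : StTD p := fun h c _ _ _ _ _ _ _ _ _ _ _ _ _ _ _ _ _ I hB _ _ hT _ hM _ =>
  Th.td hB hT hM _ (gc p h c I.hh)

theorem stIG (h : StFD p) : StIG p := stIG_of stTD h

end P261.Top
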