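import Vale.Agent.P261Z.Ig.FD

/-!
# P261, block Ig: elementary facts on the rings of finite level
-/

set_option linter.unusedSectionVars false

noncomputable section

namespace P261.Ig

open Vale.Agent.P261Z Vale.Agent.P261Z.N Vale.Agent.P217 Vale.Agent.P251.F

variable {p h c : ℕ} [hp : Fact p.Prime] {K G : Type} [Field K] [Pf p K] [Group G]
  [TopologicalSpace G]

namespace BasAux

/-- the ideal of a variable is the kernel of a map to a domain -/
theorem dvd_iff {σ k : Type*} [DecidableEq σ] [Field k] (s : σ) (r : MvPowerSeries σ k) :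
    MvPowerSeries.X s ∣ r ↔
      MvPowerSeries.rescale (fun i => if i = s then (0 : k) else 1) r = 0 := by
  rw [MvPowerSeries.X_dvd_iff, MvPowerSeries.ext_iff]
  refine forall_congr' fun m => ?_
  rw [MvPowerSeries.coeff_rescale, map_zero]
  by_cases hm : m s = 0
  · rw [Finsupp.prod, Finset.prod_eq_one fun i hi => by
      rw [if_neg (fun e : i = s => Finsupp.mem_support_iff.1 hi (e ▸ hm)), one_pow], one_mul]
    exact ⟨fun e => e hm, fun e _ => e⟩
  · rw [Finsupp.prod, Finset.prod_eq_zero (Finsupp.mem_support_iff.2 hm)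
      (by rw [if_pos rfl, zero_pow hm]), zero_mul]
    exact ⟨fun _ => rfl, fun _ e => absurd e hm⟩

theorem isPrime_X {σ k : Type*} [Field k] (s : σ) :
    (Ideal.span {(MvPowerSeries.X s : MvPowerSeries σ k)}).IsPrime := by
  classical
  have e : Ideal.span {(MvPowerSeries.X s : MvPowerSeries σ k)} =
      RingHom.ker (MvPowerSeries.rescale fun i => if i = s then (0 : k) else 1) :=
    Ideal.ext fun r => by rw [Ideal.mem_span_singleton, dvd_iff, RingHom.mem_ker]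
  have := NoZeroDivisors.to_isDomain (MvPowerSeries σ k)
  rw [e]
  exact RingHom.ker_isPrime _

/-- integral elements with a denominator which is a power of a prime element -/
theorem mem_bot {R U : Type*} [CommRing R] [CommRing U] [Algebra R U]
    (inj : Function.Injective (algebraMap R U)) {v : R} (hv : (Ideal.span {v}).IsPrime) (w : Uˣ)
    (hw : (w : U) = algebraMap R U v) {z : U} (hz : IsIntegral R z) (n : ℕ) :
    ∀ r, (w : U) ^ n * z = algebraMap R U r → z ∈ (⊥ : Subalgebra R U) := by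
  induction n with
  | zero => exact fun r e => Algebra.mem_bot.2 ⟨r, by rw [← e, pow_zero, one_mul]⟩
  | succ n ih =>
    intro r e
    obtain ⟨Q, -, -, hQ⟩ := Ideal.exists_ideal_over_prime_of_isIntegral (Ideal.span {v})
      (⊥ : Ideal (integralClosure R U)) fun a ha => by
        have : a = 0 := inj (by
          rw [map_zero]
          exact congrArg Subtype.val (Ideal.mem_bot.1 (Ideal.mem_comap.1 ha)))
        rw [this]
        exact Ideal.zero_mem _
    have h1 : algebraMap R (integralClosure R U) v ∈ Q :=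
      Ideal.mem_comap.1 (hQ.ge (Ideal.mem_span_singleton_self v))
    have h2 : algebraMap R (integralClosure R U) r = algebraMap R (integralClosure R U) v *
        (algebraMap R (integralClosure R U) v ^ n * ⟨z, hz⟩) := Subtype.ext (by
      change algebraMap R U r = algebraMap R U v * (algebraMap R U v ^ n * z)
      rw [← e, hw, pow_succ', mul_assoc])
    obtain ⟨r', rfl⟩ := Ideal.mem_span_singleton.1
      (hQ.le (Ideal.mem_comap.2 (h2 ▸ Q.mul_mem_right _ h1)))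
    refine ih r' (w.isUnit.mul_left_cancel ?_)
    rw [← mul_assoc, ← pow_succ', e, map_mul, hw]

end BasAux

namespace FD

variable {A : RG p h c G K} {hc : 0 < c} {AA : Type} [CommRing AA] [Algebra (RR c K) AA]
  [Pf p AA] {Γ : Type} [Group Γ] (I : FD A hc AA Γ)

namespace Bs

theorem tor (M : ℕ) (i : Fin c) : p ^ M • I.P M i = 0 := by
  induction M with
  | zero => rw [pow_zero, one_nsmul, I.P_zero]
  | succ M ih => rw [pow_succ, mul_smul, I.P_succ, ih]

theorem sum_mem' (j : ℕ) (l : Fin c → ℕ) :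
    (∑ i, l i • I.P j i).val ∈ Algebra.adjoin (RR c K) (Set.range (I.x j)) := by
  change _ ∈ Pt.sub (mm c K) (FR p h c K) (Algebra.adjoin (RR c K) (Set.range (I.x j)))
  exact sum_mem fun i _ => (Pt.sub _ _ _).nsmul_mem
    (show I.x j i ∈ Algebra.adjoin (RR c K) (Set.range (I.x j)) from
      Algebra.subset_adjoin ⟨i, rfl⟩) _

theorem y_mem (j : ℕ) (i : Fin c) : I.y j i ∈ I.L j := Algebra.subset_adjoin (Or.inr ⟨i, rfl⟩)

theorem f_mem {j d : ℕ} (hd : d < (p ^ h) ^ j) : PowerSeries.coeff d I.f ∈ I.L j :=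
  Algebra.subset_adjoin (Or.inl ⟨d, hd, rfl⟩)

theorem f_le {j d : ℕ} (hd : d < (p ^ h) ^ j) :
    Algebra.adjoin (RR c K) {z | ∃ e ≤ d, z = PowerSeries.coeff e I.f} ≤ I.L j :=
  Algebra.adjoin_le (by
    rintro _ ⟨e, he, rfl⟩
    exact f_mem I (he.trans_lt hd))

theorem v_mem (B : Subalgebra (RR c K) AA) : (I.v : AA) ∈ B := I.v_eq ▸ B.algebraMap_mem _

theorem vi_mem (j : ℕ) : ((I.v⁻¹ : AAˣ) : AA) ∈ I.T j := Algebra.subset_adjoin (Set.mem_insert _ _)

theorem L_le_T (j : ℕ) : I.L j ≤ I.T j := Algebra.adjoin_mono (Set.subset_insert _ _)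

theorem pow_L (j : ℕ) (z : AA) (hz : z ∈ Algebra.adjoin (RR c K) (Set.range (I.x j))) :
    z ^ (p ^ h) ^ j ∈ I.L j := by
  induction hz using Algebra.adjoin_induction with
  | mem x hx =>
    obtain ⟨i, rfl⟩ := hx
    exact y_mem I j i
  | algebraMap r => exact pow_mem (Subalgebra.algebraMap_mem _ r) _
  | add a b _ _ ha hb =>
    rw [← pow_mul, add_pow_pp, pow_mul]
    exact add_mem ha hb
  | mul a b _ _ ha hb =>
    rw [mul_pow]
    exact mul_mem ha hb

theorem fr_eq {S : Type} [CommRing S] [Ch p S] (j : ℕ) (z : S) :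
    (fr p S ^ (h * j)) z = z ^ (p ^ h) ^ j := by rw [fr_pow_apply, pow_mul]

theorem q_pos (j : ℕ) : 0 < (p ^ h) ^ j := pow_pos (pow_pos hp.out.pos h) j

/-- powers of values of series -/
theorem pow_ev (j : ℕ) (σ : RR c K →+* RR c K) (hσ : ∀ r, σ r = r ^ (p ^ h) ^ j) {z : AA}
    (hz : IsN (mm c K) z) (s : PowerSeries (RR c K)) :
    evO1 (mm c K) z s ^ (p ^ h) ^ j =
      evO1 (mm c K) (z ^ (p ^ h) ^ j) (PowerSeries.map σ s) := by
  rw [← fr_eq (h := h) j, map_evO1 σ (fr p AA ^ (h * j))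
    (fun r => by rw [fr_eq, hσ, map_pow]) hz ((fr_eq (h := h) j z).symm ▸ hz.pow (q_pos j)), fr_eq]

theorem x_eq (j : ℕ) (i : Fin c) :
    I.x j i = evO1 (mm c K) (I.x (j + 1) i ^ p ^ h) (KS.psi p h (FR p h c K)) := by
  have p0 : (p : RR c K) = 0 := Ch.char
  have := (CharP.charP_iff_prime_eq_zero hp.out).2 p0
  have h5 := Pt.val_nsmul p (I.P (j + 1) i)
  rwa [I.P_succ, (KS.psi_spec (KS.vv_FR_lt p0)).1, PowerSeries.expand_apply,
    evO1_subst1 (I.P (j + 1) i).isN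
      (by rw [map_pow, PowerSeries.constantCoeff_X, zero_pow (pow_pos hp.out.pos h).ne']),
    map_pow, evO1_X (I.P (j + 1) i).isN] at h5

theorem step (j : ℕ) (i : Fin c) (σ : RR c K →+* RR c K) (hσ : ∀ r, σ r = r ^ (p ^ h) ^ j) :
    evO1 (mm c K) (I.y (j + 1) i) (PowerSeries.map σ (KS.psi p h (FR p h c K))) = I.y j i := by
  change _ = I.x j i ^ (p ^ h) ^ j
  rw [x_eq I j i, pow_ev j σ hσ ((I.P (j + 1) i).isN.pow (pow_pos hp.out.pos h)), ← pow_mul,
    ← pow_succ']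

theorem gg_x (g : G) (M : ℕ) (i : Fin c) :
    I.gg g (I.x M i) = evO1 (mm c K) (I.x M i) (A.ser g)⁻¹.val := by
  have h3 := (I.P M i).isN.map (m' := mm c K) (A.ph g) (I.gg g) (I.gg_alg g)
    fun r hr => Ideal.le_radical (KS.ph_mem A g r hr)
  have h4 := evO1_subst1 h3 (A.ser g).cc (A.ser g)⁻¹.val
  rwa [InvSeries.subst_inv_val, evO1_X h3, I.gg_P] at h4

theorem L_mono : Monotone I.L := monotone_nat_of_le_succ fun j => Algebra.adjoin_le (by
  rintro _ (⟨d, hd, rfl⟩ | ⟨i, rfl⟩)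
  · exact f_mem I (hd.trans_le (Nat.pow_le_pow_right (pow_pos hp.out.pos h) j.le_succ))
  · rw [← step I j i (fr p _ ^ (h * j)) (fr_eq j)]
    exact evO1_mem _ (y_mem I (j + 1) i) _)

theorem T_mono : Monotone I.T := fun _ j' hj => Algebra.adjoin_le
  (Set.insert_subset (vi_mem I j') fun _ hz => L_le_T I j' (L_mono I hj (Algebra.subset_adjoin hz)))

theorem gens_int (hF : I.BasF) (j : ℕ) : ∀ z ∈ I.gens j, IsIntegral (RR c K) z := by
  rintro _ (⟨d, -, rfl⟩ | ⟨i, rfl⟩)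
  · exact hF.int d
  · exact (I.P j i).isN.int.pow _

theorem gens_fin (j : ℕ) : (I.gens j).Finite := by
  refine (((Set.finite_lt_nat ((p ^ h) ^ j)).image fun d => PowerSeries.coeff d I.f).union
    (Set.finite_range (I.y j))).subset ?_
  rintro _ (⟨d, hd, rfl⟩ | ⟨i, rfl⟩)
  · exact Or.inl ⟨d, hd, rfl⟩
  · exact Or.inr ⟨i, rfl⟩

theorem mem_T (j : ℕ) (z : AA) : z ∈ I.T j ↔ ∃ N : ℕ, (I.v : AA) ^ N * z ∈ I.L j := by
  constructor
  · intro hz
    induction hz using Algebra.adjoin_induction with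
    | mem x hx =>
      rcases hx with rfl | hx
      · exact ⟨1, by rw [pow_one, Units.mul_inv]; exact one_mem _⟩
      · exact ⟨0, by rw [pow_zero, one_mul]; exact Algebra.subset_adjoin hx⟩
    | algebraMap r => exact ⟨0, by rw [pow_zero, one_mul]; exact Subalgebra.algebraMap_mem _ r⟩
    | add a b _ _ ha hb =>
      obtain ⟨N, ha⟩ := ha
      obtain ⟨N', hb⟩ := hb
      refine ⟨N + N', ?_⟩
      rw [show (I.v : AA) ^ (N + N') * (a + b) = (I.v : AA) ^ N' * ((I.v : AA) ^ N * a) +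
        (I.v : AA) ^ N * ((I.v : AA) ^ N' * b) by ring]
      exact add_mem (mul_mem (pow_mem (v_mem I _) _) ha) (mul_mem (pow_mem (v_mem I _) _) hb)
    | mul a b _ _ ha hb =>
      obtain ⟨N, ha⟩ := ha
      obtain ⟨N', hb⟩ := hb
      refine ⟨N + N', ?_⟩
      rw [show (I.v : AA) ^ (N + N') * (a * b) = (I.v : AA) ^ N * a * ((I.v : AA) ^ N' * b) by ring]
      exact mul_mem ha hb
  · rintro ⟨N, hz⟩
    have := mul_mem (pow_mem (vi_mem I j) N) (L_le_T I j hz)
    rwa [← mul_assoc, ← mul_pow, Units.inv_mul, one_pow, one_mul] at this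

theorem L_zero : I.L 0 = ⊥ := le_bot_iff.1 (Algebra.adjoin_le (by
  rintro _ (⟨d, hd, rfl⟩ | ⟨i, rfl⟩)
  · obtain rfl : d = 0 := by simpa using hd
    rw [PowerSeries.coeff_zero_eq_constantCoeff_apply, I.f_hom.1]
    exact zero_mem _
  · change (I.P 0 i).val ^ (p ^ h) ^ 0 ∈ _
    rw [pow_zero, pow_one, I.P_zero]
    exact zero_mem _))

theorem mem_T0 (z : AA) : z ∈ I.T 0 ↔
    ∃ (N : ℕ) (r : RR c K), (I.v : AA) ^ N * z = algebraMap (RR c K) AA r := by
  rw [mem_T, L_zero]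
  exact exists_congr fun N => Algebra.mem_bot.trans (exists_congr fun r => eq_comm)

theorem O_zero : I.O 0 = ⊥ := le_bot_iff.1 fun z hz => by
  obtain ⟨N, r, e⟩ := (mem_T0 I z).1 hz.2
  exact BasAux.mem_bot I.inj (BasAux.isPrime_X _) I.v I.v_eq hz.1 N r e

/-- stability of generated algebras -/
theorem stab (Φ : AA →+* AA) {s : Set AA} {B : Subalgebra (RR c K) AA}
    (h1 : ∀ r, Φ (algebraMap (RR c K) AA r) ∈ B) (h2 : ∀ z ∈ s, Φ z ∈ B) :
    ∀ z ∈ Algebra.adjoin (RR c K) s, Φ z ∈ B := fun z hz => by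
  induction hz using Algebra.adjoin_induction with
  | mem x hx => exact h2 x hx
  | algebraMap r => exact h1 r
  | add a b _ _ ha hb => exact (map_add Φ a b).symm ▸ add_mem ha hb
  | mul a b _ _ ha hb => exact (map_mul Φ a b).symm ▸ mul_mem ha hb

theorem ga_y (γ : Γ) (j : ℕ) (i : Fin c) :
    I.ga γ (I.y j i) = (∑ k, I.en γ j i k • I.P j k).val ^ (p ^ h) ^ j := by
  rw [map_pow, ← I.ga_P, Pt.mapA_val]

theorem ga_L (hF : I.BasF) (γ : Γ) (j : ℕ) : ∀ z ∈ I.L j, I.ga γ z ∈ I.L j :=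
  stab (I.ga γ : AA →+* AA) (fun r => ((I.ga γ).commutes r).symm ▸ Subalgebra.algebraMap_mem _ r)
    (by
      rintro _ (⟨d, hd, rfl⟩ | ⟨i, rfl⟩)
      · exact f_le I hd (hF.ga_f γ d)
      · exact (ga_y I γ j i).symm ▸ pow_L I j _ (sum_mem' I j _))

theorem ga_vi (γ : Γ) : I.ga γ ((I.v⁻¹ : AAˣ) : AA) = ((I.v⁻¹ : AAˣ) : AA) := by
  refine I.v.isUnit.mul_left_cancel ?_
  have : I.ga γ (I.v : AA) = I.v := by rw [I.v_eq, AlgHom.commutes]
  rw [Units.mul_inv]
  nth_rewrite 1 [← this]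
  rw [← map_mul, Units.mul_inv, map_one]

theorem ga_T (hF : I.BasF) (γ : Γ) (j : ℕ) : ∀ z ∈ I.T j, I.ga γ z ∈ I.T j :=
  stab (I.ga γ : AA →+* AA) (fun r => ((I.ga γ).commutes r).symm ▸ Subalgebra.algebraMap_mem _ r)
    (by
      rintro _ (rfl | hz)
      · exact (ga_vi I γ).symm ▸ vi_mem I j
      · exact L_le_T I j (ga_L I hF γ j _ (Algebra.subset_adjoin hz)))

theorem gg_L (hF : I.BasF) (g : G) (j : ℕ) : ∀ z ∈ I.L j, I.gg g z ∈ I.L j :=
  stab (I.gg g) (fun r => (I.gg_alg g r).symm ▸ Subalgebra.algebraMap_mem _ _) (by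
    rintro _ (⟨d, hd, rfl⟩ | ⟨i, rfl⟩)
    · exact f_le I hd (hF.gg_f g d)
    · rw [map_pow, gg_x, pow_ev j (fr p _ ^ (h * j)) (fr_eq j) (I.P j i).isN]
      exact evO1_mem _ (y_mem I j i) _)

theorem gg_vi (hF : I.BasF) (g : G) : I.gg g ((I.v⁻¹ : AAˣ) : AA) =
    algebraMap (RR c K) AA (((A.t g)⁻¹ : (RR c K)ˣ) ^ (p ^ h - 1)) * ((I.v⁻¹ : AAˣ) : AA) := by
  refine (I.v.isUnit.map (I.gg g)).mul_left_cancel ?_
  rw [← map_mul, Units.mul_inv, map_one, hF.gg_v, mul_mul_mul_comm, Units.mul_inv, ← map_mul,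
    ← mul_pow, Units.mul_inv, one_pow, map_one, one_mul]

theorem gg_T (hF : I.BasF) (g : G) (j : ℕ) : ∀ z ∈ I.T j, I.gg g z ∈ I.T j :=
  stab (I.gg g) (fun r => (I.gg_alg g r).symm ▸ Subalgebra.algebraMap_mem _ _) (by
    rintro _ (rfl | hz)
    · rw [gg_vi I hF]
      exact mul_mem (Subalgebra.algebraMap_mem _ _) (vi_mem I j)
    · exact L_le_T I j (gg_L I hF g j _ (Algebra.subset_adjoin hz)))

theorem ga_x {j : ℕ} {γ : Γ} (hγ : γ ∈ I.Gs j) (i : Fin c) :
    ∑ k, I.en γ j i k • I.P j k = I.P j i := by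
  classical
  rw [Finset.sum_congr rfl fun k _ => show I.en γ j i k • I.P j k =
      (if i = k then 1 else 0) • I.P j k by
    rw [nsmul_eq_mod_nsmul _ (tor I j k), ((I.mem_Gs γ j).1 hγ).2 i k,
      ← nsmul_eq_mod_nsmul _ (tor I j k)]]
  simp

theorem fix (hF : I.BasF) (j : ℕ) (γ : Γ) (hγ : γ ∈ I.Gs j) (z : AA) (hz : z ∈ I.T j) :
    I.ga γ z = z := by
  refine (Algebra.adjoin_le ?_ : I.T j ≤ AlgHom.equalizer (I.ga γ) (AlgHom.id _ _)) hz
  rintro _ (rfl | ⟨d, hd, rfl⟩ | ⟨i, rfl⟩)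
  · exact ga_vi I γ
  · exact hF.fix_f j γ hγ d hd
  · exact (ga_y I γ j i).trans (by rw [ga_x I hγ]; rfl)

end Bs

theorem bas (hF : I.BasF) : I.Bas where
  toBasF := hF
  tor := Bs.tor I
  sum_mem := Bs.sum_mem' I
  pow_L := Bs.pow_L I
  step := Bs.step I
  gg_x := Bs.gg_x I
  L_mono := Bs.L_mono I
  T_mono := Bs.T_mono I
  L_le j := le_inf (Algebra.adjoin_le (Bs.gens_int I hF j)) (Bs.L_le_T I j)
  L_fin j := ⟨(Submodule.fg_top _).2 (fg_adjoin_of_finite (Bs.gens_fin I j) (Bs.gens_int I hF j))⟩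
  mem_T := Bs.mem_T I
  mem_T0 := Bs.mem_T0 I
  O_zero := Bs.O_zero I
  ga_L := Bs.ga_L I hF
  ga_T := Bs.ga_T I hF
  gg_L := Bs.gg_L I hF
  gg_T := Bs.gg_T I hF
  gg_OO g _ hz := int_map (A.ph g) (I.gg g) (I.gg_alg g) hz
  fix := Bs.fix I hF

end FD

end P261.Ig
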