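import Vale.Agent.P261Z.Ig.FD

/-!
# P261, blocks N3 N4 N6: elementary facts on the coefficients of `f`
-/

set_option linter.unusedSectionVars false

noncomputable section

namespace P261.Ig

open Vale.Agent.P261Z Vale.Agent.P261Z.N Vale.Agent.P217 Vale.Agent.P251.F PowerSeries

namespace Bf

variable {R B : Type} [CommRing R] [CommRing B] [Algebra R B] {s : PowerSeries B}

theorem coeff_pow_lt (hs : constantCoeff s = 0) {d e : ℕ} (h : d < e) : coeff d (s ^ e) = 0 :=
  X_pow_dvd_iff.1 (pow_dvd_pow_of_dvd (X_dvd_iff.2 hs) e) d h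

theorem coeff_pow_self (hs : constantCoeff s = 0) (d : ℕ) : coeff d (s ^ d) = coeff 1 s ^ d := by
  obtain ⟨G, rfl⟩ := X_dvd_iff.2 hs
  have h1 := coeff_X_pow_mul (G ^ d) d 0
  rw [zero_add] at h1
  rw [mul_pow, h1, coeff_succ_X_mul, coeff_zero_eq_constantCoeff_apply, map_pow,
    coeff_zero_eq_constantCoeff_apply]

theorem coeff_subst_sum (hs : constantCoeff s = 0) (f : PowerSeries B) (d : ℕ) :
    coeff d (f.subst s : PowerSeries B) =
      ∑ e ∈ Finset.range (d + 1), coeff e f * coeff d (s ^ e) := by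
  rw [coeff_subst' (hasSubst_of_cc hs), finsum_eq_sum_of_support_subset
    (s := Finset.range (d + 1))]
  · rfl
  · intro e he
    by_contra h
    rw [Finset.coe_range, Set.mem_Iio, not_lt] at h
    exact he ((congrArg _ (coeff_pow_lt hs h)).trans (smul_zero _))

theorem coeff_pow_mem (T : Subalgebra R B) (f : PowerSeries B) (d : ℕ)
    (h : ∀ e ≤ d, coeff e f ∈ T) (n : ℕ) : ∀ e ≤ d, coeff e (f ^ n) ∈ T := by
  induction n with
  | zero =>
    intro e _
    rw [pow_zero, coeff_one]
    split_ifs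
    exacts [one_mem _, zero_mem _]
  | succ n ih =>
    intro e he
    rw [pow_succ, coeff_mul]
    refine sum_mem fun x hx => ?_
    have := Finset.HasAntidiagonal.mem_antidiagonal.1 hx
    exact mul_mem (ih _ (by omega)) (h _ (by omega))

theorem subst_mem (T : Subalgebra R B) (hs : constantCoeff s = 0) (f : PowerSeries B) (d : ℕ)
    (h : ∀ e ≤ d, coeff e f ∈ T) (h' : ∀ e ≤ d, coeff e s ∈ T) :
    coeff d (f.subst s : PowerSeries B) ∈ T := by
  rw [coeff_subst_sum hs]
  exact sum_mem fun e he => mul_mem (h e (Nat.lt_succ_iff.1 (Finset.mem_range.1 he)))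
    (coeff_pow_mem T s d h' e d le_rfl)

theorem cc_map (φ : R →+* B) {t : PowerSeries R} (ht : constantCoeff t = 0) :
    constantCoeff (map φ t) = 0 := by
  rw [← coeff_zero_eq_constantCoeff_apply, coeff_map, coeff_zero_eq_constantCoeff_apply, ht,
    map_zero]

theorem isIntegral_of {x w : B} {q : ℕ} (hq : 2 ≤ q) (hw : IsIntegral R w)
    (h : IsIntegral R (x ^ q - w * x)) : IsIntegral R x := by
  rcases subsingleton_or_nontrivial B with _ | _
  · rw [Subsingleton.elim x 0]
    exact isIntegral_zero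
  let T := integralClosure R B
  refine isIntegral_trans (A := T) x ⟨Polynomial.X ^ q -
    (Polynomial.C ⟨w, hw⟩ * Polynomial.X + Polynomial.C ⟨_, h⟩), ?_, ?_⟩
  · exact Polynomial.monic_X_pow_sub
      (Polynomial.degree_linear_le.trans_lt (by exact_mod_cast hq))
  · simp only [Polynomial.eval₂_sub, Polynomial.eval₂_add, Polynomial.eval₂_mul,
      Polynomial.eval₂_C, Polynomial.eval₂_X, Polynomial.eval₂_X_pow]
    change x ^ q - (w * x + (x ^ q - w * x)) = 0
    ring

end Bf

open Bf

variable {p h c : ℕ} [hp : Fact p.Prime] {K G : Type} [Field K] [Pf p K] [Group G]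
  [TopologicalSpace G]

namespace FD

variable {A : RG p h c G K} {hc : 0 < c} {AA : Type} [CommRing AA] [Algebra (RR c K) AA]
  [Pf p AA] {Γ : Type} [Group Γ] (I : FD A hc AA Γ)

/-- the relation `f (psi x) = f^(q) (x)` -/
theorem f_psi : (I.f.subst (map (algebraMap (RR c K) AA) (KS.psi p h (FR p h c K))) :
    PowerSeries AA) = map (fr p AA ^ h) I.f := by
  have p0 : (p : RR c K) = 0 := Ch.char
  have : CharP (RR c K) p := Ch.charP
  have q0 := pow_ne_zero h hp.out.ne_zero
  have f0 := hasSubst_of_cc I.f_hom.1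
  have h1 := IsHom_multSeries I.f_hom p
  rw [HL_p Ch.char I.hh, subst_pow f0, subst_X f0, Law.map_toFG, ← map_multSeries,
    (KS.psi_spec (KS.vv_FR_lt p0)).1, map_expand] at h1
  exact HT_expand_injective q0 (((expand_subst _ q0
    (hasSubst_of_cc (cc_map _ (KS.psi_zero p h _))) _).trans h1).trans (PB.pow_pp_series h I.f))

theorem f_rel (d : ℕ) : coeff d I.f ^ p ^ h - (I.v : AA) ^ d * coeff d I.f =
    ∑ e ∈ Finset.range d, coeff e I.f *
      algebraMap (RR c K) AA (coeff d (KS.psi p h (FR p h c K) ^ e)) := by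
  have h0 := cc_map (algebraMap (RR c K) AA) (KS.psi_zero p h (FR p h c K))
  have h1 := congrArg (coeff d) I.f_psi
  rw [coeff_subst_sum h0, coeff_map, fr_pow_apply, Finset.sum_range_succ, coeff_pow_self h0,
    coeff_map, KS.psi_one Ch.char I.hh hc, ← I.v_eq] at h1
  rw [← h1, mul_comm, add_sub_cancel_right]
  exact Finset.sum_congr rfl fun e _ => by rw [← map_pow, coeff_map]

theorem basF : I.BasF := by
  have hq : 2 ≤ p ^ h := Nat.one_lt_pow I.hh hp.out.one_lt
  have f0 : constantCoeff I.f = 0 := I.f_hom.1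
  have rel : ∀ d, coeff d I.f ^ p ^ h - (I.v : AA) ^ d * coeff d I.f ∈
      Algebra.adjoin (RR c K) {z | ∃ e < d, z = coeff e I.f} := fun d => by
    rw [I.f_rel]
    exact sum_mem fun e he => mul_mem (Algebra.subset_adjoin ⟨e, Finset.mem_range.1 he, rfl⟩)
      (Subalgebra.algebraMap_mem _ _)
  have one : coeff 1 I.f ^ (p ^ h - 1) = I.v := by
    have h1 := I.f_rel 1
    rw [Finset.sum_range_one, coeff_zero_eq_constantCoeff_apply, f0, zero_mul, sub_eq_zero,
      pow_one] at h1
    refine I.f_unit.mul_right_cancel ?_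
    rw [← pow_succ, Nat.sub_add_cancel (by omega), h1]
  have gg_one : ∀ g, I.gg g (coeff 1 I.f) = algebraMap (RR c K) AA (A.t g) * coeff 1 I.f :=
    fun g => by
      rw [← coeff_map, I.gg_f, coeff_one_subst (cc_map _ (A.ser g).cc), coeff_map]
      rfl
  have ga : ∀ γ d, I.ga γ (coeff d I.f) = coeff d ((map ((algebraMap (RR c K) AA).comp
      MvPowerSeries.C) (I.eg γ)).subst I.f : PowerSeries AA) := fun γ d => by
    rw [← I.ga_f, coeff_map]
    rfl
  refine ⟨rel, fun d => ?_, one, gg_one, fun g => ?_, fun γ d => ?_, fun g d => ?_,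
    fun j γ hγ d hd => ?_⟩
  · induction d using Nat.strong_induction_on with
    | _ d ih =>
      refine isIntegral_of hq (w := (I.v : AA) ^ d) (I.v_eq ▸ isIntegral_algebraMap.pow d) ?_
      refine Algebra.adjoin_le (S := integralClosure (RR c K) AA) ?_ (rel d)
      rintro _ ⟨e, he, rfl⟩
      exact ih e he
  · rw [← one, map_pow, gg_one, mul_pow, map_pow]
  · rw [ga]
    exact subst_mem _ f0 _ d (fun e _ => by
      rw [coeff_map]
      exact Subalgebra.algebraMap_mem _ _) fun e he => Algebra.subset_adjoin ⟨e, he, rfl⟩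
  · rw [← coeff_map, I.gg_f]
    exact subst_mem _ (cc_map _ (A.ser g).cc) _ d (fun e he => Algebra.subset_adjoin ⟨e, he, rfl⟩)
      fun e _ => by
        rw [coeff_map]
        exact Subalgebra.algebraMap_mem _ _
  · conv_rhs => rw [← subst_X (R := AA) (hasSubst_of_cc f0)]
    rw [ga, coeff_subst_sum f0, coeff_subst_sum f0]
    refine Finset.sum_congr rfl fun e he => ?_
    have := Finset.mem_range.1 he
    rw [coeff_map, ((I.mem_Gs γ j).1 hγ).1 e (by omega), ← coeff_map, map_X]

end FD

end P261.Ig
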