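import Vale.Agent.P261Z.Ig.FD

/-!
# P261, block N6: the group functor given by `c` copies of the law of height `h`
-/

noncomputable section

open MvPolynomial

namespace P261.Ig

open Vale.Agent.P261Z Vale.Agent.P217 Vale.Agent.P251.F

variable {p h : ℕ} [hp : Fact p.Prime]

variable (p h) in
/-- the points of the law of height `h` -/
abbrev PtH (S : Type) [CommRing S] [Algebra (ZMod p) S] : Type :=
  Pt S (⊥ : Ideal (ZMod p)) (HL p h (ZMod p))

theorem val_pp (hh : h ≠ 0) {S : Type} [CommRing S] [Algebra (ZMod p) S] (m : ℕ) (τ : PtH p h S) :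
    (p ^ m • τ).val = τ.val ^ (p ^ h) ^ m := by
  induction m with
  | zero => rw [pow_zero, one_smul, pow_zero, pow_one]
  | succ m ih =>
    rw [pow_succ', mul_smul, Pt.val_nsmul, HL_p (ZMod.natCast_self p) hh, map_pow,
      evO1_X (p ^ m • τ).isN, ih, ← pow_mul, ← pow_succ]

theorem pp_eq_zero (hh : h ≠ 0) {S : Type} [CommRing S] [Algebra (ZMod p) S] {m : ℕ}
    {τ : PtH p h S} : p ^ m • τ = 0 ↔ τ.val ^ (p ^ h) ^ m = 0 := by
  rw [Pt.ext_iff, val_pp hh, Pt.val_zero]

variable (p) in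
/-- the ideal of the `N`-th powers of the variables -/
def IP (σ : Type) (N : ℕ) : Ideal (MvPolynomial σ (ZMod p)) :=
  Ideal.span (Set.range fun x => X x ^ N)

theorem mem_IP {σ : Type} {N : ℕ} {f : MvPolynomial σ (ZMod p)} :
    f ∈ IP p σ N ↔ ∀ d ∈ f.support, ∃ x, N ≤ d x := by
  simp only [IP, X_pow_eq_monomial, Set.range_comp' (fun d => monomial d (1 : ZMod p)),
    mem_ideal_span_monomial_image, Set.exists_range_iff, Finsupp.single_le_iff]

theorem mk_X_pow {σ : Type} (N : ℕ) (x : σ) : Ideal.Quotient.mk (IP p σ N) (X x) ^ N = 0 := by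
  rw [← map_pow]
  exact Ideal.Quotient.eq_zero_iff_mem.2 (Ideal.subset_span ⟨x, rfl⟩)

/-- maps out of the truncated polynomial ring -/
def liftP {σ S : Type} [CommRing S] [Algebra (ZMod p) S] {N : ℕ} (y : σ → S)
    (hy : ∀ x, y x ^ N = 0) : (MvPolynomial σ (ZMod p) ⧸ IP p σ N) →ₐ[ZMod p] S :=
  Ideal.Quotient.liftₐ _ (aeval y) fun _ hf => (Ideal.span_le (I := RingHom.ker (aeval y))).2
    (Set.range_subset_iff.2 fun x => by simp [hy]) hf

theorem liftP_mk {σ S : Type} [CommRing S] [Algebra (ZMod p) S] {N : ℕ} (y : σ → S)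
    (hy : ∀ x, y x ^ N = 0) (f : MvPolynomial σ (ZMod p)) :
    liftP y hy (Ideal.Quotient.mk _ f) = aeval y f := rfl

open Classical in
/-- the map given by a family of points -/
def liftH (m : ℕ) {a c : ℕ} {S : Type} [CommRing S] [Algebra (ZMod p) S]
    (g : Fin a → Fin c → PtH p h S) :
    (MvPolynomial (Fin a × Fin c) (ZMod p) ⧸ IP p _ ((p ^ h) ^ m)) →ₐ[ZMod p] S :=
  liftP (fun x => if (g x.1 x.2).val ^ (p ^ h) ^ m = 0 then (g x.1 x.2).val else 0) fun x => by
    split_ifs with h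
    exacts [h, zero_pow (pow_ne_zero _ (pow_ne_zero _ hp.out.ne_zero))]

theorem liftH_mk (hh : h ≠ 0) (m : ℕ) {a c : ℕ} {S : Type} [CommRing S] [Algebra (ZMod p) S]
    {g : Fin a → Fin c → PtH p h S} (hg : ∀ i, p ^ m • g i = 0) (f : MvPolynomial _ (ZMod p)) :
    liftH m g (Ideal.Quotient.mk _ f) = aeval (fun x : Fin a × Fin c => (g x.1 x.2).val) f := by
  rw [liftH, liftP_mk]
  congr 3
  exact funext fun x => if_pos ((pp_eq_zero hh).1 (congrFun (hg x.1) x.2))

variable (p h) in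
/-- the universal points -/
def uH (c m a : ℕ) (i : Fin a) (k : Fin c) :
    PtH p h (MvPolynomial (Fin a × Fin c) (ZMod p) ⧸ IP p _ ((p ^ h) ^ m)) :=
  ⟨Ideal.Quotient.mk _ (X (i, k)), IsN.of_nilpotent ⟨_, mk_X_pow _ _⟩⟩

theorem uH_tor (hh : h ≠ 0) (c m a : ℕ) (i : Fin a) : p ^ m • uH p h c m a i = 0 :=
  funext fun _ => (pp_eq_zero hh).2 (mk_X_pow _ _)

variable (p h) in
/-- the group functor -/
def HH (c : ℕ) (hh : h ≠ 0) : PC.GF p where
  Pt S := Fin c → PtH p h S
  grp _ := inferInstance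
  map f := (Pt.mapA f).compLeft (Fin c)
  map_id _ := rfl
  map_comp _ _ _ := rfl
  O m a := MvPolynomial (Fin a × Fin c) (ZMod p) ⧸ IP p _ ((p ^ h) ^ m)
  ring _ _ := inferInstance
  alg _ _ := inferInstance
  u := uH p h c
  u_tor := uH_tor hh c
  lift m _ _ _ _ g := liftH m g
  lift_u m _ _ _ _ _ hg _ := funext fun _ => Pt.ext ((liftH_mk hh m hg _).trans (aeval_X _ _))
  ext _ _ _ _ _ _ _ h := Ideal.Quotient.algHom_ext _ (MvPolynomial.algHom_ext fun x =>
    congrArg Pt.val (congrFun (h x.1) x.2))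
  inj A e := (injective_iff_map_eq_zero _).2 fun f hf => by
    obtain ⟨f, rfl⟩ := Ideal.Quotient.mk_surjective f
    have q0 := pow_pos (pow_pos hp.out.pos h) e
    have h1 : aeval (fun x : Fin 1 × Fin c => (p ^ e • uH p h c (A + e) 1 0 x.2).val) f =
        Ideal.Quotient.mkₐ (ZMod p) _ (expand ((p ^ h) ^ e) f) := by
      rw [← AlgHom.comp_apply]
      congr 1
      refine MvPolynomial.algHom_ext fun x => ?_
      rw [aeval_X, val_pp hh, AlgHom.comp_apply, expand_X, map_pow, Subsingleton.elim 0 x.1]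
      rfl
    rw [liftH_mk hh A fun _ => by rw [← mul_smul, ← pow_add, uH_tor hh]] at hf
    refine Ideal.Quotient.eq_zero_iff_mem.2 (mem_IP.2 fun d hd => ?_)
    obtain ⟨x, hx⟩ := mem_IP.1 (Ideal.Quotient.eq_zero_iff_mem.1 (h1.symm.trans hf))
      ((p ^ h) ^ e • d) (by rwa [mem_support_iff, coeff_expand_smul _ q0.ne', ← mem_support_iff])
    rw [pow_add, mul_comm] at hx
    exact ⟨x, Nat.le_of_mul_le_mul_left hx q0⟩

variable (p h) in
/-- the coordinates -/
def gc (c : ℕ) (hh : h ≠ 0) : GC h c (HH p h c hh) where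
  co := AddEquiv.refl _
  co_map _ _ _ := rfl

theorem HH_fin (c : ℕ) (hh : h ≠ 0) (m a : ℕ) : Module.Finite (ZMod p) ((HH p h c hh).O m a) := by
  have : Algebra.IsIntegral (ZMod p)
      (MvPolynomial (Fin a × Fin c) (ZMod p) ⧸ IP p _ ((p ^ h) ^ m)) := ⟨fun f => by
    obtain ⟨f, rfl⟩ := Ideal.Quotient.mk_surjective f
    induction f using MvPolynomial.induction_on with
    | C r => exact isIntegral_algebraMap
    | add f g hf hg => exact hf.add hg
    | mul_X f x hf => exact hf.mul (uH p h c m a x.1 x.2).isN.int⟩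
  exact Algebra.IsIntegral.finite (R := ZMod p)
    (A := MvPolynomial (Fin a × Fin c) (ZMod p) ⧸ IP p _ ((p ^ h) ^ m))

end P261.Ig
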