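import Vale.Agent.P261Z.Ig.FD

/-!
# P261, block N4: separability elements and traces
-/

set_option linter.unusedSectionVars false

noncomputable section

open scoped TensorProduct

namespace P261.Ig.FD

open Vale.Agent.P261Z Vale.Agent.P261Z.N

variable {p h c : ℕ} [hp : Fact p.Prime] {K G : Type} [Field K] [Pf p K] [Group G]
  [TopologicalSpace G] {A : RG p h c G K} {hc : 0 < c} {AA : Type} [CommRing AA]
  [Algebra (RR c K) AA] [Pf p AA] {Γ : Type} [Group Γ] (I : FD A hc AA Γ)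

namespace GalAux

theorem L_T (j : ℕ) : I.L j ≤ I.T j := Algebra.adjoin_mono (Set.subset_insert _ _)

theorem v_mem (B : Subalgebra (RR c K) AA) : (I.v : AA) ∈ B := I.v_eq ▸ B.algebraMap_mem _

theorem ga_v (γ : Γ) : I.ga γ I.v = I.v := by rw [I.v_eq, AlgHom.commutes]

theorem fi (j : ℕ) : (I.Gs j).FiniteIndex := ⟨(I.Gs_index.choose_spec j).1⟩

theorem ga_out {Δ : Type} [Group Δ] (ρ : Δ →* Γ) (U : Subgroup Δ) {z : AA}
    (hz : ∀ s ∈ U, I.ga (ρ s) z = z) (γ : Δ) :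
    I.ga (ρ (QuotientGroup.mk γ : Δ ⧸ U).out) z = I.ga (ρ γ) z := by
  obtain ⟨s, hs⟩ := QuotientGroup.mk_out_eq_mul U γ
  rw [hs, map_mul, map_mul, AlgHom.mul_apply, hz s s.2]

variable {j j' : ℕ}

theorem ga_smul {z : AA} (hz : ∀ γ ∈ I.Gs j', I.ga γ z = z) (γ : I.Gs j)
    (δ : I.Gs j ⧸ (I.Gs j').subgroupOf (I.Gs j)) :
    I.ga ((γ • δ).out : I.Gs j) z = I.ga γ (I.ga (δ.out : I.Gs j) z) := by
  rw [← MulAction.Quotient.mk_smul_out, ← AlgHom.mul_apply, ← map_mul]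
  exact ga_out I (I.Gs j).subtype _ (fun s hs => hz s hs) _

variable [Fintype (I.Gs j ⧸ (I.Gs j').subgroupOf (I.Gs j))]

theorem Tr_eq (z : AA) : I.Tr j j' z =
    ∑ δ : I.Gs j ⧸ (I.Gs j').subgroupOf (I.Gs j), I.ga (δ.out : I.Gs j) z :=
  finsum_eq_sum_of_fintype _

theorem Tr_fix {z : AA} (hz : ∀ γ ∈ I.Gs j', I.ga γ z = z) :
    ∀ γ ∈ I.Gs j, I.ga γ (I.Tr j j' z) = I.Tr j j' z := fun γ hγ => by
  rw [Tr_eq, map_sum]
  exact Fintype.sum_equiv (MulAction.toPerm (⟨γ, hγ⟩ : I.Gs j)) _ _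
    fun δ => (ga_smul I hz ⟨γ, hγ⟩ δ).symm

open Classical in
theorem dual {N n : ℕ} {a b : Fin n → AA}
    (h : ∀ γ, ∑ i, a i * I.ga γ (b i) = if γ ∈ I.Gs j' then (I.v : AA) ^ N else 0) {z : AA}
    (hz : ∀ γ ∈ I.Gs j', I.ga γ z = z) :
    (I.v : AA) ^ N * z = ∑ i, a i * I.Tr j j' (b i * z) := by
  have h1 : ∀ δ : I.Gs j ⧸ (I.Gs j').subgroupOf (I.Gs j),
      ((δ.out : I.Gs j) : Γ) ∈ I.Gs j' ↔ δ = QuotientGroup.mk 1 := fun δ => by
    rw [eq_comm, ← QuotientGroup.out_eq' δ, QuotientGroup.eq, QuotientGroup.out_eq', inv_one,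
      one_mul, Subgroup.mem_subgroupOf]
  simp only [Tr_eq, Finset.mul_sum, map_mul, ← mul_assoc]
  rw [Finset.sum_comm, Finset.sum_eq_single (QuotientGroup.mk 1), ← Finset.sum_mul, h,
    if_pos ((h1 _).2 rfl), hz _ ((h1 _).2 rfl)]
  · intro δ _ hδ
    rw [← Finset.sum_mul, h, if_neg (mt (h1 δ).1 hδ), zero_mul]
  · simp

open MvPolynomial in
theorem one (hB : I.Bas) {N n : ℕ} {a b : Fin n → AA} (ha : ∀ i, a i ∈ I.L j')
    (hb : ∀ i, b i ∈ I.L j') (h : (I.v : AA) ^ N = ∑ i, a i * I.Tr j j' (b i)) :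
    ∃ t ∈ I.L j', I.Tr j j' t =
      (I.v : AA) ^ (N * Fintype.card (I.Gs j ⧸ (I.Gs j').subgroupOf (I.Gs j))) := by
  let S : Submonoid AA :=
    { carrier := {z | z ∈ I.L j' ∧ ∀ γ ∈ I.Gs j, I.ga γ z = z}
      mul_mem' := fun hx hy => ⟨mul_mem hx.1 hy.1, fun γ hγ => by
        rw [map_mul, hx.2 γ hγ, hy.2 γ hγ]⟩
      one_mem' := ⟨one_mem _, fun γ _ => map_one _⟩ }
  let T (i : Fin n) : S := ⟨I.Tr j j' (b i),
    Set.mem_of_eq_of_mem (Tr_eq I _) (sum_mem fun δ _ => hB.ga_L _ _ _ (hb i)),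
    Tr_fix I fun γ hγ => hB.fix _ γ hγ _ (L_T I _ (hb i))⟩
  let F₀ : MvPolynomial (Fin n) (I.L j') := ∏ δ : I.Gs j ⧸ (I.Gs j').subgroupOf (I.Gs j),
    ∑ i, C ⟨I.ga (δ.out : I.Gs j) (a i), hB.ga_L _ _ _ (ha i)⟩ * X i
  have hF : map (I.L j').val.toRingHom F₀ = ∏ δ : I.Gs j ⧸ (I.Gs j').subgroupOf (I.Gs j),
      ∑ i, C (I.ga (δ.out : I.Gs j) (a i)) * X i := by simp [F₀]
  set F := map (I.L j').val.toRingHom F₀
  have h1 : ∀ m, coeff m F ∈ S := fun m => ⟨Set.mem_of_eq_of_mem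
      (coeff_map (I.L j').val.toRingHom F₀ m) (coeff m F₀).2, fun γ hγ => by
    refine (coeff_map (I.ga γ : AA →+* AA) F m).symm.trans (congrArg _ ?_)
    rw [hF, map_prod]
    refine Fintype.prod_equiv (MulAction.toPerm (⟨γ, hγ⟩ : I.Gs j)) _ _ fun δ => ?_
    rw [map_sum]
    exact Finset.sum_congr rfl fun i _ => by
      rw [map_mul, map_C, map_X, MulAction.toPerm_apply,
        ga_smul I fun γ hγ => hB.fix _ γ hγ _ (L_T I _ (ha i))]
      rfl⟩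
  have h2 : coeff 0 F = 0 := by
    rw [← constantCoeff_eq, hF, map_prod]
    exact Finset.prod_eq_zero (Finset.mem_univ (QuotientGroup.mk 1)) (by simp)
  have h3 : eval (fun i => (T i : AA)) F =
      (I.v : AA) ^ (N * Fintype.card (I.Gs j ⧸ (I.Gs j').subgroupOf (I.Gs j))) := by
    rw [hF, map_prod, pow_mul, ← Finset.card_univ, ← Finset.prod_const]
    refine Finset.prod_congr rfl fun δ _ => ?_
    rw [← ga_v I (δ.out : I.Gs j), ← map_pow, h, map_sum, map_sum]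
    exact Finset.sum_congr rfl fun i _ => by
      rw [map_mul, eval_C, eval_X, map_mul]
      exact congrArg _ ((T i).2.2 _ (δ.out).2).symm
  rw [← h3, eval_eq']
  refine Finset.sum_induction _ (fun x => ∃ t ∈ I.L j', I.Tr j j' t = x) ?_
    ⟨0, zero_mem _, by simp [Tr_eq]⟩ fun m hm => ?_
  · rintro _ _ ⟨s, hs, rfl⟩ ⟨t, ht, rfl⟩
    exact ⟨s + t, add_mem hs ht, by simp only [Tr_eq, map_add, Finset.sum_add_distrib]⟩
  · obtain ⟨i, hi⟩ := Finsupp.ne_iff.1 (show m ≠ 0 from fun e => mem_support_iff.1 hm (e ▸ h2))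
    obtain ⟨u, hu⟩ := (dvd_pow_self (T i) hi).trans
      (Finset.dvd_prod_of_mem (fun i => T i ^ m i) (Finset.mem_univ i))
    have h4 := mul_mem (h1 m) u.2
    have h5 := congrArg Subtype.val hu
    simp only [Submonoid.coe_finsetProd, SubmonoidClass.coe_pow, Submonoid.coe_mul] at h5
    refine ⟨coeff m F * u * b i, mul_mem h4.1 (hb i), ?_⟩
    rw [h5, mul_comm (T i : AA), ← mul_assoc, Tr_eq, show (T i : AA) = _ from Tr_eq I _,
      Finset.mul_sum]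
    exact Finset.sum_congr rfl fun δ _ => by rw [map_mul, h4.2 _ (δ.out).2]

end GalAux

open GalAux

theorem gal (hB : I.Bas) (hS : I.Sep) : I.Gal := by
  classical
  obtain ⟨D, hD⟩ := I.Gs_index
  refine ⟨p ^ h * D + 1, fun j => ?_⟩
  have := fi I j
  have := Fintype.ofFinite (Γ ⧸ I.Gs j)
  have h1 : ∀ δ : Γ ⧸ I.Gs j, ∃ z w : I.L j, δ ≠ QuotientGroup.mk 1 →
      (w : AA) * (I.ga δ.out z - z) = (I.v : AA) ^ (p ^ h) ^ j := fun δ => by
    by_cases hδ : δ.out ∈ I.Gs j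
    · exact ⟨0, 0, fun e => (e (by
        rw [eq_comm, ← QuotientGroup.out_eq' δ, QuotientGroup.eq, inv_one, one_mul]
        exact hδ)).elim⟩
    · obtain ⟨z, hz, w, hw, e⟩ := hS j _ hδ
      exact ⟨⟨z, hz⟩, ⟨w, hw⟩, fun _ => e⟩
  choose z w hzw using h1
  let E (γ : Γ) := Algebra.TensorProduct.productMap (I.L j).val ((I.ga γ).comp (I.L j).val)
  obtain ⟨n, a, b, e⟩ := TensorProduct.exists_sum_tmul_eq
    (∏ δ ∈ Finset.univ.erase (QuotientGroup.mk 1 : Γ ⧸ I.Gs j),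
      ((⟨I.v, v_mem I _⟩ ^ (p ^ h) ^ j + w δ * z δ) ⊗ₜ[RR c K] (1 : I.L j) - w δ ⊗ₜ z δ))
  refine ⟨(p ^ h) ^ j * (Finset.univ.erase (QuotientGroup.mk 1 : Γ ⧸ I.Gs j)).card, ?_, n,
    fun i => a i, fun i => b i, fun i => (a i).2, fun i => (b i).2, fun γ => ?_⟩
  · refine (Nat.mul_le_mul_left _ (((Finset.card_le_univ _).trans_eq
      Nat.card_eq_fintype_card.symm).trans (hD j).2)).trans ?_
    rw [← mul_pow]
    exact (Nat.pow_le_pow_left (Nat.le_succ _) j).trans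
      (Nat.pow_le_pow_right (Nat.succ_pos _) j.le_succ)
  have h2 : ∑ i, (a i : AA) * I.ga γ (b i) =
      ∏ δ ∈ Finset.univ.erase (QuotientGroup.mk 1 : Γ ⧸ I.Gs j),
        ((I.v : AA) ^ (p ^ h) ^ j - w δ * (I.ga γ (z δ) - z δ)) := by
    have := congrArg (E γ) e
    simp only [E, map_sum, map_prod, map_sub, Algebra.TensorProduct.productMap_apply_tmul] at this
    refine this.symm.trans (Finset.prod_congr rfl fun δ _ => ?_)
    simp
    ring
  rw [h2]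
  split_ifs with hγ
  · rw [pow_mul, ← Finset.prod_const]
    exact Finset.prod_congr rfl fun δ _ => by
      rw [hB.fix j γ hγ _ (L_T I j (z δ).2), sub_self, mul_zero, sub_zero]
  · have h3 : (QuotientGroup.mk γ : Γ ⧸ I.Gs j) ≠ QuotientGroup.mk 1 := fun e =>
      hγ (by simpa using QuotientGroup.eq.1 e.symm)
    refine Finset.prod_eq_zero (Finset.mem_erase.2 ⟨h3, Finset.mem_univ _⟩) ?_
    rw [← hzw _ h3, sub_eq_zero]
    exact congrArg (fun x => _ * (x - _)) (ga_out I (MonoidHom.id Γ) _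
      (fun s hs => hB.fix j s hs _ (L_T I j (z _).2)) γ)

theorem trc (hB : I.Bas) (hG : I.Gal) : I.Trc := by
  have fin : ∀ j j', ((I.Gs j').subgroupOf (I.Gs j)).FiniteIndex := fun j j' =>
    have := fi I j'
    inferInstance
  let _ (j j' : ℕ) := Fintype.ofFinite (I.Gs j ⧸ (I.Gs j').subgroupOf (I.Gs j))
  obtain ⟨D, hD⟩ := hG
  have perf : ∀ j z, (∀ γ ∈ I.Gs j, I.ga γ z = z) → ∃ M, z ∈ I.TL M j := fun j z hz => by
    obtain ⟨N, -, n, a, b, ha, hb, e⟩ := hD j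
    have h1 : ∀ i, ∃ k, I.Tr 0 j (b i * z) ^ p ^ k ∈ I.T j := fun i => by
      obtain ⟨k, N, r, h⟩ := I.inv _ fun γ => Tr_fix I (j := 0) (z := b i * z) (fun γ hγ => by
        rw [map_mul, hz γ hγ, hB.fix j γ hγ _ (L_T I j (hb i))]) γ (I.Gs_zero ▸ trivial)
      exact ⟨k, hB.T_mono j.zero_le ((hB.mem_T0 _).2 ⟨N, r, h⟩)⟩
    choose k hk using h1
    have h2 : I.T j ≤ I.TL (∑ i, k i) j := fun x hx => pow_mem hx _
    refine ⟨∑ i, k i, ?_⟩
    rw [← Units.inv_mul_cancel_left (I.v ^ N) z, Units.val_pow_eq_pow_val, dual I (j := 0) e hz,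
      ← inv_pow, Units.val_pow_eq_pow_val]
    refine mul_mem (pow_mem (h2 (Algebra.subset_adjoin (Set.mem_insert _ _))) _)
      (sum_mem fun i _ => mul_mem (h2 (L_T I j (ha i))) ?_)
    obtain ⟨d, hd⟩ := Nat.exists_eq_add_of_le ((Finset.single_le_sum (fun i _ => (k i).zero_le)
      (Finset.mem_univ i)).trans (Nat.le_mul_of_pos_left _ (Nat.pos_of_ne_zero I.hh)))
    rw [P.mem_rtA, hd, pow_add, pow_mul]
    exact pow_mem (hk i) _
  refine ⟨fin, fun j j' z => Tr_fix I, ⟨D, fun j => ?_⟩, perf, fun z => ?_, ?_⟩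
  · obtain ⟨N, hN, n, a, b, ha, hb, e⟩ := hD j
    exact ⟨N, hN, n, a, b, ha, hb, fun z => dual I e⟩
  · obtain ⟨j, hj⟩ := I.smooth z
    obtain ⟨M, hM⟩ := perf j z hj
    obtain ⟨N, hN⟩ := (hB.mem_T j _).1 hM
    obtain ⟨d, hd⟩ := Nat.exists_eq_succ_of_ne_zero (pow_ne_zero (h * M) hp.out.ne_zero)
    refine ⟨N, IsIntegral.of_pow (pow_pos hp.out.pos (h * M)) ?_⟩
    rw [mul_pow, show ((I.v : AA) ^ N) ^ p ^ (h * M) = (I.v ^ N) ^ d * I.v ^ N by
      rw [hd, pow_succ], mul_assoc]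
    exact I.OO.mul_mem (pow_mem (pow_mem (v_mem I _) _) _) (hB.L_le j hN).1
  · obtain ⟨D', hD'⟩ := I.Gs_index
    refine ⟨D * (D' + 1), fun j j' _ => ?_⟩
    obtain ⟨N, hN, n, a, b, ha, hb, e⟩ := hD j'
    refine ⟨_, ?_, one I hB ha hb (by simpa using dual I (j := j) e (z := 1) fun _ _ => map_one _)⟩
    rw [mul_pow]
    refine Nat.mul_le_mul hN (Nat.card_eq_fintype_card.symm.trans_le
      ((Subgroup.relIndex_le_of_le_right (H := I.Gs j') le_top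
        (by simpa using (hD' j').1)).trans ?_))
    rw [Subgroup.relIndex_top_right]
    exact (hD' j').2.trans ((Nat.pow_le_pow_left (Nat.le_succ _) j').trans
      (Nat.pow_le_pow_right (Nat.succ_pos _) j'.le_succ))

end P261.Ig.FD
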