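import Vale.Agent.P261Z.Ig.FD

/-!
# P261, blocks N3 N4 N6: invariants in the rings of level zero
-/

set_option linter.unusedSectionVars false

noncomputable section

open scoped TensorProduct

namespace P261.Ig

open Vale.Agent.P261Z Vale.Agent.P261Z.N Vale.Agent.P217 Vale.Agent.P251.F

namespace It

theorem epi {S B : Type} [CommRing S] [CommRing B] [Algebra S B] {s : Set B} (hs : s.Finite)
    (hi : ∀ x ∈ s, IsIntegral S x)
    (h : ∀ (C : Type) [CommRing C] (f g : Algebra.adjoin S s →+* C),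
      (∀ r, f (algebraMap S _ r) = g (algebraMap S _ r)) → ∀ x (hx : x ∈ s),
        f ⟨x, Algebra.subset_adjoin hx⟩ = g ⟨x, Algebra.subset_adjoin hx⟩) :
    ∀ x ∈ s, ∃ r, algebraMap S B r = x := by
  have : Module.Finite S (Algebra.adjoin S s) :=
    ⟨(Submodule.fg_top _).2 (fg_adjoin_of_finite hs hi)⟩
  have e : (Algebra.TensorProduct.includeRight : Algebra.adjoin S s →ₐ[S]
      Algebra.adjoin S s ⊗[S] Algebra.adjoin S s) = Algebra.TensorProduct.includeLeft :=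
    AlgHom.ext_of_eq_adjoin rfl (h _ (AlgHom.toRingHom _) (AlgHom.toRingHom _) fun r =>
      (AlgHom.commutes _ r).trans (AlgHom.commutes _ r).symm)
  intro x hx
  obtain ⟨r, hr⟩ := Algebra.isEpi_iff_surjective_algebraMap_of_finite.1
    ((Algebra.isEpi_iff_forall_one_tmul_eq S _).2 (AlgHom.congr_fun e))
    ⟨x, Algebra.subset_adjoin hx⟩
  exact ⟨r, congrArg Subtype.val hr⟩

theorem eq_zero_of {C : Type} [CommRing C] {x u w : C} (hx : IsNilpotent x) (hu : IsUnit u)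
    (h : x * (x * w + u) = 0) : x = 0 :=
  (((Commute.all _ _).isNilpotent_mul_right hx).isUnit_add_right_of_commute hu
    (Commute.all _ _)).mul_left_eq_zero.1 h

variable {R U : Type} [CommRing R] [CommRing U] [Algebra R U]

theorem tr_mem {p : ℕ} [hp : Fact p.Prime] [Ch p U] {n : Type} [Fintype n] (g : n → U →ₐ[R] U)
    (T L : Subalgebra R U) [Module.Finite R L] (hT : ∀ i, ∀ x ∈ T, g i x = x)
    (h : ∀ l : L, ∃ k, (∑ i, g i l) ^ p ^ k ∈ T) : ∃ k, ∀ w ∈ T,
      ∀ z ∈ Algebra.adjoin R (insert w {z | ∃ z' ∈ L, z = z' ^ p ^ k}), ∑ i, g i z ∈ T := by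
  obtain ⟨k, hk⟩ : ∃ k, ∀ l : L, (∑ i, g i l) ^ p ^ k ∈ T := by
    obtain ⟨a, s, hs⟩ := Module.Finite.exists_fin (R := R) (M := L)
    choose k hk using h
    refine ⟨∑ i, k (s i), fun l => ?_⟩
    have hl : l ∈ Submodule.span R (Set.range s) := hs ▸ Submodule.mem_top
    induction hl using Submodule.span_induction with
    | mem x hx =>
      obtain ⟨i, rfl⟩ := hx
      obtain ⟨d, hd⟩ := Nat.exists_eq_add_of_le (Finset.single_le_sum
        (f := fun i => k (s i)) (fun _ _ => Nat.zero_le _) (Finset.mem_univ i))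
      rw [hd, pow_add, pow_mul]
      exact pow_mem (hk _) _
    | zero =>
      simp only [ZeroMemClass.coe_zero, map_zero, Finset.sum_const_zero,
        zero_pow (pow_ne_zero _ hp.out.ne_zero)]
      exact zero_mem _
    | add x y _ _ hx hy =>
      simp only [AddMemClass.coe_add, map_add, Finset.sum_add_distrib, add_pow_pp]
      exact add_mem hx hy
    | smul r x _ hx =>
      simp only [SetLike.val_smul, map_smul, ← Finset.smul_sum, smul_pow]
      exact T.smul_mem hx _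
  refine ⟨k, fun w hw z hz => ?_⟩
  let Q : Submonoid U := L.toSubmonoid.map (powMonoidHom (p ^ k))
  have h2 : z ∈ Submodule.span T (Q : Set U) := by
    rw [← Submonoid.closure_eq Q, ← Algebra.adjoin_eq_span]
    refine Algebra.adjoin_le (S := (Algebra.adjoin T (Q : Set U)).restrictScalars R)
      (Set.insert_subset ?_ ?_) hz
    · exact (Subalgebra.mem_restrictScalars R).2
        (Subalgebra.algebraMap_mem (Algebra.adjoin T (Q : Set U)) ⟨w, hw⟩)
    · rintro _ ⟨l, hl, rfl⟩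
      exact (Subalgebra.mem_restrictScalars R).2 (Algebra.subset_adjoin ⟨l, hl, rfl⟩)
  clear hz
  induction h2 using Submodule.span_induction with
  | mem x hx =>
    obtain ⟨l, hl, rfl⟩ := hx
    have := hk ⟨l, hl⟩
    simp only [sum_pow_pp, ← map_pow] at this
    exact this
  | zero =>
    simp only [map_zero, Finset.sum_const_zero]
    exact zero_mem _
  | add x y _ _ hx hy =>
    simp only [map_add, Finset.sum_add_distrib]
    exact add_mem hx hy
  | smul r x _ hx =>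
    have e : ∀ i, g i (r • x) = r * g i x := fun i => by
      rw [Subalgebra.smul_def, smul_eq_mul, map_mul, hT i r r.2]
    simp only [e, ← Finset.mul_sum]
    exact mul_mem r.2 hx

variable {m : Ideal R} [IsNoetherianRing R] [IsAdicComplete m R]

/-- homomorphisms with invertible linear term are unramified -/
theorem unr {F F' : Law R} {s : PowerSeries R} (hs : IsHom F.toFG F'.toFG s)
    (hu : IsUnit (algebraMap R U (PowerSeries.coeff 1 s))) {a b : U} (ha : IsN m a)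
    (hb : IsN m b) (hn : IsNilpotent (a - b)) (e : evO1 m a s = evO1 m b s) : a = b := by
  obtain ⟨δ, hδ⟩ : ∃ δ : Pt U m F, δ = ⟨a, ha⟩ - ⟨b, hb⟩ := ⟨_, rfl⟩
  obtain ⟨u, -, -, h1⟩ := Pt.exists_val_add δ ⟨b, hb⟩
  have h2 : Pt.hom hs δ = 0 := by
    rw [hδ, map_sub, sub_eq_zero]
    exact Pt.ext e
  have h3 : evO1 m δ.val s = 0 := congrArg Pt.val h2
  have h4 : a - b = δ.val * u := by
    rw [sub_eq_iff_eq_add, ← h1, hδ, sub_add_cancel]
  have h5 : IsNilpotent δ.val := by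
    rw [← Units.mul_inv_cancel_right δ.val u, ← h4]
    exact (Commute.all _ _).isNilpotent_mul_right hn
  obtain ⟨G, h6, h7⟩ := KS.ser_decomp hs.1
  rw [h6, PowerSeries.eq_X_mul_shift_add_const G, h7, map_mul, map_add, map_mul, evO1_C,
    evO1_X δ.isN] at h3
  rw [← sub_eq_zero, h4, eq_zero_of h5 hu h3, zero_mul]

theorem alg_ev (B : Subalgebra R U) [Module.Finite R B] {C : Type} [CommRing C] [Algebra R C]
    (Φ : B →ₐ[R] C) {y z : B} (hy : IsN m (y : U)) {s : PowerSeries R}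
    (e : evO1 m (y : U) s = z) : IsN m (Φ y) ∧ evO1 m (Φ y) s = Φ z := by
  have h1 := (isN_iff B y).1 hy
  have : Module.Finite R Φ.range :=
    Module.Finite.of_surjective Φ.rangeRestrict.toLinearMap Φ.rangeRestrict_surjective
  refine ⟨(isN_iff Φ.range _).2 (JB_map (RingHom.id R) (Φ.rangeRestrict : B →+* Φ.range)
    Φ.rangeRestrict.commutes (fun _ hr => Ideal.le_radical hr) h1), ?_⟩
  exact (evO_eq Φ (y := fun _ : Unit => y) (fun _ => h1) s).trans (congrArg Φ (Subtype.ext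
    ((evO_eq B.val (y := fun _ : Unit => y) (fun _ => h1) s).symm.trans e)))

end It

open It

variable {p h c : ℕ} [hp : Fact p.Prime] {K G : Type} [Field K] [Pf p K] [Group G]
  [TopologicalSpace G]

namespace FD

variable {A : RG p h c G K} {hc : 0 < c} {AA : Type} [CommRing AA] [Algebra (RR c K) AA]
  [Pf p AA] {Γ : Type} [Group Γ] (I : FD A hc AA Γ)

theorem gens_finite (j : ℕ) : (I.gens j).Finite :=
  (((Set.finite_lt_nat ((p ^ h) ^ j)).image fun d => PowerSeries.coeff d I.f).union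
    (Set.finite_range (I.y j))).subset (by
      rintro z (⟨d, hd, rfl⟩ | ⟨i, rfl⟩)
      exacts [Or.inl ⟨d, hd, rfl⟩, Or.inr ⟨i, rfl⟩])

variable {I}

/-- `L j` is unramified away from `v` -/
theorem agree (hB : I.Bas) (j : ℕ) {C : Type} [CommRing C] [Algebra (RR c K) C]
    (hv : IsUnit (algebraMap (RR c K) C (vR K hc))) (Φ Ψ : I.L j →ₐ[RR c K] C)
    (hn : ∀ l, IsNilpotent (Φ l - Ψ l)) : Φ = Ψ := by
  have := hB.L_fin j
  have : Ch p C := Ch.of_hom (algebraMap (RR c K) C)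
  have : CharP (RR c K) p := Ch.charP
  have p0 : (p : RR c K) = 0 := Ch.char
  have hq : 2 ≤ p ^ h := Nat.one_lt_pow I.hh hp.out.one_lt
  let E := (AlgHom.equalizer Φ Ψ).map (I.L j).val
  have hE : ∀ z : I.L j, (z : AA) ∈ E ↔ Φ z = Ψ z := fun z =>
    ⟨fun ⟨w, h1, h2⟩ => (Subtype.ext h2 : w = z) ▸ h1, fun h => ⟨z, h, rfl⟩⟩
  have h1 : ∀ d < (p ^ h) ^ j, PowerSeries.coeff d I.f ∈ E := fun d => by
    induction d using Nat.strong_induction_on with
    | _ d ih =>
      intro hd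
      obtain ⟨x, hx⟩ : ∃ x : I.L j, (x : AA) = PowerSeries.coeff d I.f :=
        ⟨⟨_, Algebra.subset_adjoin (Or.inl ⟨d, hd, rfl⟩)⟩, rfl⟩
      have a1 := (hE (x ^ p ^ h - algebraMap _ _ (vR K hc) ^ d * x)).1 (by
        have a2 := Algebra.adjoin_le (S := E) (by
          rintro _ ⟨e, he, rfl⟩
          exact ih e he (he.trans hd)) (hB.rel d)
        rwa [← hx, I.v_eq] at a2)
      simp only [map_sub, map_mul, map_pow, AlgHom.commutes] at a1
      rw [← hx, hE, ← sub_eq_zero]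
      refine eq_zero_of (hn x) (hv.pow d).neg (w := (Φ x - Ψ x) ^ (p ^ h - 2)) ?_
      rw [mul_add, ← pow_succ', ← pow_succ', show p ^ h - 2 + 1 + 1 = p ^ h by omega, sub_pow_pp]
      linear_combination a1
  have h2 : ∀ i, ∀ n ≤ j, I.y n i ∈ E := fun i n => by
    induction n with
    | zero =>
      intro _
      rw [y, x, I.P_zero, Pt.val_zero, pow_zero, pow_one]
      exact zero_mem _
    | succ n ih =>
      intro hn'
      have a0 : ∀ n ≤ j, I.y n i ∈ I.L j := fun n hn =>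
        hB.L_mono hn (Algebra.subset_adjoin (Or.inr ⟨i, rfl⟩))
      have a1 := hB.step n i (fr p (RR c K) ^ (h * n)) fun r => by rw [fr_pow_apply, pow_mul]
      have a2 : IsN (mm c K) (I.y (n + 1) i) := (I.P _ i).isN.pow (by positivity)
      obtain ⟨b1, b2⟩ := alg_ev (I.L j) Φ (y := ⟨_, a0 _ hn'⟩) (z := ⟨_, a0 n (by omega)⟩) a2 a1
      obtain ⟨b3, b4⟩ := alg_ev (I.L j) Ψ (y := ⟨_, a0 _ hn'⟩) (z := ⟨_, a0 n (by omega)⟩) a2 a1
      refine (hE ⟨_, a0 _ hn'⟩).2 (unr (F := (Law.map _ _).map _) (F' := Law.map _ _)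
        ((KS.psi_spec (KS.vv_FR_lt p0)).2.mapL (fr p (RR c K) ^ (h * n))) ?_ b1 b3 (hn _)
        (b2.trans (((hE ⟨_, a0 n (by omega)⟩).1 (ih (by omega))).trans b4.symm)))
      rw [PowerSeries.coeff_map, KS.psi_one p0 I.hh hc, fr_pow_apply, map_pow]
      exact hv.pow _
  refine AlgHom.ext fun z => (hE z).1 (Algebra.adjoin_le (S := E) ?_ z.2)
  rintro _ (⟨d, hd, rfl⟩ | ⟨i, rfl⟩)
  exacts [h1 d hd, h2 i j le_rfl]

theorem rf (hB : I.Bas) : I.Rf := by
  intro j k
  refine Algebra.adjoin_le (Set.insert_subset (Algebra.subset_adjoin (Set.mem_insert _ _)) ?_)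
  generalize hS : Algebra.adjoin (RR c K) (insert ((I.v⁻¹ : AAˣ) : AA)
    {z | ∃ z' ∈ I.L j, z = z' ^ p ^ k}) = S
  have a1 : ((I.v⁻¹ : AAˣ) : AA) ∈ S := hS ▸ Algebra.subset_adjoin (Set.mem_insert _ _)
  have a2 : ∀ l ∈ I.L j, l ^ p ^ k ∈ S := fun l hl =>
    hS ▸ Algebra.subset_adjoin (Set.mem_insert_of_mem _ ⟨l, hl, rfl⟩)
  intro z hz
  obtain ⟨r, hr⟩ := epi (S := S) (I.gens_finite j) (fun x hx =>
    IsIntegral.tower_top (hB.L_le j (Algebra.subset_adjoin hx)).1) (fun C _ f g e x hx => by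
      have : Ch p (Algebra.adjoin S (I.gens j)) :=
        Ch.of_inj (Algebra.adjoin S (I.gens j)).val.toRingHom Subtype.val_injective
      have : Ch p C := Ch.of_hom (K := Algebra.adjoin S (I.gens j)) f
      have hle : ∀ l : I.L j, (l : AA) ∈ Algebra.adjoin S (I.gens j) := fun l =>
        (Subalgebra.mem_restrictScalars (RR c K)).1 (Algebra.adjoin_le (fun x hx =>
          (Subalgebra.mem_restrictScalars (RR c K)).2 (Algebra.subset_adjoin hx)) l.2)
      let ι : I.L j →+* Algebra.adjoin S (I.gens j) :=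
        (I.L j).val.toRingHom.codRestrict _ hle
      let _ := (f.comp ((algebraMap S _).comp (algebraMap (RR c K) S))).toAlgebra
      refine AlgHom.congr_fun (agree hB j ?_ ⟨f.comp ι, fun _ => rfl⟩
        ⟨g.comp ι, fun r => (e (algebraMap _ S r)).symm⟩ fun l => ⟨p ^ k, ?_⟩) ⟨x, Algebra.subset_adjoin hx⟩
      · exact (IsUnit.of_mul_eq_one (a := algebraMap _ S (vR K hc)) ⟨_, a1⟩ (Subtype.ext
          ((congrArg (· * _) I.v_eq.symm).trans I.v.mul_inv))).map (f.comp (algebraMap S _))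
      · rw [sub_pow_pp, sub_eq_zero, ← map_pow, ← map_pow]
        exact e ⟨_, a2 l l.2⟩) z hz
  exact hr ▸ r.2

theorem Tr_eq (hT : I.Trc) (j j' : ℕ) : ∃ (n : Type) (_ : Fintype n) (γ : n → Γ),
    ∀ z, I.Tr j j' z = ∑ i, I.ga (γ i) z := by
  have := hT.fin j j'
  have := Fintype.ofFinite (I.Gs j ⧸ (I.Gs j').subgroupOf (I.Gs j))
  refine ⟨Fin (Fintype.card (I.Gs j ⧸ (I.Gs j').subgroupOf (I.Gs j))), inferInstance,
    fun i => ((Fintype.equivFin _).symm i).out, fun z => ?_⟩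
  rw [Tr, finsum_eq_sum_of_fintype, ← (Fintype.equivFin _).symm.sum_comp]

theorem L_le_T (hB : I.Bas) {j : ℕ} {z : AA} (hz : z ∈ I.L j) : z ∈ I.T j := (hB.L_le j hz).2

theorem of_v_pow {j N : ℕ} {z : AA} (hz : (I.v : AA) ^ N * z ∈ I.T j) : z ∈ I.T j := by
  have h1 := mul_mem (pow_mem (Algebra.subset_adjoin (Set.mem_insert _ _) :
    ((I.v⁻¹ : AAˣ) : AA) ∈ I.T j) N) hz
  rwa [← mul_assoc, ← mul_pow, Units.inv_mul, one_pow, one_mul] at h1

theorem Tr_inv (hT : I.Trc) {j : ℕ} {z : AA} (hz : ∀ γ ∈ I.Gs j, I.ga γ z = z) (γ : Γ) :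
    I.ga γ (I.Tr 0 j z) = I.Tr 0 j z := hT.Tr_fix 0 j z hz γ (I.Gs_zero ▸ Subgroup.mem_top γ)

/-- traces of elements of level zero -/
theorem Tr_mem (hB : I.Bas) (hT : I.Trc) (j : ℕ) : ∀ z ∈ I.T j, I.Tr 0 j z ∈ I.T 0 := by
  obtain ⟨n, _, γ, hγ⟩ := Tr_eq hT 0 j
  have := hB.L_fin j
  obtain ⟨k, hk⟩ := tr_mem (p := p) (fun i => I.ga (γ i)) (I.T 0) (I.L j)
    (fun i => hB.fix 0 _ (I.Gs_zero ▸ Subgroup.mem_top _)) fun l => by
      obtain ⟨k, N, r, e⟩ := I.inv _ (Tr_inv hT fun γ hγ => hB.fix j γ hγ l (L_le_T hB l.2))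
      exact ⟨k, hγ l ▸ (hB.mem_T0 _).2 ⟨N, r, e⟩⟩
  intro z hz
  rw [hγ]
  exact hk _ (Algebra.subset_adjoin (Set.mem_insert _ _)) z (rf hB j k hz)

/-- invariants of the whole group -/
theorem key (hB : I.Bas) (hT : I.Trc) {j : ℕ} {z : AA} (hz : z ∈ I.T j)
    (hz' : ∀ γ, I.ga γ z = z) : z ∈ I.T 0 := by
  obtain ⟨n, _, γ, hγ⟩ := Tr_eq hT 0 j
  obtain ⟨D, hD⟩ := hT.one
  obtain ⟨N, -, t, ht, e⟩ := hD 0 j j.zero_le
  have h1 := Tr_mem hB hT j _ (mul_mem (L_le_T hB ht) hz)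
  simp only [hγ, map_mul, hz', ← Finset.sum_mul] at h1
  rw [← hγ, e] at h1
  exact of_v_pow h1

theorem inv' (hB : I.Bas) (hT : I.Trc) : I.Inv := by
  refine ⟨fun j j' z hz hz' => ?_, fun j z hz => ?_⟩
  · obtain ⟨n, _, γ, hγ⟩ := Tr_eq hT 0 j
    obtain ⟨D, hD⟩ := hT.dual
    obtain ⟨N, -, n', a, b, ha, hb, e⟩ := hD j
    refine of_v_pow (N := N) ?_
    rw [e z hz']
    refine sum_mem fun i _ => mul_mem (L_le_T hB (ha i)) (hB.T_mono j.zero_le
      (key hB hT (j := max j j') ?_ (Tr_inv hT fun γ hγ => ?_)))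
    · rw [hγ]
      exact sum_mem fun l _ => hB.ga_T _ _ _ (mul_mem
        (hB.T_mono (le_max_left j j') (L_le_T hB (hb i))) (hB.T_mono (le_max_right j j') hz))
    · rw [map_mul, hz' γ hγ, hB.fix j γ hγ _ (L_le_T hB (hb i))]
  · obtain ⟨n, _, γ, hγ⟩ := Tr_eq hT 0 j
    have h1 : I.Tr 0 j z ∈ I.O 0 := ⟨by
      rw [hγ]
      exact sum_mem fun i _ => IsIntegral.map (I.ga (γ i)) hz.1, Tr_mem hB hT j z hz.2⟩
    rw [hB.O_zero, Algebra.mem_bot] at h1
    obtain ⟨r, hr⟩ := h1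
    exact ⟨r, hr.symm⟩

end FD

end P261.Ig
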