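import Vale.Agent.P261Z.Ig.FD

/-!
# P261, block N6: monomial bases and retractions on the Igusa tower
-/

set_option linter.unusedSectionVars false

noncomputable section

namespace P261.PB

variable {p : ℕ} [hp : Fact p.Prime] {R U Δ I : Type*} [CommRing R] [CommRing U] {c : ℕ}
  {T Lam : Subring U} {v : U}

/-- a `p`-basis of the base is a `p`-basis of `T` -/
theorem GalOn.sp_ind [Ch p U] [Fintype Δ] [DecidableEq Δ] [Fintype I] {N : ℕ} {f : R →+* U}
    {σ : Δ → U →+* U} {δ₀ : Δ} {a b : I → U} {v₀ : R} {u : Fin c → R} (hL : LatOn T Lam v)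
    (hu : SP ⊤ v₀ 0 p u) (hu' : IND p u) (G : GalOn N T Lam v f σ δ₀ a b) (k : ℕ) :
    SP Lam v (p ^ k * (p * N)) (p ^ k) (fun i => f (u i)) ∧ INDon T (p ^ k) fun i => f (u i) := by
  let f' : R →+* T := f.codRestrict T fun r => hL.le (G.mem r)
  have G' : Gal N (Lam.comap T.subtype) ⟨v, hL.le hL.mem⟩ f' T.subtype
      (fun δ => (σ δ).comp T.subtype) δ₀ (fun i => ⟨a i, hL.le (G.a_mem i)⟩)
      fun i => ⟨b i, hL.le (G.b_mem i)⟩ :=
    { inj := Subtype.val_injective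
      inj' := fun _ _ h => G.inj (congrArg Subtype.val h)
      mem := G.mem
      base := RingHom.ext fun g => G.base g g.2
      fix := G.fix
      a_mem := G.a_mem
      b_mem := G.b_mem
      sep := G.sep
      tr := fun g hg => G.tr g hg }
  refine ⟨fun g hg => ?_, fun r hr e al => ?_⟩
  · obtain ⟨r, hr, e⟩ := (G'.sp hu).pow hL.mem k ⟨g, hL.le hg⟩ hg
    refine ⟨fun al => r al, hr, ?_⟩
    have := congrArg T.subtype e
    simp only [map_mul, map_pow, map_sum, map_mn] at this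
    exact this
  · refine congrArg Subtype.val ((G'.ind hL.lat hu').pow k (fun al => ⟨r al, hr al⟩)
      (T.subtype_injective ?_) al)
    simp only [map_mul, map_pow, map_sum, map_mn, map_zero]
    exact e

omit hp in
theorem lin_le_pow (a b D : ℕ) : ∃ D' : ℕ, ∀ j N, N ≤ D ^ (j + 1) → a * N + b ≤ D' ^ (j + 1) :=
  ⟨(a + b) * (D + 1), fun j N hN => by
    have h1 : N ≤ (D + 1) ^ (j + 1) := hN.trans (Nat.pow_le_pow_left D.le_succ _)
    have h2 : 1 ≤ (D + 1) ^ (j + 1) := Nat.one_le_pow _ _ D.succ_pos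
    calc a * N + b ≤ (a + b) * (D + 1) ^ (j + 1) := by nlinarith
      _ ≤ _ := by
        rw [mul_pow]
        exact Nat.mul_le_mul_right _ (Nat.le_self_pow j.succ_ne_zero _)⟩

end P261.PB

namespace P261.Ig.FD

open Vale.Agent.P261Z Vale.Agent.P261Z.N Vale.Agent.P217 Vale.Agent.P251.F P261.PB

variable {p h c : ℕ} [hp : Fact p.Prime] {K G : Type} [Field K] [Pf p K] [Group G]
  [TopologicalSpace G] {A : RG p h c G K} {hc : 0 < c} {AA : Type} [CommRing AA]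
  [Algebra (RR c K) AA] [Pf p AA] {Γ : Type} [Group Γ] (I : FD A hc AA Γ)

theorem mon_v_mem (S : Subalgebra (RR c K) AA) : (I.v : AA) ∈ S := I.v_eq ▸ S.algebraMap_mem _

variable {I}

theorem mon_lat (hB : I.Bas) (j : ℕ) : LatOn (I.T j).toSubring (I.O j).toSubring (I.v : AA) where
  le _ hz := hz.2
  mem := I.mon_v_mem _
  unit := ⟨_, Algebra.subset_adjoin (Set.mem_insert _ _), I.v.mul_inv⟩
  exh b hb := ((hB.mem_T j b).1 hb).imp fun _ h => hB.L_le j h

theorem mon_gal (hB : I.Bas) (hG : I.Gal) (hI : I.Inv) : ∃ D : ℕ, ∀ j, ∃ N ≤ D ^ (j + 1),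
    ∃ (Δ : Type) (_ : Fintype Δ) (_ : DecidableEq Δ) (n : ℕ) (σ : Δ → AA →+* AA) (δ₀ : Δ)
      (a b : Fin n → AA),
      GalOn N (I.T j).toSubring (I.O j).toSubring (I.v : AA) (algebraMap (RR c K) AA) σ δ₀ a b := by
  classical
  obtain ⟨D, hD⟩ := hG
  refine ⟨D, fun j => ?_⟩
  obtain ⟨N, hN, n, a, b, ha, hb, e⟩ := hD j
  have : (I.Gs j).FiniteIndex := ⟨(I.Gs_index.choose_spec j).1⟩
  have := Fintype.ofFinite (I.Gs 0 ⧸ (I.Gs j).subgroupOf (I.Gs 0))
  have h1 : ∀ δ : I.Gs 0 ⧸ (I.Gs j).subgroupOf (I.Gs 0),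
      ((δ.out : I.Gs 0) : Γ) ∈ I.Gs j ↔ δ = QuotientGroup.mk 1 := fun δ => by
    rw [eq_comm, ← QuotientGroup.out_eq' δ, QuotientGroup.eq, QuotientGroup.out_eq', inv_one,
      one_mul, Subgroup.mem_subgroupOf]
  refine ⟨N, hN, I.Gs 0 ⧸ (I.Gs j).subgroupOf (I.Gs 0), inferInstance, inferInstance, n,
    fun δ => I.ga (δ.out : I.Gs 0), QuotientGroup.mk 1, a, b, I.inj,
    fun r => (I.O j).algebraMap_mem r, fun g hg => hB.fix j _ ((h1 _).2 rfl) g hg,
    fun δ r => (I.ga _).commutes r, fun i => hB.L_le j (ha i), fun i => hB.L_le j (hb i),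
    fun δ => (e _).trans (if_congr (h1 δ) rfl rfl), fun g hg => ?_⟩
  obtain ⟨r, hr⟩ := hI.Tr_base j g hg
  exact ⟨r, hr.symm.trans (finsum_eq_sum_of_fintype _)⟩

/-- the Kodaira-Spencer determinant -/
theorem mon_jac (hB : I.Bas) : ∃ N : ℕ, ∃ w ∈ I.L 1, (Matrix.of fun i j : Fin c =>
    evO1 (mm c K) (I.y 1 i) (KS.cd (MvPowerSeries.pderiv K j) (KS.psi p h (FR p h c K)))).det * w =
      (I.v : AA) ^ N := by
  have p0 : (p : RR c K) = 0 := Ch.char
  have := (CharP.charP_iff_prime_eq_zero hp.out).2 p0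
  have := hB.L_fin 1
  have q0 := pow_pos hp.out.pos h
  have hz : ∀ i, p • I.P 1 i = 0 := fun i => (I.P_succ 0 i).trans (I.P_zero i)
  have e1 : ∀ r, (fr p AA ^ h) (algebraMap (RR c K) AA r) =
      algebraMap _ AA (iterateFrobenius _ p h r) :=
    fun r => by rw [fr_pow_apply, iterateFrobenius_def, map_pow]
  let P (a : Fin c → ZMod p) := ∑ i, (a i).val • I.P 1 i
  let T := Pt.map (m' := mm c K) _ (fr p AA ^ h) e1
    (fun r hr => Ideal.le_radical ((mm c K).pow_mem_of_mem hr _ q0)) (F := FR p h c K) rfl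
  have h0 : ∀ a, (T a).val = a.val ^ p ^ h := fun a => fr_pow_apply h _
  have h1 : ∀ a, (T (P a)).val ∈ I.L 1 := fun a => by
    have := hB.pow_L 1 _ (hB.sum_mem 1 fun i => (a i).val)
    rwa [pow_one, ← h0] at this
  have h2 : ∀ a, (⟨_, h1 a⟩ : I.L 1) ∈ JB (mm c K) (I.L 1) := fun a =>
    (isN_iff _ _).1 (T (P a)).isN
  have h4 : ∀ x ∈ JB (mm c K) (I.L 1), ∀ s,
      (Ev.ev1 (JB (mm c K) (I.L 1)) (algebraMap _ _) x s : AA) = evO1 (mm c K) (x : AA) s :=
    fun x hx s => (evO_eq (I.L 1).val (fun _ : Unit => hx) s).symm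
  have hk : ∀ a, Ev.ev1 (JB (mm c K) (I.L 1)) (algebraMap _ _) ⟨_, h1 a⟩
      (KS.psi p h (FR p h c K)) = 0 := fun a => Subtype.ext (by
    have h5 := Pt.val_nsmul p (P a)
    rw [Finset.smul_sum, Finset.sum_eq_zero fun i _ => by rw [smul_comm, hz, nsmul_zero],
      (KS.psi_spec (KS.vv_FR_lt p0)).1, PowerSeries.expand_apply,
      evO1_subst1 (P a).isN
        (by rw [map_pow, PowerSeries.constantCoeff_X, zero_pow q0.ne']),
      map_pow, evO1_X (P a).isN, ← h0] at h5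
    exact (h4 _ (h2 a) _).trans h5.symm)
  have PP : KS.Pts (JB (mm c K) (I.L 1)) (algebraMap _ _)
      ((FR p h c K).map (iterateFrobenius _ p h)).toFG (KS.psi p h (FR p h c K))
      fun a => (⟨_, h1 a⟩ : I.L 1) := by
    refine ⟨h2, fun a b => Subtype.ext ?_, hk, fun a ha => ⟨1, ?_⟩⟩
    · have : P (a + b) = P a + P b := by
        rw [← Finset.sum_add_distrib]
        exact Finset.sum_congr rfl fun i _ => by
          rw [← add_nsmul, nsmul_eq_mod_nsmul (_ + _) (hz i), Pi.add_apply, ZMod.val_add]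
      refine Eq.trans ?_ (evO_eq (I.L 1).val (Fin.forall_fin_two.2 ⟨h2 a, h2 b⟩) _)
      change (T _).val = _
      rw [this, map_add, Pt.val_add]
      congr 2
      exact funext (Fin.forall_fin_two.2 ⟨rfl, rfl⟩)
    · obtain ⟨i, hi⟩ := Function.ne_iff.1 ha
      have h6 : (⟨_, h1 a⟩ : I.L 1) ∈ nonZeroDivisors (I.L 1) :=
        mem_nonZeroDivisors_of_injective (f := (I.L 1).val) Subtype.val_injective
          (Set.mem_of_eq_of_mem (h0 _) (pow_mem (I.P_unit _ ⟨i, fun e => hi (by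
            rw [← ZMod.natCast_zmod_val (a i), (ZMod.natCast_eq_zero_iff _ _).2 e]
            rfl)⟩).mem_nonZeroDivisors _))
      obtain ⟨g, h7, h8⟩ := KS.ser_decomp (KS.psi_zero p h (FR p h c K))
      obtain ⟨g', h3⟩ := PowerSeries.X_dvd_iff.2 (show PowerSeries.constantCoeff
        (g - PowerSeries.C (PowerSeries.constantCoeff g)) = 0 by simp)
      have h9 := hk a
      have h5 := congrArg (Ev.ev1 (JB (mm c K) (I.L 1)) (algebraMap _ _) ⟨_, h1 a⟩) h3
      rw [h7, map_mul, Ev.ev1_X _ (h2 a)] at h9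
      rw [map_sub, map_mul, Ev.ev1_X _ (h2 a), Ev.ev1_C, h8, h6.1 _ h9] at h5
      exact ⟨-Ev.ev1 (JB (mm c K) (I.L 1)) (algebraMap _ _) ⟨_, h1 a⟩ g', by
        linear_combination -h5⟩
  obtain ⟨N, w, hN⟩ := KS.ks_unit PP (KS.psi_spec (KS.vv_FR_lt p0)).2 (MvPowerSeries.pderiv K)
    (fun _ => KS.cd_frob _ I.hh _) (mm c K)
    (fun i hi => (KS.Ih_FR p0 I.hh).le (KS.psi_mem _ hi))
    (KS.unit_of (mm c K) (by rw [Ideal.Quotient.eq.2 (KS.psi_top p0 I.hh)]; simp))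
    (KS.psi_jac p0 I.hh)
  refine ⟨N, w, w.2, ?_⟩
  have e := congrArg (I.L 1).val hN
  rw [KS.psi_one p0 I.hh hc, map_mul, map_pow, AlgHom.commutes, AlgHom.map_det, ← I.v_eq] at e
  rw [e]
  congr 2
  ext i j
  refine Eq.trans ?_ (h4 _ (h2 _) _).symm
  have : P (Pi.single i 1) = I.P 1 i := by
    refine (Finset.sum_eq_single i (fun l _ hl => ?_) (by simp)).trans ?_
    · rw [Pi.single_eq_of_ne hl, ZMod.val_zero, zero_nsmul]
    · rw [Pi.single_eq_same, ZMod.val_one, one_nsmul]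
  change evO1 _ _ _ = evO1 _ (T _).val _
  rw [this, h0, y, pow_one]

/-- the points of level zero are a `p`-basis -/
theorem mon_sp (hB : I.Bas) (hG : I.Gal) (hI : I.Inv) : ∃ D : ℕ, ∀ m j k, m + 1 ≤ j →
    SP (I.O j).toSubring (I.v : AA) (p ^ k * D ^ (j + 1)) (p ^ k) (I.y (m + 1)) ∧
      INDon (I.T j).toSubring (p ^ k) (I.y (m + 1)) := by
  obtain ⟨D, hD⟩ := mon_gal hB hG hI
  obtain ⟨M, w, hw, e⟩ := mon_jac hB
  obtain ⟨D', hD'⟩ := lin_le_pow (p * (p + c * (p * (p * (p + c * p))))) (loss p c 0 M) D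
  refine ⟨D', fun m j k hj => ?_⟩
  obtain ⟨N, hN, Δ, _, _, n, σ, δ₀, a, b, GG⟩ := hD j
  have p0 : (p : RR c K) = 0 := Ch.char
  have := (CharP.charP_iff_prime_eq_zero hp.out).2 p0
  have hy : ∀ L i, evO1 (mm c K) (I.y L i) PowerSeries.X = I.y L i := fun L i =>
    evO1_X ((I.P L i).isN.pow (pow_pos (pow_pos hp.out.pos h) L))
  have hs := fun L i => hB.step L i (iterateFrobenius _ p (h * L)) fun r => by
    rw [iterateFrobenius_def, pow_mul]
  let _ : Algebra ℤ (PowerSeries (RR c K)) :=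
    @MvPowerSeries.instAlgebra Unit ℤ (RR c K) _ _ (Ring.toIntAlgebra _)
  have CC : PB.Chain M m (I.O j).toSubring (I.v : AA) (algebraMap (RR c K) AA) MvPowerSeries.X
      (fun l => KS.cd (MvPowerSeries.pderiv K l)) (fun L i => evO1 (mm c K) (I.y (L + 1) i))
      fun L => PowerSeries.map (iterateFrobenius _ p (h * L)) (KS.psi p h (FR p h c K)) :=
    { d_C := fun l l' => (KS.cd_C _ _).trans (by
        rw [MvPowerSeries.pderiv_X, Pi.single_apply, if_congr (eq_comm (a := l)) rfl rfl]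
        split_ifs
        exacts [map_one _, map_zero _])
      d_X := fun l => KS.cd_X _ ()
      E_C := fun L _ i r => evO1_C r
      E_mem := fun L hL i φ => evO1_mem (I.O j) (hB.L_le j (hB.L_mono (a := L + 1) (by omega)
        (Algebra.subset_adjoin (Or.inr ⟨i, rfl⟩)))) φ
      ker := fun i => (hs 0 i).trans (by rw [y, x, I.P_zero, pow_zero, pow_one, Pt.val_zero])
      step := fun L _ i => (hs (L + 1) i).trans (hy _ i).symm
      const := fun L _ l => KS.cd_frob _ (Nat.mul_ne_zero I.hh L.succ_ne_zero) _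
      det := ⟨w, hB.L_le j (hB.L_mono (by omega) hw), by
        simp only [mul_zero, iterateFrobenius_zero, PowerSeries.map_id, id, zero_add]
        exact e⟩ }
  obtain ⟨h1, h2⟩ := main (mon_lat hB j) (sp_series 0) ind_series GG CC k
  simp only [hy] at h1 h2
  refine ⟨h1.mono (I.mon_v_mem _) (Nat.mul_le_mul_left _ (le_trans (le_of_eq ?_) (hD' j N hN))), h2⟩
  unfold loss
  ring

theorem mon_root {j n k l e : ℕ} (hn : n = p ^ k) {x y : Fin c → AA}
    (hx : ∀ i, x i ^ p ^ (l + k) = y i)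
    (h1 : SP (I.O j).toSubring (I.v : AA) (n * e) n y) (h2 : INDon (I.T j).toSubring n y) :
    (∀ z ∈ I.OO ⊓ P.rtA p (l + k) (I.T j), ∃ r : (Fin c → Fin n) → AA,
      (∀ α, r α ∈ I.OO ⊓ P.rtA p l (I.T j)) ∧ (I.v : AA) ^ e * z = ∑ α, r α * mn x α) ∧
    ∀ r : (Fin c → Fin n) → AA, (∀ α, r α ∈ P.rtA p l (I.T j)) →
      ∑ α, r α * mn x α = 0 → ∀ α, r α = 0 := by
  subst hn
  have h3 : ∀ r : (Fin c → Fin (p ^ k)) → AA, (∑ α, r α * mn x α) ^ p ^ (l + k) =
      ∑ α, (r α ^ p ^ l) ^ p ^ k * mn y α := fun r => by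
    simp only [sum_pow_pp, mul_pow, mn, ← mon_pow, hx, ← pow_mul, ← pow_add]
  refine ⟨fun z hz => ?_, fun r hr h4 α => eq_zero_of_pow (h2 _ hr (by
    rw [← h3, h4, zero_pow (pow_pos hp.out.pos _).ne']) α)⟩
  obtain ⟨r, hr, h4⟩ := h1.mono (e' := e * p ^ (l + k)) (I.mon_v_mem _)
    ((mul_comm _ e).trans_le
      (Nat.mul_le_mul_left _ (Nat.pow_le_pow_right hp.out.pos (k.le_add_left l))))
    (z ^ p ^ (l + k)) ⟨pow_mem hz.1 _, hz.2⟩
  refine ⟨fun α => (rt p AA ^ l) (r α), fun α => ⟨IsIntegral.of_pow (pow_pos hp.out.pos l) ?_, ?_⟩,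
    pow_pp_inj (l + k) ?_⟩
  · rw [rt_pow_pp]
    exact (hr α).1
  · rw [SetLike.mem_coe, P.mem_rtA, rt_pow_pp]
    exact (hr α).2
  · simp only [h3, rt_pow_pp, ← h4, mul_pow, pow_mul]

theorem mon (hB : I.Bas) (hG : I.Gal) (hI : I.Inv) : I.Mon := by
  obtain ⟨D, hD⟩ := mon_sp hB hG hI
  refine ⟨D, fun B M j hBM hM => ?_⟩
  have e : h * M = h * (M - B) + h * B := by rw [← mul_add, Nat.sub_add_cancel hBM]
  have h1 : SP (I.O j).toSubring (I.v : AA) ((p ^ h) ^ B * D ^ (j + 1)) ((p ^ h) ^ B) (I.y M) ∧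
      INDon (I.T j).toSubring ((p ^ h) ^ B) (I.y M) := by
    rcases M with _ | m
    · obtain rfl : B = 0 := by omega
      exact ⟨(SP.one (pow_zero _)).mono (I.mon_v_mem _) (Nat.zero_le _),
        fun r _ => IND.one (pow_zero _) r⟩
    · exact pow_mul p h B ▸ hD m j (h * B) hM
  have := mon_root (pow_mul p h B).symm (l := h * (M - B)) (x := I.x M)
    (fun i => by rw [← e, pow_mul]) h1.1 h1.2
  rwa [← e] at this

theorem ret (hB : I.Bas) (hG : I.Gal) (hI : I.Inv) : I.Ret := by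
  obtain ⟨D, hD⟩ := mon_gal hB hG hI
  obtain ⟨D', hD'⟩ := lin_le_pow p 0 D
  refine ⟨D', fun j n => ?_⟩
  obtain ⟨N, hN, Δ, _, _, k, σ, δ₀, a, b, GG⟩ := hD j
  obtain ⟨h1, h2⟩ := GG.sp_ind (mon_lat hB j) (sp_series 0) ind_series n
  let x : Fin c → PB.rtA p (I.T j).toSubring n := fun i =>
    ⟨(rt p AA ^ n) (algebraMap (RR c K) AA (MvPowerSeries.X i)), by
      rw [PB.mem_rtA, rt_pow_pp]
      exact (I.T j).algebraMap_mem _⟩
  have hx : ∀ i, (x i : AA) ^ p ^ n = algebraMap (RR c K) AA (MvPowerSeries.X i) := fun i =>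
    rt_pow_pp n _
  have hm := isMon_rtA (mon_lat hB j) h1 h2 hx
  refine ⟨AddMonoidHom.mk' (fun z => (hm.ret ⟨z, z.2⟩ : AA)) fun a b =>
    congrArg Subtype.val (hm.ret.map_add ⟨a, a.2⟩ ⟨b, b.2⟩), congrArg Subtype.val hm.ret_one,
    fun z => (hm.ret _).2, fun y z hy => congrArg Subtype.val
      (hm.ret.map_smul (⟨y, hy⟩ : (I.T j).toSubring) ⟨z, z.2⟩), fun z hz => ?_⟩
  have h3 := repr_mem (mon_lat hB j) h1 hx hm (z := ⟨z, z.2⟩) (t := 0)
    (by rw [pow_zero, one_mul]; exact ⟨pow_mem hz _, z.2⟩) fun _ => ⟨0, hm.pos⟩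
  rw [← I.v_eq]
  exact (Pol_mono (mon_lat hB j).mem (hD' j N hN) h3).1

end P261.Ig.FD
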