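import Vale.Agent.P261Z.Ig.FD

/-!
# P261, block N4: the generators separate the cosets
-/

set_option linter.all false

noncomputable section

namespace P261.Ig.FD

open Vale.Agent.P261Z Vale.Agent.P261Z.N Vale.Agent.P217 Vale.Agent.P251.F

variable {p h c : ℕ} [hp : Fact p.Prime] {K G : Type} [Field K] [Pf p K] [Group G]
  [TopologicalSpace G]

variable {A : RG p h c G K} {hc : 0 < c} {AA : Type} [CommRing AA] [Algebra (RR c K) AA]
  [Pf p AA] {Γ : Type} [Group Γ] (I : FD A hc AA Γ)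

theorem dvd_v (z : PtR p h c K AA) (hz : p • z = 0) (hu : IsUnit z.val) :
    ∃ w ∈ Algebra.adjoin (RR c K) {z.val}, z.val * w = I.v := by
  have p0 : (p : RR c K) = 0 := by
    rw [← map_natCast (MvPowerSeries.C : K →+* RR c K), Ch.char, map_zero]
  have : CharP (RR c K) p := (CharP.charP_iff_prime_eq_zero hp.out).2 p0
  have hq : 0 < p ^ h := pow_pos hp.out.pos h
  have hy := z.isN.pow hq
  have h1 := congrArg Pt.val hz
  rw [Pt.val_nsmul, (KS.psi_spec (KS.vv_FR_lt p0)).1, PowerSeries.expand_apply,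
    evO1_subst1 z.isN (by rw [map_pow, PowerSeries.constantCoeff_X, zero_pow hq.ne']), map_pow, evO1_X z.isN, Pt.val_zero] at h1
  obtain ⟨g, hg⟩ := PowerSeries.X_dvd_iff.2 (KS.psi_zero p h (FR p h c K))
  have h2 := KS.psi_one (h := h) p0 I.hh hc
  rw [hg, PowerSeries.coeff_succ_X_mul, PowerSeries.coeff_zero_eq_constantCoeff_apply] at h2
  rw [hg, PowerSeries.eq_X_mul_shift_add_const g, h2, map_mul, map_add, map_mul, evO1_X hy, evO1_C,
    ← I.v_eq, (hu.pow _).mul_right_eq_zero] at h1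
  have hm := Algebra.self_mem_adjoin_singleton (RR c K) z.val
  refine ⟨_, neg_mem (mul_mem (pow_mem hm (p ^ h - 1))
    (evO1_mem (m := mm c K) _ (pow_mem hm (p ^ h))
      (PowerSeries.mk fun n => PowerSeries.coeff (n + 1) g))), ?_⟩
  rw [mul_neg, ← mul_assoc, mul_pow_sub_one hq.ne']
  exact neg_eq_of_add_eq_zero_right h1

namespace SepH

theorem pow_P (a L : ℕ) (i : Fin c) : p ^ a • I.P (L + a) i = I.P L i := by
  induction a with
  | zero => simp
  | succ a ih => rw [pow_succ, mul_smul, ← add_assoc, I.P_succ, ih]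

theorem exists_unit (j : ℕ) (μ : Fin c → ℕ) (hμ : ∃ k, ¬ p ^ j ∣ μ k) :
    ∃ n : ℕ, p • n • ∑ k, μ k • I.P j k = 0 ∧ IsUnit (n • ∑ k, μ k • I.P j k).val := by
  induction j generalizing μ with
  | zero => simp at hμ
  | succ j ih =>
    by_cases o : ∃ k, ¬ p ∣ μ k
    · have e : p ^ j • ∑ k, μ k • I.P (j + 1) k = ∑ k, μ k • I.P 1 k := by
        rw [Finset.smul_sum]
        exact Finset.sum_congr rfl fun k _ => by rw [smul_comm, add_comm j, pow_P]
      refine ⟨p ^ j, ?_, e ▸ I.P_unit μ o⟩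
      rw [e, Finset.smul_sum]
      exact Finset.sum_eq_zero fun k _ => by rw [smul_comm, I.P_succ, I.P_zero, nsmul_zero]
    · choose ν hν using fun k => not_not.1 (not_exists.1 o k)
      have e : ∑ k, μ k • I.P (j + 1) k = ∑ k, ν k • I.P j k :=
        Finset.sum_congr rfl fun k _ => by rw [hν, mul_comm, mul_smul, I.P_succ]
      rw [e]
      obtain ⟨k, hk⟩ := hμ
      exact ih ν ⟨k, fun o => hk (by rw [hν, pow_succ']; exact Nat.mul_dvd_mul_left p o)⟩

theorem coeff_subst {S : Type} [CommRing S] {f : PowerSeries S}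
    (hf : PowerSeries.constantCoeff f = 0) (d : ℕ) (g : PowerSeries S) :
    PowerSeries.coeff d ((PowerSeries.X + PowerSeries.X ^ d * g).subst f : PowerSeries S) =
      PowerSeries.coeff d f + PowerSeries.coeff 1 f ^ d * PowerSeries.constantCoeff g := by
  have hs := PowerSeries.HasSubst.of_constantCoeff_zero' hf
  obtain ⟨f', e⟩ := PowerSeries.X_dvd_iff.2 hf
  have h1 : PowerSeries.coeff 1 f = PowerSeries.constantCoeff f' := by
    rw [e, PowerSeries.coeff_succ_X_mul, PowerSeries.coeff_zero_eq_constantCoeff_apply]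
  conv_lhs => rw [PowerSeries.eq_X_mul_shift_add_const g]
  rw [← PowerSeries.coe_substAlgHom hs]
  simp only [map_add, map_mul, map_pow, PowerSeries.substAlgHom_X]
  rw [show PowerSeries.C (PowerSeries.constantCoeff g) = algebraMap S _ _ from rfl, AlgHom.commutes]
  congr 1
  have h2 : f ^ d = PowerSeries.X ^ d * f' ^ d := by rw [← mul_pow, ← e]
  rw [h2, mul_assoc, h1]
  refine (congrArg (fun n => PowerSeries.coeff n _) (zero_add d).symm).trans ?_
  rw [PowerSeries.coeff_X_pow_mul, PowerSeries.coeff_zero_eq_constantCoeff_apply, map_mul, map_pow,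
    map_add, map_mul, hf, zero_mul, zero_add]
  rfl

end SepH

open SepH in
theorem sep (hB : I.Bas) : I.Sep := by
  classical
  intro j γ hγ
  have hj : j ≠ 0 := by
    rintro rfl
    exact hγ (I.Gs_zero ▸ Subgroup.mem_top γ)
  have hq : 1 < p ^ h := Nat.one_lt_pow I.hh hp.out.one_lt
  rw [I.mem_Gs, not_and_or] at hγ
  rcases hγ with hγ | hγ
  · have h0 : ∃ d, d < (p ^ h) ^ j ∧ PowerSeries.coeff d (I.eg γ - PowerSeries.X) ≠ 0 := by
      by_contra o
      exact hγ fun d hd => sub_eq_zero.1 (by_contra fun e => o ⟨d, hd, by rwa [map_sub]⟩)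
    obtain ⟨h1, h2⟩ := Nat.find_spec h0
    obtain ⟨g, hg⟩ := PowerSeries.X_pow_dvd_iff.2 fun m (hm : m < Nat.find h0) =>
      not_not.1 fun e => Nat.find_min h0 hm ⟨hm.trans h1, e⟩
    generalize Nat.find h0 = d at h1 h2 hg
    have h3 : PowerSeries.constantCoeff g ≠ 0 := by
      rw [hg, ← zero_add d] at h2
      rwa [zero_add, ← PowerSeries.coeff_zero_eq_constantCoeff_apply,
        ← PowerSeries.coeff_X_pow_mul g d 0, zero_add] at *
    have h4 := congrArg (PowerSeries.coeff d) (I.ga_f γ)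
    rw [eq_add_of_sub_eq' hg, map_add, map_mul, map_pow, PowerSeries.map_X,
      coeff_subst I.f_hom.1, PowerSeries.coeff_map,
      ← PowerSeries.coeff_zero_eq_constantCoeff_apply, PowerSeries.coeff_map,
      PowerSeries.coeff_zero_eq_constantCoeff_apply, RingHom.coe_coe] at h4
    have h5 : PowerSeries.coeff 1 I.f ∈ I.L j :=
      Algebra.subset_adjoin (Or.inl ⟨1, Nat.one_lt_pow hj hq, rfl⟩)
    refine ⟨_, Algebra.subset_adjoin (Or.inl ⟨d, h1, rfl⟩), _, mul_mem (pow_mem h5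
      ((p ^ h - 1) * (p ^ h) ^ j - d)) ((I.L j).algebraMap_mem
        (MvPowerSeries.C (PowerSeries.constantCoeff g)⁻¹)), ?_⟩
    have h6 : d ≤ (p ^ h - 1) * (p ^ h) ^ j :=
      h1.le.trans (Nat.le_mul_of_pos_left _ (by omega))
    rw [sub_eq_of_eq_add' h4, mul_mul_mul_comm, ← pow_add, Nat.sub_add_cancel h6, pow_mul, hB.one,
      RingHom.comp_apply, ← map_mul, ← map_mul, inv_mul_cancel₀ h3, map_one, map_one, mul_one]
  · obtain ⟨i, hγ⟩ := not_forall.1 hγ
    obtain ⟨k, hγ⟩ := not_forall.1 hγ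
    have hp1 : 1 ≤ p ^ j := Nat.one_le_pow _ _ hp.out.pos
    let μ : Fin c → ℕ := fun k => I.en γ j i k + (p ^ j - 1) * if i = k then 1 else 0
    have h1 : ¬ p ^ j ∣ μ k := fun o => hγ (by
      have h2 := (Nat.modEq_zero_iff_dvd.2 o).add_right (if i = k then 1 else 0)
      rw [zero_add, add_assoc, ← add_one_mul, Nat.sub_add_cancel hp1] at h2
      exact Nat.ModEq.trans (Nat.add_mul_mod_self_left _ _ _).symm h2)
    have h2 : ∑ k, μ k • I.P j k + I.P j i = Pt.mapA (I.ga γ) (I.P j i) := by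
      simp only [μ, add_smul, Finset.sum_add_distrib, mul_ite, mul_one, mul_zero, ite_smul,
        zero_smul, Finset.sum_ite_eq, Finset.mem_univ, if_true]
      rw [I.ga_P, add_assoc, ← succ_nsmul, Nat.sub_add_cancel hp1, hB.tor, add_zero]
    obtain ⟨n, h3, h4⟩ := exists_unit I j μ ⟨k, h1⟩
    obtain ⟨w, hw, h5⟩ := I.dvd_v _ h3 h4
    have h6 := hB.sum_mem j μ
    generalize ∑ k, μ k • I.P j k = Q at *
    obtain ⟨g, hg⟩ := PowerSeries.X_dvd_iff.2 (isHom_multSeries (FR p h c K).toFG n).1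
    have h7 : (n • Q).val = Q.val * evO1 (mm c K) Q.val g := by
      rw [Pt.val_nsmul, hg, map_mul, evO1_X Q.isN]
    have h8 := evO1_mem (m := mm c K) _ h6 g
    rw [h7] at hw h5
    have h9 := Algebra.adjoin_le (Set.singleton_subset_iff.2 (mul_mem h6 h8)) hw
    obtain ⟨u, -, hu, e⟩ := Pt.exists_val_add Q (I.P j i)
    rw [h2, Pt.mapA_val] at e
    have h10 : ((u⁻¹ : AAˣ) : AA) ∈ Algebra.adjoin (RR c K) (Set.range (I.x j)) :=
      Algebra.adjoin_le (Set.pair_subset h6 (Algebra.subset_adjoin ⟨i, rfl⟩)) hu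
    refine ⟨I.y j i, Algebra.subset_adjoin (Or.inr ⟨i, rfl⟩), _,
      hB.pow_L j _ (mul_mem h10 (mul_mem h8 h9)), ?_⟩
    rw [map_pow, ← pow_mul, y, ← pow_mul, ← sub_pow_pp, sub_eq_of_eq_add e, ← mul_pow, ← h5]
    congr 1
    linear_combination (Q.val * evO1 (mm c K) Q.val g * w) * u.inv_mul

theorem a_cong (hB : I.Bas) (hS : I.Sep) : ∀ s t j, s % p = 1 → t % p = 1 → s ≡ t [MOD p ^ j] →
    (I.a s)⁻¹ * I.a t ∈ I.Gs j := by
  intro s t j hs ht e
  by_contra o
  obtain ⟨z, hz, w, -, h1⟩ := hS j _ o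
  have h2 : I.L j ≤ AlgHom.equalizer (I.ga (I.a t)) (I.ga (I.a s)) := by
    refine Algebra.adjoin_le ?_
    rintro _ (⟨d, -, rfl⟩ | ⟨i, rfl⟩)
    · exact (congrArg (PowerSeries.coeff d) (I.a_f t)).trans
        (congrArg (PowerSeries.coeff d) (I.a_f s)).symm
    · have h3 : t • I.P j i = s • I.P j i := by
        rw [nsmul_eq_mod_nsmul t (hB.tor j i), nsmul_eq_mod_nsmul s (hB.tor j i), e]
      rw [← I.a_P t ht, ← I.a_P s hs] at h3
      change I.ga _ (_ ^ _) = I.ga _ (_ ^ _)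
      rw [map_pow, map_pow]
      exact congrArg (fun z => Pt.val z ^ _) h3
  have h4 : I.ga ((I.a s)⁻¹ * I.a t) z = z := by
    rw [map_mul, AlgHom.mul_apply, (AlgHom.mem_equalizer _ _ _).1 (h2 hz), ← AlgHom.mul_apply,
      ← map_mul, inv_mul_cancel, map_one, AlgHom.one_apply]
  have := I.inj.nontrivial
  rw [h4, sub_self, mul_zero] at h1
  exact (I.v.isUnit.pow _).ne_zero h1.symm

end P261.Ig.FD
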