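import Vale.Agent.P261Z.Top.Spec2
import Vale.Agent.P261Z.Ig.Asm
import Vale.Agent.P261Z.Ig.BasF
import Vale.Agent.P261Z.Ig.Bas
import Vale.Agent.P261Z.Ig.Sep
import Vale.Agent.P261Z.Ig.Gal
import Vale.Agent.P261Z.Ig.InvT
import Vale.Agent.P261Z.Ig.Mon
import Vale.Agent.P261Z.Ig.GF

/-!
# P261: the Igusa data of the concrete model, from the formal data and the torsors
-/

noncomputable section

namespace P261.Top

open Vale.Agent.P251.F Vale.Agent.P261Z Vale.Agent.P261Z.N P261.Ser P261.Ser.SA P261.C2 P261.Ig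

variable (p : ℕ) [hp : Fact p.Prime]

/-- the torsors exist for all formal data -/
def StTD : Prop := ∀ (h c : ℕ) (K G : Type) [Field K] [Pf p K] [Group G] [TopologicalSpace G]
  (A : RG p h c G K) (hc : 0 < c) (AA : Type) [CommRing AA] [Algebra (N.RR c K) AA] [Pf p AA]
  (Γ : Type) [Group Γ] [Algebra (ZMod p) (N.RR c K)] [Algebra (ZMod p) AA]
  [IsScalarTower (ZMod p) (N.RR c K) AA] (I : FD A hc AA Γ), I.Bas → I.Sep → I.Gal → I.Trc → I.Inv →
  I.Mon → I.Ret → I.Td (HH p h c I.hh)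

variable {p}

theorem stIG_of (hD : StTD p) (hF : StFD p) : StIG p := by
  intro h c h1 hc k _ D _ K _ _ _ _ _ ι A hA Θ
  obtain ⟨I, e1, e2, e3, -⟩ := hF h c h1 hc D.GG K A Θ
  have hB := I.bas I.basF
  have hS := I.sep hB
  have hG := I.gal hB hS
  have hT := I.trc hB hG
  have hI := FD.inv' hB hT
  have hR := FD.ret hB hG hI
  obtain ⟨J, f1, f2, f3, -⟩ := I.igd hB hT hI hR (I.a_cong hB hS) (HH p h c I.hh)
    (fun m => HH_fin c I.hh m 1)
    (hD h c K D.GG A hc _ _ I hB hS hG hT hI (FD.mon hB hG hI) hR)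
  have hg : ∀ l, Line D ι A h1 l → ∃ s s', J.Gen (val l) s s' := fun l ⟨a, b, i, hl⟩ =>
    I.gen hB hA rfl (j := (sa A h1).J.1) (fun _ => rfl) hl J f3
  unfold IgM
  rw [← e1, ← e2, ← e3]
  exact ⟨_, J, f1, f2, hg⟩

end P261.Top
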