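import Vale.Agent.P261Z.Ig.Sk1

/-!
# P261Z, block Ig: the endomorphisms of `N₀`
-/

noncomputable section

open Matrix Polynomial

namespace P261.Ig

open P261.C2

variable {p : ℕ} [hp : Fact p.Prime] {K L : Type} [CommRing K] [CommRing L] {h : ℕ}

theorem Au0_apply (i j : Fin h) : Au p h (0 : ℕ → K) i j =
    if (i : ℕ) = j + 1 then 1 else if (i : ℕ) = 0 ∧ (j : ℕ) + 1 = h then (p : WittVector p K)
      else 0 := by
  by_cases h1 : (i : ℕ) = j + 1 <;> by_cases h2 : (i : ℕ) = 0 <;> by_cases h3 : (j : ℕ) + 1 = h <;>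
    simp [Au, Cm, h1, h2, h3]

theorem Au0_mul {J : Type} (M : Matrix (Fin h) J (WittVector p K)) (i l : Fin h) (j : J) :
    ((i : ℕ) = l + 1 → (Au p h (0 : ℕ → K) * M) i j = M l j) ∧
    ((i : ℕ) = 0 → (l : ℕ) + 1 = h → (Au p h (0 : ℕ → K) * M) i j = p * M l j) := by
  refine ⟨fun e => ?_, fun e e' => ?_⟩ <;> rw [Matrix.mul_apply, Finset.sum_eq_single l]
  · rw [Au0_apply, if_pos e, one_mul]
  · intro b _ hb
    rw [Au0_apply, if_neg fun o => hb (Fin.ext (by omega)), if_neg (by omega), zero_mul]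
  · simp
  · rw [Au0_apply, if_neg (by omega), if_pos ⟨e, e'⟩]
  · intro b _ hb
    rw [Au0_apply, if_neg (by omega), if_neg fun o => hb (Fin.ext (by omega)), zero_mul]
  · simp

theorem Au0_pow_apply {k : ℕ} (hk : k ≤ h) (i j : Fin h) : (Au p h (0 : ℕ → K) ^ k) i j =
    if (i : ℕ) = j + k then 1 else if (i : ℕ) + h = j + k then (p : WittVector p K) else 0 := by
  induction k generalizing i with
  | zero =>
    have := j.2
    rw [pow_zero, Matrix.one_apply, if_neg (show ¬((i : ℕ) + h = j + 0) by omega)]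
    simp [Fin.ext_iff]
  | succ k ih =>
    have := j.2
    have := i.2
    rw [pow_succ']
    by_cases e : (i : ℕ) = 0
    · rw [(Au0_mul _ i ⟨h - 1, by omega⟩ j).2 e (by simp; omega), ih (by omega)]
      dsimp only
      split_ifs <;> first | omega | simp
    · rw [(Au0_mul _ i ⟨i - 1, by omega⟩ j).1 (by simp; omega), ih (by omega)]
      dsimp only
      split_ifs <;> first | omega | simp

theorem Au0_pow : Au p h (0 : ℕ → K) ^ h = (p : WittVector p K) • (1 : Matrix _ _ _) := by
  ext1 i j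
  have := i.2
  rw [Au0_pow_apply le_rfl, if_neg (by omega), Matrix.smul_apply, Matrix.one_apply]
  simp [Fin.ext_iff]

variable {E : Type} [Fintype E] [DecidableEq E]

theorem V0_pow (k : ℕ) : V0 p E h (WittVector p K) ^ k =
    fromBlocks 1 0 0 (Au p h (0 : ℕ → K) ^ k) := by
  rw [V0_eq, fromBlocks_diagonal_pow, one_pow]

variable [Pf p K]

theorem itw_pow {I J : Type} [Fintype I] [Fintype J] [DecidableEq I] [DecidableEq J]
    {B : Matrix I I (WittVector p K)} {A : Matrix J J (WittVector p K)}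
    (hB : B.map (si p K) = B) (hA : A.map (si p K) = A) {γ : Matrix I J (WittVector p K)}
    (e : B * γ.map (si p K) = γ * A) (k : ℕ) : B ^ k * γ.map (si p K ^ k) = γ * A ^ k := by
  induction k generalizing γ with
  | zero => simp
  | succ k ih =>
    have e' : B * (γ.map (si p K)).map (si p K) = γ.map (si p K) * A := by
      have := congrArg (fun X => X.map (si p K)) e
      simpa only [Matrix.map_mul, hB, hA] using this
    have e2 : γ.map (si p K ^ (k + 1)) = (γ.map (si p K)).map (si p K ^ k) := by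
      rw [pow_succ]; rfl
    rw [pow_succ' B, Matrix.mul_assoc, e2, ih e', ← Matrix.mul_assoc, e, Matrix.mul_assoc,
      ← pow_succ']

/-- the structure of the endomorphisms -/
theorem end_struct {γ : Matrix (E ⊕ Fin h) (E ⊕ Fin h) (WittVector p K)}
    (e : V0 p E h _ * γ.map (si p K) = γ * V0 p E h _) :
    (∀ a b, γ (.inl a) (.inr b) = 0) ∧ (∀ a b, γ (.inr a) (.inl b) = 0) ∧
    (∀ a b, si p K (γ (.inl a) (.inl b)) = γ (.inl a) (.inl b)) ∧
    ∀ a b, (si p K ^ h) (γ a b) = γ a b := by
  have e1 := itw_pow (V0_map _) (V0_map _) e h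
  rw [V0_pow, Au0_pow, ← fromBlocks_toBlocks γ, fromBlocks_map, fromBlocks_multiply,
    fromBlocks_multiply, fromBlocks_inj] at e1
  simp only [Matrix.one_mul, Matrix.zero_mul, Matrix.mul_zero, Matrix.mul_one, add_zero, zero_add,
    Matrix.smul_mul, Matrix.mul_smul] at e1
  obtain ⟨k1, k2, k3, k4⟩ := e1
  have z1 : ∀ a b, γ (.inl a) (.inr b) = 0 := fun a b =>
    (Dop_bijective h).1 (by
      rw [map_zero, Dop_apply, sub_eq_zero]
      exact congrFun (congrFun k2 a) b)
  have z2 : ∀ a b, γ (.inr a) (.inl b) = 0 := fun a b => Cg.ext fun J => by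
    have k : (p : WittVector p K) * (si p K ^ h) (γ (.inr a) (.inl b)) = γ (.inr a) (.inl b) :=
      congrFun (congrFun k3 a) b
    induction J with
    | zero => exact fun j hj => absurd hj (Nat.not_lt_zero j)
    | succ J ih =>
      have := (ih.si_pow h).p_mul
      rwa [k, map_zero, mul_zero] at this
  refine ⟨z1, z2, fun a b => ?_, ?_⟩
  · have := congrFun (congrFun e (.inl a)) (.inl b)
    simpa [V0, Matrix.mul_apply, Matrix.one_apply] using this
  · rintro (a | a) (b | b)
    · exact congrFun (congrFun k1 a) b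
    · rw [z1, map_zero]
    · rw [z2, map_zero]
    · exact p_mul_inj (congrFun (congrFun k4 a) b)

theorem coeff_pow_of_fix {x : WittVector p K} (e : (si p K ^ h) x = x) (j : ℕ) :
    x.coeff j ^ p ^ h = x.coeff j := by
  conv_lhs => rw [← e, coeff_si_pow, rt_pow_pp]

/-- the roots of `X ^ q - X` come from `k` -/
theorem root_mem {k : Type} [Field k] {q : ℕ} (hq : 1 < q) (hs : (X ^ q - X : k[X]).Splits)
    [IsDomain L] (ι : k →+* L) {x : L} (hx : x ^ q = x) : ∃ a, ι a = x := by
  have hm : (X ^ q - X : k[X]).Monic := by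
    rw [sub_eq_add_neg]
    exact (monic_X_pow q).add_of_left (by rw [degree_neg, degree_X, degree_X_pow]; exact_mod_cast hq)
  have e := congrArg (eval₂RingHom ι x) (hs.eq_prod_roots_of_monic hm)
  rw [map_multiset_prod, Multiset.map_map] at e
  simp only [coe_eval₂RingHom, eval₂_sub, eval₂_X_pow, eval₂_X, hx, sub_self, Function.comp,
    eval₂_C] at e
  obtain ⟨a, -, ha⟩ := Multiset.mem_map.1 (Multiset.prod_eq_zero_iff.1 e.symm)
  exact ⟨a, (sub_eq_zero.1 ha).symm⟩

omit [Pf p K] in
theorem mw_injective {I J : Type} {f : L →+* K} (hf : Function.Injective f) :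
    Function.Injective (mw (p := p) (I := I) (J := J) f) := fun _ _ e =>
  Matrix.ext fun i j => WittVector.ext fun n => hf (congrArg (fun X => (X i j).coeff n) e)

/-- endomorphisms over domains are defined over `k` -/
theorem end_lift {k : Type} [Field k] [Pf p k] (hh : 1 ≤ h)
    (hs : (X ^ p ^ h - X : k[X]).Splits) [IsDomain K] (ι : k →+* K)
    {γ : Matrix (E ⊕ Fin h) (E ⊕ Fin h) (WittVector p K)}
    (e : V0 p E h _ * γ.map (si p K) = γ * V0 p E h _) :
    ∃ γ₀ : Matrix (E ⊕ Fin h) (E ⊕ Fin h) (WittVector p k), mw ι γ₀ = γ := by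
  choose a ha using fun i j n => root_mem (Nat.one_lt_pow (by omega) one_lt_p) hs ι
    (coeff_pow_of_fix ((end_struct e).2.2.2 i j) n)
  exact ⟨Matrix.of fun i j => WittVector.mk p (a i j),
    Matrix.ext fun i j => WittVector.ext fun n => ha i j n⟩

theorem Iso.of_map [Pf p L] {I J : Type} [Fintype I] [Fintype J] [DecidableEq I] [DecidableEq J]
    {f : L →+* K} (hf : Function.Injective f) {B : Matrix I I (WittVector p L)}
    {A : Matrix J J (WittVector p L)} {μ : Matrix I J (WittVector p L)}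
    {ν : Matrix J I (WittVector p L)} (H : Iso (mw f B) (mw f A) (mw f μ) (mw f ν)) :
    Iso B A μ ν :=
  ⟨mw_injective hf (by rw [mw_mul, H.mn, mw_one]), mw_injective hf (by rw [mw_mul, H.nm, mw_one]),
    mw_injective hf (by rw [mw_mul, mw_si, H.eq, mw_mul])⟩

end P261.Ig
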