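import Vale.Agent.P261Z.Ig.PSk

/-!
# P261, block Ig: the curves of small vectors can be summed
-/

set_option linter.unusedSectionVars false

noncomputable section

namespace P261.Ig

open Vale.Agent.P261Z Vale.Agent.P261Z.N Vale.Agent.P217 Vale.Agent.P251.F P261.C2 Matrix

namespace Crvs

variable {B U : Type} [CommRing B] [CommRing U] {J : Ideal B}

theorem coeff_mul_mem {I : Ideal B} {f : PowerSeries B} (hf : ∀ d, PowerSeries.coeff d f ∈ I)
    (g : PowerSeries B) (d : ℕ) : PowerSeries.coeff d (f * g) ∈ I := by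
  rw [PowerSeries.coeff_mul]
  exact sum_mem fun x _ => I.mul_mem_right _ (hf _)

theorem rs_subst {σ : Type} [Fintype σ] {γ : σ → PowerSeries B}
    (h0 : ∀ i, PowerSeries.constantCoeff (γ i) = 0) (h1 : ∀ i d, PowerSeries.coeff d (γ i) ∈ J)
    (h2 : ∀ i, Rs J (γ i)) (G : MvPowerSeries σ B) : Rs J (MvPowerSeries.subst γ G) := by
  intro N
  have hs : MvPowerSeries.HasSubst γ := MvPowerSeries.hasSubst_of_constantCoeff_zero h0
  induction N generalizing G with
  | zero => exact ⟨0, fun _ _ => by simp⟩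
  | succ N ih =>
    obtain ⟨g, hg⟩ := Ideal.mem_span_range_iff_exists_fun.1
      (Ev.mem_IX.2 (show MvPowerSeries.constantCoeff
        (G - MvPowerSeries.C (MvPowerSeries.constantCoeff G)) = 0 by simp))
    choose a ha using fun i => ih (g i)
    choose b hb using fun i => h2 i (N + 1)
    refine ⟨Finset.univ.sup a + Finset.univ.sup b + 1, fun d hd => ?_⟩
    rw [eq_add_of_sub_eq hg.symm, MvPowerSeries.subst_add hs, MvPowerSeries.subst_C,
      ← MvPowerSeries.substAlgHom_apply hs, map_sum, map_add, map_sum]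
    refine add_mem (sum_mem fun i _ => ?_) ?_
    · rw [map_mul, MvPowerSeries.substAlgHom_X, MvPowerSeries.substAlgHom_apply,
        PowerSeries.coeff_mul]
      refine sum_mem fun x hx => ?_
      have e := Finset.HasAntidiagonal.mem_antidiagonal.1 hx
      have ea : a i ≤ Finset.univ.sup a := Finset.le_sup (Finset.mem_univ i)
      have eb : b i ≤ Finset.univ.sup b := Finset.le_sup (Finset.mem_univ i)
      rcases le_or_gt (a i) x.1 with h | h
      · rw [pow_succ]
        exact Ideal.mul_mem_mul (ha i _ h) (h1 i _)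
      · exact Ideal.mul_mem_left _ _ (hb i _ (by omega))
    · change PowerSeries.coeff d (PowerSeries.C _) ∈ _
      rw [PowerSeries.coeff_C, if_neg (by omega)]
      exact zero_mem _

theorem coeff_add {F : Law B} (a b : Cv F) {I : Ideal B}
    (hb : ∀ d, PowerSeries.coeff d b.ser ∈ I) {d : ℕ} (ha : PowerSeries.coeff d a.ser ∈ I) :
    PowerSeries.coeff d (a + b).ser ∈ I := by
  obtain ⟨H, hH⟩ := exists_FG_decomp F.toFG
  have hs := hasSubst_cons a.cc b.cc
  rw [Cv.ser_add, Law.ps, hH, MvPowerSeries.subst_add hs, MvPowerSeries.subst_add hs,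
    MvPowerSeries.subst_mul hs, MvPowerSeries.subst_mul hs, MvPowerSeries.subst_X hs,
    MvPowerSeries.subst_X hs, mul_comm (![a.ser, b.ser] 0), mul_assoc]
  exact add_mem (add_mem ha (hb d)) (coeff_mul_mem hb _ d)

variable (J) in
/-- curves with coefficients in a power of `J` which tend to zero -/
def CS (F : Law B) (N : ℕ) : AddSubmonoid (Cv F) where
  carrier := {g | (∀ d, PowerSeries.coeff d g.ser ∈ J ^ (N + 1)) ∧ Rs J g.ser}
  zero_mem' := ⟨fun _ => zero_mem _, fun _ => ⟨0, fun _ _ => zero_mem _⟩⟩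
  add_mem' {a b} ha hb := ⟨fun d => coeff_add a b hb.1 (ha.1 d),
    rs_subst (Fin.forall_fin_two.2 ⟨a.cc, b.cc⟩)
      (Fin.forall_fin_two.2 ⟨fun d => Ideal.pow_le_self N.succ_ne_zero (ha.1 d),
        fun d => Ideal.pow_le_self N.succ_ne_zero (hb.1 d)⟩) (Fin.forall_fin_two.2 ⟨ha.2, hb.2⟩) _⟩

theorem CS_anti {F : Law B} {N N' : ℕ} (h : N ≤ N') {g : Cv F} (hg : g ∈ CS J F N') :
    g ∈ CS J F N := ⟨fun d => Ideal.pow_le_pow_right (Nat.succ_le_succ h) (hg.1 d), hg.2⟩

variable (p : ℕ) [hp : Fact p.Prime]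

theorem mon_mem (F : Law B) {N : ℕ} {β : B} (hβ : β ∈ J ^ (N + 1)) (i : ℕ) :
    mon p F β i (xx F) ∈ CS J F N := by
  refine ⟨fun d => ?_, fun M => ⟨p ^ i + 1, fun d hd => ?_⟩⟩
  · rw [mon_xx_ser, PowerSeries.coeff_C_mul]
    exact Ideal.mul_mem_right _ _ hβ
  · rw [mon_xx_ser, PowerSeries.coeff_C_mul, PowerSeries.coeff_X_pow, if_neg (by omega), mul_zero]
    exact zero_mem _

theorem key (ι : B →+* U) {F : Law B} {G : Law U} (hG : F.map ι = G) {v : ℕ → B} {n : ℕ}
    (hF : p • xx F = ∑ j ∈ Finset.range n, mon p F (v j) (j + 1) (xx F))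
    (hv : ∀ j k w β, β ∈ J ^ (w + 1) → v j ^ p ^ k * β ^ p ^ j ∈ J ^ (w + 1 + 1)) (k : ℕ) :
    ∀ (w i : ℕ) (b : U) (β : B), β ∈ J ^ (w + 1) → ι β = b ^ p ^ k →
      p ^ k • mon p G b i (xx G) ∈ (CS J F (w + k)).map (zmap ι hG) := by
  induction k with
  | zero =>
    intro w i b β h1 h2
    refine ⟨_, mon_mem p F h1 i, ?_⟩
    rw [zmap_mon, zmap_xx, h2, pow_zero, pow_one, one_smul]
  | succ k ih =>
    intro w i b β h1 h2
    have e := congrArg (zmap ι hG) hF
    rw [map_nsmul, map_sum, zmap_xx] at e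
    rw [pow_succ, mul_smul, ← map_nsmul (mon p G b i) p, e, map_sum, Finset.smul_sum]
    refine sum_mem fun j _ => ?_
    rw [zmap_mon, zmap_xx, mon_mon, show w + (k + 1) = w + 1 + k by omega]
    refine ih _ _ _ _ (hv j k w β h1) ?_
    rw [map_mul, map_pow, map_pow, h2, mul_pow, ← pow_mul, ← pow_mul, ← pow_add, ← pow_add,
      show k + 1 + j = j + 1 + k by omega]

theorem cv_iter [Pf p U] {n : ℕ} (hn : 1 ≤ n) (u : ℕ → U) (y : Fin n → WittVector p U) (i : ℕ) :
    cv hn u ((Vm (Au p n u))^[i] y) = mon p _ 1 i (cv hn u y) := by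
  induction i with
  | zero => exact (mon_one_zero p _ _).symm
  | succ i ih => rw [Function.iterate_succ_apply', (cv_crv hn u).ver, ih, mon_mon, one_pow, mul_one,
      add_comm]

theorem cv_single [Pf p U] {n : ℕ} (hn : 1 ≤ n) (u : ℕ → U) (b : U) (i : Fin n) :
    cv hn u (tm p b • Pi.single i 1) = mon p _ (b ^ p ^ (i : ℕ)) i (xx _) := by
  have e := Mt.cm_lt hn (fun i : Fin n =>
    if (i : ℕ) = 0 then (p : WittVector p U) else -tm p (u i)) i i.2
  rw [(cv_crv hn u).tei, ← e]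
  refine (congrArg _ (cv_iter p hn u _ i)).trans ?_
  rw [cv_e0, mon_mon, one_mul, zero_add]

theorem decomp [Pf p U] {n : ℕ} (z : Fin n → WittVector p U) (M : ℕ) :
    z = ∑ k ∈ Finset.range M, ∑ i, p ^ k • (tm p (dg (z i) k) • Pi.single i 1) +
      p ^ M • fun i => dv^[M] (z i) := by
  funext l
  conv_lhs => rw [eq_sum_dg (z l) M]
  simp [Finset.sum_apply, Pi.single_apply, mul_comm]

theorem of_lift [Pf p U] (ι : B →+* U) (hι : Function.Injective ι) {F : Law B} {G : Law U}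
    (hG : F.map ι = G) (g : Cv G) (γ : ℕ → Cv F) (hγ : ∀ k, γ k ∈ CS J F k)
    (hg : ∀ M, ∃ g', g = zmap ι hG (∑ k ∈ Finset.range M, γ k) + p ^ M • g') :
    ∃ γ' : PowerSeries B, PowerSeries.map ι γ' = g.ser ∧ (∀ d, PowerSeries.coeff d γ' ∈ J) ∧
      Rs J γ' := by
  have h1 : ∀ M d, d ≤ M → ι (PowerSeries.coeff d (∑ k ∈ Finset.range M, γ k).ser) =
      PowerSeries.coeff d g.ser := fun M d hd => by
    obtain ⟨g', e⟩ := hg M
    have := (N.Cg.refl (M + 1) (zmap ι hG (∑ k ∈ Finset.range M, γ k))).add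
      (cg_pow_smul p Ch.char M g') d (by omega)
    rw [← e, add_zero, zmap_ser, PowerSeries.coeff_map] at this
    exact this.symm
  have h2 : ∀ M, ∑ k ∈ Finset.range M, γ k ∈ CS J F 0 := fun M =>
    sum_mem fun k _ => CS_anti k.zero_le (hγ k)
  refine ⟨PowerSeries.mk fun d => PowerSeries.coeff d (∑ k ∈ Finset.range d, γ k).ser,
    PowerSeries.ext fun d => ?_, fun d => ?_, fun N => ?_⟩
  · rw [PowerSeries.coeff_map, PowerSeries.coeff_mk, h1 d d le_rfl]
  · rw [PowerSeries.coeff_mk]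
    exact Ideal.pow_le_self one_ne_zero ((h2 d).1 d)
  · obtain ⟨d₀, h3⟩ := (h2 N).2 N
    refine ⟨d₀, fun d hd => ?_⟩
    have h4 : ∑ k ∈ Finset.range d, γ (N + k) ∈ CS J F N :=
      sum_mem fun k _ => CS_anti (N.le_add_right k) (hγ _)
    rw [PowerSeries.coeff_mk, hι ((h1 d d le_rfl).trans (h1 (N + d) d (by omega)).symm),
      Finset.sum_range_add]
    exact coeff_add _ _ (fun e => Ideal.pow_le_pow_right N.le_succ (h4.1 e)) (h3 d hd)

theorem par_mem {h c : ℕ} (h1 : 1 ≤ h) {x : Fin c → B} (hx : ∀ j, x j ∈ J)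
    (h0 : c = 0 → ∀ β ∈ J, β = 0) (j k w : ℕ) (β : B) (hβ : β ∈ J ^ (w + 1)) :
    par (h + c) (exh h x) j ^ p ^ k * β ^ p ^ j ∈ J ^ (w + 1 + 1) := by
  have hk := pow_pos hp.out.pos k
  have hj := pow_pos hp.out.pos j
  have hb := Ideal.pow_le_self w.succ_ne_zero hβ
  unfold par
  split_ifs with e1 e2
  · rw [pow_succ' J]
    refine Ideal.mul_mem_mul (Ideal.pow_mem_of_mem _ ?_ _ hk) (Ideal.pow_mem_of_mem _ hβ _ hj)
    unfold exh
    split_ifs
    exacts [hx _, zero_mem _]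
  · rcases j.eq_zero_or_pos with rfl | e3
    · rw [h0 (by omega) β hb, zero_pow hj.ne', mul_zero]
      exact zero_mem _
    · have e4 := Nat.one_lt_pow e3.ne' hp.out.one_lt
      obtain ⟨d, e5⟩ := Nat.exists_eq_add_of_lt e4
      rw [one_pow, one_mul, e5, pow_succ' β, pow_succ J]
      exact Ideal.mul_mem_mul hβ (Ideal.pow_mem_of_mem _ hb _ (by omega))
  · rw [zero_pow hk.ne', zero_mul]
    exact zero_mem _

end Crvs

variable (p : ℕ) [hp : Fact p.Prime] (h c : ℕ) (K U : Type) [Field K] [Pf p K] [CommRing U]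
  [Algebra (RR c K) U] [Pf p U]

open Crvs in
/-- **CRVS** -/
theorem crvs (h1 : 1 ≤ h) : CRVS p h c K U h1 := by
  rintro z ⟨B, hB, hz⟩
  have hι : Function.Injective B.val.toRingHom := Subtype.val_injective
  have : Ch p B := Ch.of_inj _ hι
  let x : Fin c → B := fun j => algebraMap (RR c K) B (MvPowerSeries.X j)
  have hG : (Fx p h x).map B.val.toRingHom = lw p (h + c) (uU p h c K U) := by
    rw [Fx_map, lw_uy]
    rfl
  have hF := N.pser p B Ch.char (par (h + c) (exh h x)) (h + c) fun i hi => by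
    rw [par, if_neg (by omega), if_neg (by omega)]
  have h0 : c = 0 → ∀ β ∈ JB (mm c K) B, β = 0 := by
    rintro rfl β ⟨N, hN⟩
    rw [show mm 0 K = ⊥ from Ideal.span_eq_bot.2 (by rintro _ ⟨i, -⟩; exact i.elim0),
      Ideal.map_bot, Ideal.mem_bot] at hN
    exact Subtype.ext (eq_zero_of_pow (p := p) (congrArg Subtype.val hN))
  have h2 := key p (J := JB (mm c K) B) B.val.toRingHom hG hF
    (par_mem p h1 (fun j => map_mem_JB _ (Ev.X_mem j)) h0)
  have h3 : ∀ k i, ∃ γ ∈ CS (JB (mm c K) B) (Fx p h x) k, zmap _ hG γ =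
      p ^ k • cv (pos_add h1 c) (uU p h c K U) (tm p (dg (z i) k) • Pi.single i 1) := fun k i => by
    have h4 := (isN_iff B ⟨_, (hz i k).1⟩).1 (hz i k).2
    have h5 := h2 k 0 i (dg (z i) k ^ p ^ (i : ℕ)) (⟨_, (hz i k).1⟩ ^ p ^ (i : ℕ))
      (by rw [zero_add, pow_one]; exact Ideal.pow_mem_of_mem _ h4 _ (pow_pos hp.out.pos _))
      (by rw [pow_right_comm, dg_pow, map_pow]; rfl)
    rw [zero_add, ← cv_single p (pos_add h1 c)] at h5
    exact h5
  choose γ hγ e using h3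
  obtain ⟨γ', h4⟩ := of_lift p _ hι hG (cv (pos_add h1 c) (uU p h c K U) z) (fun k => ∑ i, γ k i)
    (fun k => sum_mem fun i _ => hγ k i) fun M => ⟨cv (pos_add h1 c) _ fun i => dv^[M] (z i), by
      conv_lhs => rw [decomp p z M]
      simp only [map_add, map_sum, map_nsmul, e]⟩
  exact ⟨B, γ', hB, h4⟩

end P261.Ig
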