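import Vale.Agent.P261Z.Ig.Gam
import Vale.Agent.P261Z.N.Mat

/-!
# P261Z, block Ig: the series and the integral matrices of the elements of `Γ`
-/

noncomputable section

open Matrix

namespace P261.Ig

open P261.C2 UN Vale.Agent.P217 Vale.Agent.P251.F Vale.Agent.P261Z Vale.Agent.P261Z.N

variable {p : ℕ} [hp : Fact p.Prime] {K : Type} [CommRing K] [Pf p K] {h : ℕ} (hh : 1 ≤ h)

/-! ### congruences of curves in height `h` -/

theorem cv_pow (j : ℕ) (y : Fin h → WittVector p K) :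
    N.Cg ((p ^ h) ^ j) (cv hh (0 : ℕ → K) (p ^ j • y)) 0 := by
  have e : ∀ z : Cv (lw p h (0 : ℕ → K)), (p • z).ser = z.ser ^ p ^ h := fun z => by
    rw [Cv.ser_nsmul, (En.ends_p (En.pser (All.pser p) hh) (zero_mem _)).1,
      PowerSeries.subst_pow (hasSubst_of_cc z.cc), PowerSeries.subst_X (hasSubst_of_cc z.cc)]
  have e' : (p ^ j • cv hh (0 : ℕ → K) y).ser = (cv hh (0 : ℕ → K) y).ser ^ (p ^ h) ^ j := by
    induction j with
    | zero => rw [pow_zero, pow_zero, one_smul, pow_one]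
    | succ j ih => rw [pow_succ', mul_smul, e, ih, ← pow_mul, ← pow_succ]
  rw [N.cg_iff, map_nsmul, e', Cv.ser_zero, sub_zero]
  exact pow_dvd_pow_of_dvd (PowerSeries.X_dvd_iff.2 (Cv.cc _)) _

theorem mem_range {y : Fin h → WittVector p K} (h0 : (y ⟨0, hh⟩).coeff 0 = 0) :
    y ∈ (Vm (Au p h (0 : ℕ → K))).range := by
  have H := nf_std hh (0 : ℕ → K)
  rw [← (Pi.basisFun (WittVector p K) (Fin h)).sum_repr y, ← Mt.cm_bas hh]
  refine sum_mem fun i _ => ?_
  by_cases hi : (i : ℕ) = 0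
  · obtain rfl : i = ⟨0, hh⟩ := Fin.ext hi
    rw [Pi.basisFun_repr, ← p_mul_dv h0, mul_comm, mul_smul, Nat.cast_smul_eq_nsmul]
    change _ • p • e0 hh _ ∈ _
    rw [H.rel, En.nfr_zero]
    exact En.smul_mem H _ (Nat.ne_zero_of_lt hh)
  · exact En.smul_mem H _ hi

theorem exists_iter (M : ℕ) {y : Fin h → WittVector p K}
    (hy : N.Cg (p ^ M) (cv hh (0 : ℕ → K) y) 0) : ∃ z, y = (Vm (Au p h (0 : ℕ → K)))^[M] z := by
  induction M generalizing y with
  | zero => exact ⟨y, rfl⟩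
  | succ M ih =>
    obtain ⟨a, rfl⟩ := mem_range hh (y := y) ((cv_lead hh 0 y).symm.trans
      ((hy 1 (Nat.one_lt_pow M.succ_ne_zero one_lt_p)).trans (map_zero _)))
    obtain ⟨b, rfl⟩ := ih (y := a) fun i hi => by
      have := hy (p * i) (by rw [pow_succ']; exact Nat.mul_lt_mul_of_pos_left hi p_pos)
      rwa [(cv_crv hh 0).ver, En.mon_ser_one, pow_one,
        PowerSeries.coeff_subst_X_pow hp.out.ne_zero, if_pos (dvd_mul_right _ _),
        Nat.mul_div_cancel_left _ p_pos, Cv.ser_zero, map_zero, ← map_zero (PowerSeries.coeff i)]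
        at this
    exact ⟨b, (Function.iterate_succ_apply' _ _ _).symm⟩

theorem cT_cg {T : Matrix (Fin h) (Fin h) (WittVector p K)} (H : Itw (Au p h 0) T (Au p h 0))
    (j : ℕ) : (∀ d < (p ^ h) ^ j, PowerSeries.coeff d (cT hh hh 0 T) =
      PowerSeries.coeff d PowerSeries.X) ↔ ∀ a b, Cg j (T a b) ((1 : Matrix _ _ _) a b) := by
  refine ⟨fun e a b => ?_, fun e => ?_⟩
  · have e1 : N.Cg ((p ^ h) ^ j) (cv hh 0 (T *ᵥ e0 hh _)) (cv hh 0 (e0 hh _)) := by
      rw [cv_e0]; exact e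
    have e2 := e1.add (N.Cg.refl _ (-cv hh 0 (e0 hh _)))
    rw [add_neg_cancel, ← sub_eq_add_neg, ← map_sub, ← pow_mul] at e2
    obtain ⟨z, hz⟩ := exists_iter hh _ e2
    obtain ⟨w, hw⟩ := En.iter_pow (nf_std hh (0 : ℕ → K)) j z
    rw [itw_ext hh H, itw_ext hh (Mt.itw_one (Au p h (0 : ℕ → K))), one_mulVec,
      sub_eq_iff_eq_add.1 (hz.trans hw), cols, cols, of_apply, of_apply, iterate_map_add,
      iterate_map_nsmul, Pi.add_apply, Pi.smul_apply, nsmul_eq_mul, Nat.cast_pow]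
    exact Cg.iff_sub.2 (by rw [add_sub_cancel_right]; exact cg_pow_mul j _)
  · choose z hz using fun a => cg_zero_iff.1 (Cg.iff_sub.1 (e a ⟨0, hh⟩))
    have e1 : T *ᵥ e0 hh _ = e0 hh _ + p ^ j • z := funext fun a => by
      rw [Pi.add_apply, Pi.smul_apply, nsmul_eq_mul, Nat.cast_pow, ← hz, e0, mulVec_single_one,
        Matrix.one_apply, Pi.single_apply, add_sub_cancel]
      rfl
    have e2 := (N.Cg.refl _ (cv hh 0 (e0 hh _))).add (cv_pow hh j z)
    rwa [← map_add, ← e1, add_zero, cv_e0] at e2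

/-! ### the part of positive slope -/

variable {E J : Type} [Fintype E] [DecidableEq E]

/-- the rows of positive slope -/
abbrev er (X : Matrix (E ⊕ Fin h) J (WittVector p K)) : Matrix (Fin h) J (WittVector p K) :=
  X.submatrix Sum.inr id

omit [Pf p K] [DecidableEq E] in
theorem er_mul {X : MW p E h K} (hX : ∀ a b, X (.inr a) (.inl b) = 0)
    (Y : Matrix (E ⊕ Fin h) J (WittVector p K)) : er (X * Y) = X.toBlocks₂₂ * er Y :=
  Matrix.ext fun a b => by
    simp only [submatrix_apply, mul_apply, Fintype.sum_sum_type, hX, zero_mul, Finset.sum_const_zero,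
      zero_add, id, toBlocks₂₂, of_apply]

theorem er_itw [Fintype J] {X : Matrix (E ⊕ Fin h) J (WittVector p K)}
    {A : Matrix J J (WittVector p K)} (e : V0 p E h _ * X.map (si p K) = X * A) :
    Itw (Au p h 0) (er X) A := by
  have := (er_mul (fun _ _ => rfl) _).symm.trans (congrArg er e)
  rwa [V0_eq, toBlocks_fromBlocks₂₂] at this

namespace Gam

/-- the block of positive slope -/
def ee (g : Gam p E h K) : Matrix (Fin h) (Fin h) (WittVector p K) := g.mat.toBlocks₂₂

theorem ee_one : ee (1 : Gam p E h K) = 1 := by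
  rw [ee, mat_one, ← fromBlocks_one, toBlocks_fromBlocks₂₂]

theorem ee_mul (g g' : Gam p E h K) : ee (g * g') = ee g * ee g' :=
  congrArg (fun X => X.submatrix id Sum.inr) (er_mul g.inr_inl g'.mat)

theorem ee_itw (g : Gam p E h K) : Itw (Au p h 0) g.ee (Au p h 0) := by
  have := congrArg (fun X => X.submatrix id Sum.inr) (er_itw g.iso.eq)
  refine this.trans (Matrix.ext fun a b => ?_)
  simp only [submatrix_apply, mul_apply, Fintype.sum_sum_type, g.inr_inl, zero_mul,
    Finset.sum_const_zero, zero_add, id, V0_eq]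
  rfl

/-- the series of an element -/
def ser (g : Gam p E h K) : PowerSeries K := cT hh hh 0 g.ee

end Gam

theorem cT_left {k : Type} [CommRing k] [Pf p k] (ι : k →+* K) (g : Gam p E h k) {n : ℕ}
    (hn : 1 ≤ n) (X : Matrix (E ⊕ Fin h) (Fin n) (WittVector p K)) :
    cT hh hn 0 (er (mw ι g.mat * X)) = (PowerSeries.map ι (g.ser hh)).subst (cT hh hn 0 (er X)) := by
  have e : (fun i => ι ((0 : ℕ → k) i)) = 0 := funext fun _ => map_zero ι
  have H := Mt.itw_map ι g.ee_itw
  rw [Au_map, e] at H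
  rw [er_mul fun a b => by rw [mw_apply, g.inr_inl, map_zero], Gam.ser, ← cT_map, e,
    ← cT_mul hh hh hn H]
  rfl

/-! ### the part of slope zero -/

theorem cg_int_iff [Nontrivial K] {j : ℕ} {x : ℤ} :
    Cg j (x : WittVector p K) 0 ↔ (p : ℤ) ^ j ∣ x := by
  refine ⟨fun e => ?_, fun ⟨y, hy⟩ => cg_zero_iff.2 ⟨y, by rw [hy]; norm_cast⟩⟩
  have : CharP K p := Ch.charP
  induction j generalizing x with
  | zero => exact one_dvd _
  | succ j ih =>
    obtain ⟨y, rfl⟩ := (CharP.intCast_eq_zero_iff K p x).1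
      ((map_intCast (WittVector.constantCoeff : WittVector p K →+* K) x).symm.trans
        ((e 0 j.succ_pos).trans (WittVector.zero_coeff p K 0)))
    rw [pow_succ']
    refine mul_dvd_mul_left _ (ih (Cg.of_p_mul ?_))
    rwa [mul_zero, ← Int.cast_natCast, ← Int.cast_mul]

theorem cg_nat_iff [Nontrivial K] {j s t : ℕ} :
    Cg j (s : WittVector p K) t ↔ s ≡ t [MOD p ^ j] := by
  rw [Cg.iff_sub, Nat.ModEq.comm, Nat.modEq_iff_dvd, Nat.cast_pow, ← cg_int_iff (K := K),
    Int.cast_sub, Int.cast_natCast, Int.cast_natCast]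

theorem exists_nat [IsDomain K] (j : ℕ) {x : WittVector p K} (hx : si p K x = x) :
    ∃ s : ℕ, Cg j x s := by
  have : CharP K p := Ch.charP
  induction j generalizing x with
  | zero => exact ⟨0, fun i hi => absurd hi i.not_lt_zero⟩
  | succ j ih =>
    obtain ⟨a, ha⟩ := root_mem (k := ZMod p) one_lt_p (GaloisField.splits_zmod_X_pow_sub_X p)
      (ZMod.castHom dvd_rfl K) (x := x.coeff 0) (by
        conv_lhs => rw [← hx, coeff_si, rt_pow])
    have h0 : (x - (a.val : ℕ)).coeff 0 = 0 := by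
      change WittVector.constantCoeff (x - _) = 0
      rw [map_sub, map_natCast, sub_eq_zero, ← map_natCast (ZMod.castHom dvd_rfl K),
        ZMod.natCast_zmod_val, ha]
      rfl
    obtain ⟨s, hs⟩ := ih (x := dv (x - (a.val : ℕ))) (p_mul_inj (by
      conv_lhs => rw [← map_natCast (si p K) p, ← map_mul]
      rw [p_mul_dv h0, map_sub, hx, map_natCast]))
    refine ⟨p * s + a.val, ?_⟩
    have := hs.p_mul.add (Cg.refl (a.val : WittVector p K))
    rwa [p_mul_dv h0, sub_add_cancel, ← Nat.cast_mul, ← Nat.cast_add] at this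

variable [IsDomain K]

/-- the integral matrices of an element -/
def Gam.en (g : Gam p E h K) (j : ℕ) (a b : E) : ℕ := (exists_nat j (g.si_inl b a)).choose

theorem Gam.en_cg (g : Gam p E h K) (j : ℕ) (a b : E) :
    Cg j (g.mat (.inl b) (.inl a)) (g.en j a b) := (exists_nat j (g.si_inl b a)).choose_spec

theorem mem_Gs_iff (g : Gam p E h K) (j : ℕ) : g ∈ Gs p E h K j ↔
    (∀ d < (p ^ h) ^ j, PowerSeries.coeff d (g⁻¹.ser hh) = PowerSeries.coeff d PowerSeries.X) ∧
      ∀ a b, g.en j a b ≡ (if a = b then 1 else 0) [MOD p ^ j] := by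
  have e : ∀ a b : E, (((if a = b then 1 else 0 : ℕ) : WittVector p K)) =
      (1 : MW p E h K) (.inl b) (.inl a) := fun a b => by
    simp [Matrix.one_apply, eq_comm]
  have e' : ∀ a b : Fin h, (1 : MW p E h K) (.inr a) (.inr b) = (1 : Matrix _ _ _) a b :=
    fun a b => by simp [Matrix.one_apply]
  simp only [Gam.ser, cT_cg hh (Gam.ee_itw _), ← cg_nat_iff (K := K), e]
  refine ⟨fun H => ⟨fun a b => e' a b ▸ mem_Gs.1 (inv_mem H) _ _,
    fun a b => (g.en_cg j a b).symm.trans (mem_Gs.1 H _ _)⟩, fun ⟨H, H'⟩ => mem_Gs.2 ?_⟩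
  rintro (a | a) (b | b)
  · exact (g.en_cg j b a).trans (H' b a)
  · rw [g.inl_inr, Matrix.one_apply_ne Sum.inl_ne_inr]; exact Cg.refl _
  · rw [g.inr_inl, Matrix.one_apply_ne Sum.inr_ne_inl]; exact Cg.refl _
  · rw [e', ← Gam.ee_one (E := E), ← mul_inv_cancel g, Gam.ee_mul]
    change Cg j (g.ee a b) _
    conv_lhs => rw [← Matrix.mul_one g.ee]
    exact Cg.sum fun l _ => (Cg.refl _).mul (H l b).symm

end P261.Ig
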