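import Vale.Agent.P261Z.Ig.FD
import Vale.Agent.P261Z.C2.TG

/-!
# P261, block Ig: points of finite order from fixed vectors; definitions and statements
-/

set_option linter.unusedSectionVars false

noncomputable section

namespace P261.Ig

open Vale.Agent.P261Z Vale.Agent.P261Z.N Vale.Agent.P217 Vale.Agent.P251.F P261.C2 Matrix

section

variable {R U : Type} [CommRing R] [CommRing U] [Algebra R U]

/-- the coefficients tend to zero -/
def Rs (J : Ideal R) (γ : PowerSeries R) : Prop :=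
  ∀ N : ℕ, ∃ d₀, ∀ d, d₀ ≤ d → PowerSeries.coeff d γ ∈ J ^ N

/-- the series comes from a finite subalgebra, has small coefficients which tend to zero -/
def RsU (m : Ideal R) (γ : PowerSeries U) : Prop :=
  ∃ (B : Subalgebra R U) (γ' : PowerSeries B), Module.Finite R B ∧
    PowerSeries.map B.val.toRingHom γ' = γ ∧ (∀ d, PowerSeries.coeff d γ' ∈ JB m B) ∧
    Rs (JB m B) γ'

/-- `s` is the sum of the coefficients -/
def SumU (m : Ideal R) (γ : PowerSeries U) (s : U) : Prop :=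
  ∃ (B : Subalgebra R U) (γ' δ : PowerSeries B) (s' : B), Module.Finite R B ∧
    PowerSeries.map B.val.toRingHom γ' = γ ∧ (s' : U) = s ∧
    (∀ d, PowerSeries.coeff d γ' ∈ JB m B) ∧ Rs (JB m B) δ ∧
    γ' = PowerSeries.C s' + (1 - PowerSeries.X) * δ

variable {p : ℕ} [hp : Fact p.Prime]

/-- small vectors -/
def Sm (m : Ideal R) {ι : Type} (z : ι → WittVector p U) : Prop :=
  ∃ B : Subalgebra R U, Module.Finite R B ∧ ∀ i k, (z i).coeff k ∈ B ∧ IsN m ((z i).coeff k)

end

variable (p : ℕ) [hp : Fact p.Prime] (h c : ℕ) (K U : Type) [Field K] [Pf p K] [CommRing U]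
  [Algebra (RR c K) U] [Pf p U]

/-- the parameters -/
abbrev uU : ℕ → U := uy (p := p) h fun j : Fin c => algebraMap (RR c K) U (MvPowerSeries.X j)

/-- the operator -/
abbrev VU' : (Fin (h + c) → WittVector p U) →+ (Fin (h + c) → WittVector p U) :=
  Vm (Au p (h + c) (uU p h c K U))

/-- the fixed vectors -/
def Fix : AddSubgroup (Fin (h + c) → WittVector p U) :=
  (VU' p h c K U).eqLocus (AddMonoidHom.id _)

/-- matrices whose coefficients are roots of elements of the base -/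
def Rt {ι ι' : Type} (T : Matrix ι ι' (WittVector p U)) : Prop :=
  ∃ N : ℕ, ∀ i j k, ∃ r, (T i j).coeff k ^ p ^ N = algebraMap (RR c K) U r

/-- **SMP**: the small vectors -/
structure SMP (ι : Type) [Fintype ι] : Prop where
  zero : Sm (mm c K) (0 : ι → WittVector p U)
  add : ∀ z z' : ι → WittVector p U, Sm (mm c K) z → Sm (mm c K) z' → Sm (mm c K) (z + z')
  neg : ∀ z : ι → WittVector p U, Sm (mm c K) z → Sm (mm c K) (-z)
  of_p : ∀ z : ι → WittVector p U, Sm (mm c K) (p • z) → Sm (mm c K) z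
  si : ∀ z : ι → WittVector p U, Sm (mm c K) z → Sm (mm c K) fun i => si p U (z i)
  mulVec : ∀ (T : Matrix ι ι (WittVector p U)) (z : ι → WittVector p U), Rt p c K U T →
    Sm (mm c K) z → Sm (mm c K) (T *ᵥ z)
  smul : ∀ (a : U) (z : ι → WittVector p U), IsIntegral (RR c K) a → Sm (mm c K) z →
    Sm (mm c K) (tm p a • z)
  map : ∀ (φ : RR c K →+* RR c K) (Φ : U →+* U),
    (∀ r, Φ (algebraMap (RR c K) U r) = algebraMap (RR c K) U (φ r)) →
    (∀ r ∈ mm c K, φ r ∈ (mm c K).radical) → ∀ z : ι → WittVector p U, Sm (mm c K) z →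
      Sm (mm c K) fun i => wm p Φ (z i)
  tm : ∀ a : ι → U, (∀ i, IsN (mm c K) (a i)) → Sm (mm c K) fun i => tm p (a i)
  trunc : ∀ z : ι → WittVector p U, (∀ i k, IsN (mm c K) ((z i).coeff k)) → ∀ L : ℕ,
    ∃ y, Sm (mm c K) (z - p ^ L • y)

/-- **SMV**: the operator preserves small vectors -/
def SMV : Prop := ∀ z : Fin (h + c) → WittVector p U, Sm (mm c K) z → Sm (mm c K) (VU' p h c K U z)

/-- **FIXI**: fixed vectors have small digits -/
def FIXI : Prop := ∀ ε ∈ Fix p h c K U, ∀ i k, IsN (mm c K) ((ε i).coeff k)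

/-- **ONE**: the first level -/
def ONE (h1 : 1 ≤ h) : Prop := ∀ ε ∈ Fix p h c K U,
  ∃ (ζ : U) (y z : Fin (h + c) → WittVector p U), IsN (mm c K) ζ ∧
    (∀ i, ζ ∣ (ε i).coeff 0) ∧ Sm (mm c K) (ε - p • y) ∧ Sm (mm c K) z ∧
    y - VU' p h c K U y = tm p ζ • (e0 (pos_add h1 c) _ + z)

/-- **CRVS**: the curves of small vectors can be summed -/
def CRVS (h1 : 1 ≤ h) : Prop := ∀ z : Fin (h + c) → WittVector p U, Sm (mm c K) z →
  RsU (mm c K) (cv (pos_add h1 c) (uU p h c K U) z).ser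

/-- **PTS**: the points of finite order -/
structure PTS (h1 : 1 ≤ h) where
  /-- the point of order `p ^ L` of a fixed vector -/
  P : ℕ → Fix p h c K U →+ PtR p h c K U
  zero : ∀ ε, P 0 ε = 0
  succ : ∀ L ε, p • P (L + 1) ε = P L ε
  nat : ∀ (φ : RR c K →+* RR c K) (Φ : U →+* U),
    (∀ r, Φ (algebraMap (RR c K) U r) = algebraMap (RR c K) U (φ r)) →
    (∀ r ∈ mm c K, φ r ∈ (mm c K).radical) →
    ∀ (T : Matrix (Fin (h + c)) (Fin (h + c)) (WittVector p U)) (s : PowerSeries (RR c K)),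
    Rt p c K U T → Itw (Au p (h + c) (uU p h c K U)) T (Au p (h + c) fun i => Φ (uU p h c K U i)) →
    PowerSeries.constantCoeff s = 0 →
    cT (pos_add h1 c) (pos_add h1 c) (uU p h c K U) T = PowerSeries.map (algebraMap (RR c K) U) s →
    ∀ (L : ℕ) (ε ε' : Fix p h c K U), (T *ᵥ fun i => wm p Φ (ε.1 i)) = ε'.1 →
      (P L ε').val = evO1 (mm c K) (Φ (P L ε).val) s
  unit : ∀ ε : Fix p h c K U, Ideal.span (Set.range fun i => (ε.1 i).coeff 0) = ⊤ →
    IsUnit (P 1 ε).val

end P261.Ig
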