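import Vale.Agent.P261Z.Ig.Model
import Vale.Agent.P261Z.Ig.Ff
import Vale.Agent.P261Z.Ig.PSk
import Vale.Agent.P261Z.Top.Spec2

/-!
# P261Z, block Ig: the formal data of the concrete model
-/

set_option linter.unusedSectionVars false

noncomputable section

open Matrix MvPowerSeries

namespace P261.Ig

open P261.C2 UN Vale.Agent.P217 Vale.Agent.P251.F Vale.Agent.P261Z Vale.Agent.P261Z.N

variable {p : ℕ} [hp : Fact p.Prime] {h c : ℕ} {K : Type} [Field K] [Pf p K] (h1 : 1 ≤ h)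
  (hc : 0 < c)

theorem uu_lt (i : ℕ) (hi : i < h) : uu p h c K i = 0 := by
  rw [uu, exh_lt _ hi, map_zero, map_zero]

theorem uu_pow : uu p h c K h ^ p ^ h = algebraMap (RR c K) _ (vR K hc) :=
  (rt_pow_pp _ _).trans (congrArg _ (exh_add h X ⟨0, hc⟩))

theorem oA_uu_pow : oA p h c K (uu p h c K h) ^ p ^ h = algebraMap (RR c K) _ (vR K hc) := by
  rw [← map_pow, uu_pow hc, alg_eq]

variable (p c K) in
/-- the parameters over the big ring -/
abbrev uA (i : ℕ) : AA p h c K := oA p h c K (uu p h c K i)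

theorem isoA : Iso (V0 p (Fin c) h _) (Au p (h + c) (uA p c K)) (muA p h c K) (nuA p h c K) := by
  rw [← mw_Au]; exact iso _ _ _

theorem lw_uA : lw p (h + c) (uA p c K) = (FR p h c K).map (algebraMap _ (AA p h c K)) := by
  rw [FR, Fx_map, ← lw_uy]
  exact congrArg _ (uu_map _)

theorem lw_zero (S : Type) [CommRing S] [Pf p S] : lw p h (0 : ℕ → S) = HL p h S :=
  congrArg (hzn p h) (funext fun i => zero_pow (pow_pos p_pos i).ne')

include h1 hc in
theorem alg_inj : Function.Injective (algebraMap (RR c K) (AA p h c K)) := by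
  refine (injective_iff_map_eq_zero _).2 fun r hr => PH.of_injective (p := p) ?_
  have e := of_eq_zero h1 hc uu_lt ((alg_eq p h c K r).symm.trans hr)
  rw [map_zero]
  refine eq_zero_of_pow (N := p ^ h) (PH.regular (vR K hc)
    (fun a ha => (mul_eq_zero.1 ha).resolve_left fun e => one_ne_zero
      ((coeff_index_single_self_X _).symm.trans ((congrArg _ e).trans (map_zero _)))) _ ?_)
  rw [← uu_pow (h := h) hc, ← mul_pow, e, zero_pow (pow_pos p_pos h).ne']

variable (p K) in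
/-- the first parameter as a unit -/
def vA : (AA p h c K)ˣ := ((vu_UN h1 hc uu_lt).1.pow (p ^ h)).unit

theorem vA_eq : (vA p K h1 hc : AA p h c K) = algebraMap (RR c K) _ (vR K hc) := oA_uu_pow hc

theorem gam_inv [IsAlgClosed K] (z : AA p h c K) (hz : ∀ g, gam p h c K g z = z) :
    ∃ (k N : ℕ) (r : RR c K),
      (vA p K h1 hc : AA p h c K) ^ N * z ^ p ^ k = algebraMap (RR c K) _ r := by
  obtain ⟨N, a, e⟩ := inv (kap p c K) h1 hc uu_lt (IsAlgClosed.splits _) hz
  obtain ⟨k, r, hr⟩ := PH.exists_pow a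
  refine ⟨k + h, N * p ^ k, r ^ p ^ h, ?_⟩
  rw [map_pow, alg_eq _ _ _ _ r, ← hr, map_pow, ← e, vA_eq, ← oA_uu_pow hc, pow_add]
  ring

variable (p c K) in
/-- the isomorphism with the law of height `h` -/
def ff : PowerSeries (AA p h c K) := cT h1 (pos_add h1 c) 0 (er (muA p h c K))

theorem ff_hom : IsHom ((FR p h c K).map (algebraMap (RR c K) (AA p h c K))).toFG
    (HL p h _).toFG (ff p c K h1) := by
  rw [← lw_uA, ← lw_zero]
  exact cT_hom _ _ (er_itw isoA.eq)

include hc in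
theorem ff_unit : IsUnit (PowerSeries.coeff 1 (ff p c K h1)) := by
  rw [ff, cT_lead]
  exact (vu_UN h1 hc uu_lt).2.2.2 _ _ rfl rfl

theorem map_ff (φ : AA p h c K →+* AA p h c K) : PowerSeries.map φ (ff p c K h1) =
    cT h1 (pos_add h1 c) 0 (er (mw φ (muA p h c K))) := by
  rw [ff, ← cT_map, show (fun i => φ ((0 : ℕ → _) i)) = 0 from funext fun _ => map_zero φ]
  rfl

theorem gam_ff (g : Gam p (Fin c) h K) :
    PowerSeries.map (gam p h c K g : AA p h c K →+* _) (ff p c K h1) =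
      (PowerSeries.map ((algebraMap (RR c K) (AA p h c K)).comp C) (g⁻¹.ser h1)).subst
        (ff p c K h1) := by
  rw [map_ff, gam_coe, act_mu, cT_left]
  rfl

theorem cen_ff (s : ℕ) :
    PowerSeries.map (gam p h c K (cen p _ h K s) : AA p h c K →+* _) (ff p c K h1) =
      ff p c K h1 := by
  have e : (cen p (Fin c) h K s)⁻¹.ee = 1 := by
    by_cases hs : s % p = 1
    · rw [Gam.ee, cen_inv_mat hs, Th, toBlocks_fromBlocks₂₂]
    · rw [cen_ne hs, inv_one, Gam.ee_one]
  rw [gam_ff, Gam.ser, e, cT_one, PowerSeries.map_X]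
  exact PowerSeries.subst_X (hasSubst_of_cc (cT_cc _ _))

variable {G : Type} [Group G] [TopologicalSpace G] {A : RG p h c G K} {h1} (Θ : TGd A h1)

theorem T_crvA (g : G) : cT (pos_add h1 c) (pos_add h1 c) (uA p c K) (mw (oA p h c K) (Θ.T g)) =
    PowerSeries.map (algebraMap (RR c K) _) (A.ser g).val :=
  (cT_map _ _ _).trans ((congrArg _ (Θ.T_crv g)).trans (PowerSeries.ext fun _ => rfl))

theorem Phi_ff (g : G) : PowerSeries.map (Phi Θ g) (ff p c K h1) =
    (ff p c K h1).subst (PowerSeries.map (algebraMap (RR c K) (AA p h c K)) (A.ser g).val) := by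
  rw [map_ff, Phi_mu, ← T_crvA Θ]
  exact cT_mul h1 (pos_add h1 c) (pos_add h1 c) (er_itw isoA.eq) (mw (oA p h c K) (Θ.T g))

/-! ### the points -/

theorem uA_eq : uA p c K = uU p h c K (AA p h c K) := uu_map _

variable (p h K) in
/-- the fixed vectors -/
def ep (i : Fin c) : Fix p h c K (AA p h c K) :=
  ⟨fun a => nuA p h c K a (.inl i), funext fun a => by
    have := congrFun (congrFun (isoA (p := p) (h := h) (c := c) (K := K)).symm.eq a) (.inl i)
    rw [uA_eq] at this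
    refine this.trans ?_
    simp [V0, Matrix.mul_apply, Matrix.one_apply]⟩

section

variable {U : Type} [CommRing U] [Algebra (RR c K) U] [Pf p U] (Q : PTS p h c K U h1)

theorem smul_fix {w : WittVector p U} (hw : si p U w = w) (ε : Fix p h c K U) :
    w • ε.1 ∈ Fix p h c K U :=
  (Mt.Vm_smul _ w ε.1).trans (congrArg₂ (· • ·) hw ε.2)

theorem PTS.tor (L : ℕ) (ε : Fix p h c K U) : p ^ L • Q.P L ε = 0 := by
  induction L with
  | zero => rw [Q.zero, nsmul_zero]
  | succ L ih => rw [pow_succ, mul_smul, Q.succ, ih]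

theorem PTS.smul {w : WittVector p U} (hw : si p U w = w) {L s : ℕ} (hs : Cg L w s)
    (ε : Fix p h c K U) : Q.P L ⟨_, smul_fix hw ε⟩ = s • Q.P L ε := by
  obtain ⟨y, hy⟩ := cg_zero_iff.1 (Cg.iff_sub.1 hs)
  have h2 : si p U y = y := pow_mul_inj L (by
    have := congrArg (si p U) hy
    rwa [map_sub, hw, map_natCast, hy, map_mul, map_pow, map_natCast, eq_comm] at this)
  have : (⟨_, smul_fix hw ε⟩ : Fix p h c K U) = p ^ L • ⟨_, smul_fix h2 ε⟩ + s • ε :=
    Subtype.ext (by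
      change w • ε.1 = p ^ L • y • ε.1 + s • ε.1
      rw [sub_eq_iff_eq_add.1 hy, add_smul, mul_smul, ← Nat.cast_pow, Nat.cast_smul_eq_nsmul,
        Nat.cast_smul_eq_nsmul])
  rw [this, map_add, map_nsmul, map_nsmul, Q.tor, zero_add]

end

variable (Q : PTS p h c K (AA p h c K) h1)

theorem gam_P (g : Gam p (Fin c) h K) (L : ℕ) (i : Fin c) (s : Fin c → ℕ)
    (hs : ∀ l, Cg L (g.mat (.inl l) (.inl i)) (s l)) :
    Pt.mapA (gam p h c K g) (Q.P L (ep p h K i)) = ∑ l, s l • Q.P L (ep p h K l) := by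
  let ι := (oA p h c K).comp (kap p c K)
  have hw : ∀ l, si p _ (wm p ι (g.mat (.inl l) (.inl i))) = wm p ι (g.mat (.inl l) (.inl i)) :=
    fun l => by rw [← wm_si, g.si_inl]
  have e := Q.nat (RingHom.id _) (act (kap p c K) _ g) (gam p h c K g).commutes
    (fun _ hr => Ideal.le_radical hr) 1 PowerSeries.X
    ⟨0, fun a b l => ⟨((1 : Matrix _ _ (WittVector p _)) a b).coeff l, by
      rw [pow_zero, pow_one, ← mw_coeff, mw_one]⟩⟩ (by
      simp only [← uA_eq, act_of]; exact Mt.itw_one _)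
    PowerSeries.constantCoeff_X (by rw [cT_one, PowerSeries.map_X]) L (ep p h K i)
    (∑ l, ⟨_, smul_fix (hw l) (ep p h K l)⟩) (by
      rw [one_mulVec, AddSubmonoidClass.coe_finsetSum]
      funext a
      refine (congrFun (congrFun (act_nu (kap p c K) _ g) a) (.inl i)).trans ?_
      simp only [Matrix.mul_apply, Fintype.sum_sum_type, mw_apply, g.inr_inl, map_zero, zero_mul,
        Finset.sum_const_zero, add_zero, Finset.sum_apply, Pi.smul_apply, smul_eq_mul, mul_comm]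
      rfl)
  rw [map_sum, Finset.sum_congr rfl fun l _ =>
    Q.smul (hw l) (by simpa only [map_natCast] using (hs l).map ι) _] at e
  exact Pt.ext ((evO1_X (Pt.mapA (gam p h c K g) _).isN).symm.trans e.symm)

theorem cen_P {s : ℕ} (hs : s % p = 1) (L : ℕ) (i : Fin c) :
    Pt.mapA (gam p h c K (cen p _ h K s)) (Q.P L (ep p h K i)) = s • Q.P L (ep p h K i) := by
  rw [gam_P Q _ L i (fun l => if l = i then s else 0) fun l => by
    simp [cen_mat hs, Th, Matrix.one_apply, Cg.refl]]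
  simp

theorem Phi_P (g : G) (L : ℕ) (i : Fin c) :
    evO1 (mm c K) (Phi Θ g (Q.P L (ep p h K i)).val) (A.ser g).val = (Q.P L (ep p h K i)).val := by
  refine (Q.nat (A.ph g) (Phi Θ g) (Phi_alg Θ g) (fun r hr => Ideal.le_radical
    (Un.map_mem (A.ph g) (fun j => Ev.mem_IX.2 (A.phi_X g j)) (Ev.mem_IX.1 hr)))
    (mw (oA p h c K) (Θ.T g)) _ ⟨Θ.N, fun a b l => ⟨(Θ.th g a b).coeff l, ?_⟩⟩ ?_ (A.ser g).cc
    (by rw [← uA_eq]; exact T_crvA Θ g) L _ _ (funext fun a => ?_)).symm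
  · rw [mw_coeff, TGd.T, up_coeff, ← map_pow, rt_pow_pp, alg_eq]
  · have := Mt.itw_map (oA p h c K) (Θ.T_itw g)
    simp only [Au_map, ← Phi_of Θ] at this
    rw [← uA_eq]
    exact this
  · have := congrArg (fun X => (mw (oA p h c K) (Θ.T g) * X) a (.inl i)) (Phi_nu Θ g)
    simp only [← Matrix.mul_assoc, ← mw_mul, Θ.T_inv, mw_one, Matrix.one_mul] at this
    exact this

include hc in
theorem P_unit (l : Fin c → ℕ) (hl : ∃ i, ¬p ∣ l i) :
    IsUnit (∑ i, l i • Q.P 1 (ep p h K i)).val := by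
  simp only [← map_nsmul, ← map_sum]
  refine Q.unit _ ?_
  obtain ⟨i, hi⟩ := hl
  obtain ⟨M, hM⟩ := (vu_UN h1 hc (uu_lt (p := p) (K := K))).2.1.exists_left_inv
  have e := congrFun (congrArg (· *ᵥ fun i => (l i : AA p h c K)) hM) i
  simp only [one_mulVec, ← mulVec_mulVec] at e
  obtain ⟨y, hy⟩ := (Nat.isCoprime_iff_coprime.2 ((hp.out.coprime_iff_not_dvd).2 hi)).map
    (Int.castRingHom (AA p h c K))
  obtain ⟨z, hz⟩ := hy
  simp only [map_natCast, Ch.char, mul_zero, zero_add] at hz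
  refine Ideal.eq_top_of_isUnit_mem _ ?_ (IsUnit.of_mul_eq_one_right _ hz)
  rw [← e, mulVec, dotProduct]
  refine Ideal.sum_mem _ fun a _ => Ideal.mul_mem_left _ _
    (Ideal.subset_span (Set.mem_range.2 ⟨Fin.natAdd h a, ?_⟩))
  change WittVector.constantCoeff _ = _
  simp only [AddSubmonoidClass.coe_finsetSum, Finset.sum_apply, map_sum, AddSubgroup.coe_nsmul,
    Pi.smul_apply, map_nsmul]
  exact Finset.sum_congr rfl fun x _ => (nsmul_eq_mul _ _).trans (mul_comm _ _)

/-- the formal data -/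
def fd [IsAlgClosed K] : FD A hc (AA p h c K) (Gam p (Fin c) h K) where
  hh := by omega
  inj := alg_inj h1 hc
  v := vA p K h1 hc
  v_eq := vA_eq h1 hc
  ga := gam p h c K
  Gs := Gs p (Fin c) h K
  Gs_zero := Gs_zero
  Gs_anti _ _ := Gs_anti
  Gs_normal _ := inferInstance
  Gs_index := ⟨(p ^ h) ^ ((Fintype.card (Fin c) + h) * (Fintype.card (Fin c) + h)), fun j =>
    ⟨(index_Gs h1 j).1.index_ne_zero, by rw [← pow_mul _ _ j, mul_assoc]; exact (index_Gs h1 j).2⟩⟩
  smooth := smooth _ _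
  inv := gam_inv h1 hc
  gg := Phi Θ
  gg_alg := Phi_alg Θ
  comm := Phi_gam Θ
  f := ff p c K h1
  f_hom := ff_hom h1
  f_unit := ff_unit h1 hc
  gg_f := Phi_ff Θ
  P L i := Q.P L (ep p h K i)
  P_zero _ := Q.zero _
  P_succ L _ := Q.succ L _
  P_unit := P_unit hc Q
  gg_P := Phi_P Θ Q
  eg g := g⁻¹.ser h1
  en := Gam.en
  eg_zero _ := cT_cc _ _
  ga_f := gam_ff h1
  ga_P g L i := gam_P Q g L i _ (g.en_cg L i)
  mem_Gs := mem_Gs_iff h1
  a := cen p (Fin c) h K
  a_comm := cen_comm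
  a_one := cen_one
  a_mul _ _ := cen_mul
  a_f := cen_ff h1
  a_P _ hs := cen_P Q hs

variable (p) in
theorem stFD_of (H : ∀ (h c : ℕ) (h1 : 1 ≤ h), 0 < c → ∀ (K : Type) [Field K] [Pf p K],
    Nonempty (PTS p h c K (AA p h c K) h1)) : Top.StFD p :=
  fun h c h1 hc _ _ _ K _ _ _ _ Θ => (H h c h1 hc K).elim fun Q => ⟨fd hc Θ Q, rfl, rfl, rfl, rfl⟩

end P261.Ig
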