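import Vale.Agent.P261Z.Ig.PSk
import Vale.Agent.P261Z.C2.Nfe

/-!
# P261, block Ig: the digits of fixed vectors, the first level
-/

set_option linter.unusedSectionVars false

noncomputable section

namespace P261.Ig

open Vale.Agent.P261Z Vale.Agent.P261Z.N P261.C2 Matrix Polynomial

namespace Fx

section

variable {p : ℕ} [hp : Fact p.Prime] {R U : Type} [CommRing R] [CommRing U] [Algebra R U]
  {m : Ideal R}

/-- all coefficients are small -/
def WN (m : Ideal R) (x : WittVector p U) : Prop := ∀ k, IsN m (x.coeff k)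

variable (p R U) in
/-- all coefficients are integral -/
def WO : Subring (WittVector p U) := (wm p (integralClosure R U).val.toRingHom).range

theorem wn_iff {x : WittVector p U} : WN m x ↔ ∃ y : WittVector p (integralClosure R U),
    Cq (JB m (integralClosure R U)) y 0 ∧ wm p (integralClosure R U).val.toRingHom y = x :=
  ⟨fun h => ⟨WittVector.mk p fun k => ⟨_, (h k).1⟩, wi_iff.1 fun k => (h k).2, rfl⟩,
    fun ⟨y, h, e⟩ k => e ▸ ⟨(y.coeff k).2, wi_iff.2 h k⟩⟩

theorem WN.zero : WN m (0 : WittVector p U) := fun k => by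
  rw [WittVector.zero_coeff]; exact IsN.zero

theorem WN.add {x y : WittVector p U} (hx : WN m x) (hy : WN m y) : WN m (x + y) := by
  obtain ⟨x, h1, rfl⟩ := wn_iff.1 hx
  obtain ⟨y, h2, rfl⟩ := wn_iff.1 hy
  exact wn_iff.2 ⟨x + y, by simpa using h1.add h2, map_add _ _ _⟩

theorem WN.sub {x y : WittVector p U} (hx : WN m x) (hy : WN m y) : WN m (x - y) := by
  obtain ⟨x, h1, rfl⟩ := wn_iff.1 hx
  obtain ⟨y, h2, rfl⟩ := wn_iff.1 hy
  exact wn_iff.2 ⟨x - y, by simpa using h1.sub h2, map_sub _ _ _⟩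

theorem WN.mul {x y : WittVector p U} (hx : x ∈ WO p R U) (hy : WN m y) : WN m (x * y) := by
  obtain ⟨x, rfl⟩ := hx
  obtain ⟨y, h2, rfl⟩ := wn_iff.1 hy
  exact wn_iff.2 ⟨x * y, by simpa using (Cq.refl x).mul h2, map_mul _ _ _⟩

theorem WN.tm {a : U} (ha : IsN m a) : WN m (tm p a) := by
  rintro (_ | k)
  · exact ha
  · rw [WittVector.teichmuller_coeff_pos p a _ k.succ_pos]; exact IsN.zero

theorem tm_mem {a : U} (ha : IsIntegral R a) : tm p a ∈ WO p R U :=
  ⟨tm p ⟨a, ha⟩, WittVector.map_teichmuller p _ _⟩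

variable [Pf p U]

theorem isN_rt {a : U} (ha : IsN m a) : IsN m (rt p U a) := IsN.of_pow p_pos (by rwa [rt_pow])

theorem WN.V {n : ℕ} {u : ℕ → U} (hu : ∀ i, IsN m (u i)) {y : Fin n → WittVector p U}
    (hy : ∀ i, WN m (y i)) (i : Fin n) : WN m (Vm (Au p n u) y i) := by
  refine Finset.sum_induction _ (WN m) (fun _ _ => WN.add) WN.zero fun j _ =>
    WN.mul ?_ fun k => isN_rt (hy j k)
  simp only [Au, Cm, Matrix.of_apply]
  split_ifs
  exacts [one_mem _, natCast_mem _ _, neg_mem (tm_mem (hu _).int), zero_mem _]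

theorem WN.of_p {x : WittVector p U} (h : WN m ((p : WittVector p U) * x)) : WN m x := fun k =>
  IsN.of_pow p_pos (by rw [← coeff_p_mul_succ]; exact h _)

variable {d : ℕ} {u : ℕ → U}

theorem V_zero (y : Fin (d + 1) → WittVector p U) :
    Vm (Au p (d + 1) u) y 0 = p * si p U (y (Fin.last d)) := by
  rw [Vm_apply, Au, Nfe.cm_mulVec]
  simp [mul_comm]

theorem V_succ (y : Fin (d + 1) → WittVector p U) (i : Fin d) :
    Vm (Au p (d + 1) u) y i.succ =
      si p U (y i.castSucc) - si p U (y (Fin.last d)) * tm p (u (i + 1)) := by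
  rw [Vm_apply, Au, Nfe.cm_mulVec]
  simp [Fin.init, sub_eq_add_neg]

theorem V_succ_coeff (y : Fin (d + 1) → WittVector p U) (i : Fin d) :
    (Vm (Au p (d + 1) u) y i.succ).coeff 0 =
      rt p U ((y i.castSucc).coeff 0) - rt p U ((y (Fin.last d)).coeff 0) * u (i + 1) := by
  rw [V_succ, ← WittVector.constantCoeff_apply, map_sub, map_mul]
  rfl

/-- the first digits -/
theorem digit (hu : ∀ i, IsN m (u i)) {a r : Fin (d + 1) → U} (hr : ∀ i, IsN m (r i))
    (h0 : a 0 = r 0) (h1 : ∀ i : Fin d,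
      a i.succ = rt p U (a i.castSucc) - rt p U (a (Fin.last d)) * u (i + 1) + r i.succ) (i) :
    IsN m (a i) := by
  rcases subsingleton_or_nontrivial U with hs | hs
  · exact Subsingleton.elim 0 (a i) ▸ IsN.zero
  have h2 : ∀ i : Fin d, rt p U (a i.castSucc) =
      a i.succ + (u (i + 1) * rt p U (a (Fin.last d)) + -r i.succ) := fun i => by
    rw [h1]; ring
  have h3 : ∀ i, ∃ P : (integralClosure R U)[X], P.Monic ∧ 2 ≤ P.natDegree ∧
      aeval (rt p U (a (Fin.last d))) P = a i := by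
    intro i
    induction i using Fin.reverseInduction with
    | last => exact ⟨X ^ p, monic_X_pow p, by rw [natDegree_X_pow]; exact hp.out.two_le, by simp⟩
    | cast i ih =>
      obtain ⟨P, hP, hd, e⟩ := ih
      have h4 : (C ⟨_, (hu (i + 1)).int⟩ * X + C ⟨_, (hr i.succ).neg.int⟩ :
          (integralClosure R U)[X]).natDegree < P.natDegree := natDegree_linear_le.trans_lt hd
      have h5 := hP.add_of_left (degree_lt_degree h4)
      refine ⟨_, h5.pow p, ?_, ?_⟩
      · rw [h5.natDegree_pow, natDegree_add_eq_left_of_natDegree_lt h4]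
        exact hd.trans (Nat.le_mul_of_pos_left _ p_pos)
      · rw [← rt_pow (p := p) (a i.castSucc), h2, map_pow, map_add, e, map_add, map_mul, aeval_C,
          aeval_C, aeval_X]
        rfl
  have h4 : IsIntegral R (rt p U (a (Fin.last d))) := by
    obtain ⟨P, hP, hd, e⟩ := h3 0
    refine isIntegral_trans (A := integralClosure R U) _ ⟨P - C ⟨_, (hr 0).int⟩,
      hP.sub_of_left (degree_lt_degree (by rw [natDegree_C]; omega)), ?_⟩
    rw [← aeval_def, map_sub, e, aeval_C, h0]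
    exact sub_self _
  induction i using Fin.induction with
  | zero => exact h0 ▸ hr 0
  | succ i ih => exact h1 i ▸ ((isN_rt ih).sub ((hu _).mul_left h4)).add (hr _)

theorem V_split {n : ℕ} (A : Matrix (Fin n) (Fin n) (WittVector p U))
    (ε : Fin n → WittVector p U) (i : Fin n) :
    (p : WittVector p U) * ((dv (ε i)) - Vm A (fun j => dv (ε j)) i) =
      ε i - Vm A ε i - (tm p ((ε i).coeff 0) - Vm A (fun j => tm p ((ε j).coeff 0)) i) := by
  have e : ε = (fun j => tm p ((ε j).coeff 0)) + p • fun j => dv (ε j) := funext fun j => by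
    rw [Pi.add_apply, Pi.smul_apply, nsmul_eq_mul, tm_add_dv]
  have e1 := congrFun (congrArg (Vm A) e) i
  rw [map_add, map_nsmul, Pi.add_apply, Pi.smul_apply, nsmul_eq_mul] at e1
  linear_combination tm_add_dv (ε i) + e1

theorem small (hu : ∀ i, IsN m (u i)) (k : ℕ) : ∀ ε : Fin (d + 1) → WittVector p U,
    (∀ i, WN m (ε i - Vm (Au p (d + 1) u) ε i)) → ∀ i, IsN m ((ε i).coeff k) := by
  have h0 : ∀ ε : Fin (d + 1) → WittVector p U, (∀ i, WN m (ε i - Vm (Au p (d + 1) u) ε i)) →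
      ∀ i, IsN m ((ε i).coeff 0) := fun ε hε =>
    digit hu (fun i => hε i 0) (by
      rw [V_zero, ← WittVector.constantCoeff_apply (_ - _), map_sub,
        WittVector.constantCoeff_apply, WittVector.constantCoeff_apply, coeff_p_mul_zero,
        sub_zero]) fun i => by
      rw [← WittVector.constantCoeff_apply (_ - _), map_sub, WittVector.constantCoeff_apply,
        WittVector.constantCoeff_apply, V_succ_coeff]
      ring
  induction k with
  | zero => exact h0
  | succ k ih =>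
    intro ε hε i
    have h1 : ∀ j, WN m (tm p ((ε j).coeff 0)) := fun j => WN.tm (h0 ε hε j)
    have h2 := (ih (fun j => dv (ε j)) (fun j => WN.of_p (by
      rw [V_split]
      exact (hε j).sub ((h1 j).sub (WN.V hu h1 j)))) i).pow (p_pos (p := p))
    rwa [coeff_dv, rt_pow] at h2

theorem factor (hu : ∀ i, IsN m (u i)) {a : Fin (d + 1) → U} (hζ : IsN m (a (Fin.last d)))
    (h1 : ∀ i : Fin d,
      a i.succ = rt p U (a i.castSucc) - rt p U (a (Fin.last d)) * u (i + 1)) (i) :
    ∃ b, IsN m b ∧ a i = rt p U (a (Fin.last d)) * b := by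
  obtain ⟨q, hq⟩ : ∃ q, p = q + 2 := ⟨p - 2, (Nat.sub_add_cancel hp.out.two_le).symm⟩
  have h2 : ∀ x : U, x ^ p = x * x ^ (q + 1) := fun x => by
    rw [← pow_succ']
    exact congrArg _ hq
  have h3 := (isN_rt (p := p) hζ).pow q.succ_pos
  induction i using Fin.reverseInduction with
  | last => exact ⟨_, h3, by rw [← h2, rt_pow]⟩
  | cast i ih =>
    obtain ⟨b, hb, e⟩ := ih
    refine ⟨_, h3.mul_right ((hb.add (hu (i + 1))).int.pow p), ?_⟩
    rw [← mul_assoc, ← h2, ← mul_pow, mul_add, ← e, h1, sub_add_cancel, rt_pow]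

end

variable {p : ℕ} [hp : Fact p.Prime] {c : ℕ} {K U : Type} [Field K] [Pf p K] [CommRing U]
  [Algebra (RR c K) U] [Pf p U]

theorem isN_u (h i : ℕ) : IsN (mm c K) (uU p h c K U i) := by
  refine IsN.of_pow (pow_pos (p_pos (p := p)) i) ?_
  rw [uU, uy, rt_pow_pp, exh]
  split_ifs
  exacts [IsN.of_mem (Ev.X_mem _), IsN.zero]

theorem one_gen {n : ℕ} (hn : 1 ≤ n) {u : ℕ → U} (hu : ∀ i, IsN (mm c K) (u i))
    (hS : SMP p c K U (Fin n)) {ε : Fin n → WittVector p U} (hε : Vm (Au p n u) ε = ε)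
    (hN : ∀ i, IsN (mm c K) ((ε i).coeff 0)) :
    ∃ (ζ : U) (y z : Fin n → WittVector p U), IsN (mm c K) ζ ∧
      (∀ i, ζ ∣ (ε i).coeff 0) ∧ Sm (mm c K) (ε - p • y) ∧ Sm (mm c K) z ∧
      y - Vm (Au p n u) y = tm p ζ • (e0 hn _ + z) := by
  obtain ⟨d, rfl⟩ : ∃ d, n = d + 1 := ⟨n - 1, by omega⟩
  have h0 : (ε 0).coeff 0 = 0 := by rw [← hε, V_zero, coeff_p_mul_zero]
  have h1 : ∀ i : Fin d, (ε i.succ).coeff 0 = rt p U ((ε i.castSucc).coeff 0) -
      rt p U ((ε (Fin.last d)).coeff 0) * u (i + 1) := fun i => by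
    rw [← V_succ_coeff, hε]
  choose b hb e using factor (a := fun i => (ε i).coeff 0) hu (hN _) h1
  let b' : Fin (d + 1) → U := Fin.cons 0 fun i => b i.succ
  let u' : Fin (d + 1) → U := Fin.cons 0 fun i => u (i + 1)
  have hb' : ∀ i, IsN (mm c K) (b' i) := Fin.cases IsN.zero fun i => hb _
  have hu' : ∀ i, IsN (mm c K) (u' i) := Fin.cases IsN.zero fun i => hu _
  let w : Fin (d + 1) → WittVector p U := fun i => tm p (b' i + u' i) + -tm p (u' i) + -tm p (b' i)
  have hw : ∀ i, (p : WittVector p U) * dv (w i) = w i := fun i => p_mul_dv (by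
    rw [← WittVector.constantCoeff_apply, map_add, map_add, map_neg, map_neg]
    change b' i + u' i + -u' i + -b' i = 0
    ring)
  refine ⟨rt p U ((ε (Fin.last d)).coeff 0), fun i => dv (ε i), fun i => dv (w i), isN_rt (hN _),
    fun i => ⟨b i, e i⟩, ?_, hS.of_p _ ?_, funext fun i => p_mul_inj ?_⟩
  · rw [show ε - (p • fun i => dv (ε i)) = fun i => tm p ((ε i).coeff 0) from funext fun i => by
      rw [Pi.sub_apply, Pi.smul_apply, nsmul_eq_mul, sub_eq_iff_eq_add, tm_add_dv]]
    exact hS.tm _ hN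
  · rw [show (p • fun i => dv (w i)) = w from funext fun i => by
      rw [Pi.smul_apply, nsmul_eq_mul, hw]]
    exact hS.add _ _ (hS.add _ _ (hS.tm _ fun i => (hb' i).add (hu' i)) (hS.neg _ (hS.tm _ hu')))
      (hS.neg _ (hS.tm _ hb'))
  · rw [Pi.sub_apply, V_split, hε, Pi.smul_apply, Pi.add_apply, smul_eq_mul, mul_left_comm, mul_add,
      hw]
    refine Fin.cases ?_ (fun i => ?_) i
    · rw [V_zero, h0, si_tm]
      simp [w, b', u', e0, mul_comm]
    · have e1 : rt p U ((ε i.castSucc).coeff 0) =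
          rt p U ((ε (Fin.last d)).coeff 0) * (b i.succ + u (i + 1)) := by
        rw [mul_add, ← e, h1, sub_add_cancel]
      have e2 : e0 hn (WittVector p U) i.succ = 0 := Pi.single_eq_of_ne (Fin.succ_ne_zero i) _
      rw [V_succ, si_tm, si_tm, e1, e i.succ, e2]
      simp only [w, b', u', Fin.cons_succ, tm, map_mul]
      ring

end Fx

variable (p : ℕ) [hp : Fact p.Prime] (h c : ℕ) (K U : Type) [Field K] [Pf p K] [CommRing U]
  [Algebra (RR c K) U] [Pf p U]

theorem fixi (h1 : 1 ≤ h) : FIXI p h c K U := by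
  have key : ∀ n, 1 ≤ n → ∀ ε : Fin n → WittVector p U, Vm (Au p n (uU p h c K U)) ε = ε →
      ∀ i k, IsN (mm c K) ((ε i).coeff k) := by
    intro n hn ε hε i k
    obtain ⟨d, rfl⟩ : ∃ d, n = d + 1 := ⟨n - 1, by omega⟩
    exact Fx.small (Fx.isN_u h) k ε (fun j => by rw [hε, sub_self]; exact Fx.WN.zero) i
  exact fun ε hε => key _ (pos_add h1 c) ε hε

theorem one (h1 : 1 ≤ h) (hS : SMP p c K U (Fin (h + c))) (hF : FIXI p h c K U) :
    ONE p h c K U h1 := fun ε hε =>
  Fx.one_gen (pos_add h1 c) (Fx.isN_u h) hS hε fun i => hF ε hε i 0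

end P261.Ig
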