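import Vale.Agent.P261Z.Ig.Aut

/-!
# P261Z, block Ig: the group `Γ` and its action
-/

noncomputable section

open Matrix Polynomial

namespace P261.Ig

open P261.C2

variable (p : ℕ) [hp : Fact p.Prime] (E : Type) [Fintype E] [DecidableEq E] (h : ℕ)
  (k : Type) [CommRing k] [Pf p k]

/-- square matrices of Witt vectors -/
abbrev MW (K : Type) [CommRing K] : Type := Matrix (E ⊕ Fin h) (E ⊕ Fin h) (WittVector p K)

/-- the automorphisms of `N₀` as a subgroup -/
def GamS : Subgroup (MW p E h k)ˣ where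
  carrier := {g | Iso (V0 p E h _) (V0 p E h _) g.val g.inv}
  one_mem' := Iso.refl _
  mul_mem' := fun ha hb => Iso.trans ha hb
  inv_mem' := fun ha => Iso.symm ha

/-- the automorphisms of `N₀` -/
def Gam : Type := GamS p E h k

instance : Group (Gam p E h k) := inferInstanceAs (Group (GamS p E h k))

variable {p E h k}

namespace Gam

/-- the matrix -/
def mat (g : Gam p E h k) : MW p E h k := (show GamS p E h k from g).1.val

theorem mat_one : mat (1 : Gam p E h k) = 1 := rfl

theorem mat_mul (g g' : Gam p E h k) : mat (g * g') = mat g * mat g' := rfl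

theorem iso (g : Gam p E h k) : Iso (V0 p E h _) (V0 p E h _) g.mat g⁻¹.mat :=
  (show GamS p E h k from g).2

theorem ext {g g' : Gam p E h k} (e : g.mat = g'.mat) : g = g' := Subtype.ext (Units.ext e)

/-- an element from an isomorphism -/
def mk {a b : MW p E h k} (H : Iso (V0 p E h _) (V0 p E h _) a b) : Gam p E h k :=
  show GamS p E h k from ⟨⟨a, b, H.mn, H.nm⟩, H⟩

theorem mat_mk {a b : MW p E h k} (H : Iso (V0 p E h _) (V0 p E h _) a b) : (mk H).mat = a := rfl

theorem mat_mk_inv {a b : MW p E h k} (H : Iso (V0 p E h _) (V0 p E h _) a b) :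
    (mk H)⁻¹.mat = b := rfl

theorem inl_inr (g : Gam p E h k) (a : E) (b : Fin h) : g.mat (.inl a) (.inr b) = 0 :=
  (end_struct g.iso.eq).1 a b

theorem inr_inl (g : Gam p E h k) (a : Fin h) (b : E) : g.mat (.inr a) (.inl b) = 0 :=
  (end_struct g.iso.eq).2.1 a b

theorem si_inl (g : Gam p E h k) (a b : E) :
    si p k (g.mat (.inl a) (.inl b)) = g.mat (.inl a) (.inl b) := (end_struct g.iso.eq).2.2.1 a b

theorem coeff_pow (g : Gam p E h k) (a b : E ⊕ Fin h) (n : ℕ) :
    (g.mat a b).coeff n ^ p ^ h = (g.mat a b).coeff n :=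
  coeff_pow_of_fix ((end_struct g.iso.eq).2.2.2 a b) n

theorem iso_map {K : Type} [CommRing K] [Pf p K] (κ : k →+* K) (g : Gam p E h k) :
    Iso (V0 p E h _) (V0 p E h _) (mw κ g.mat) (mw κ g⁻¹.mat) := by
  have := g.iso.map κ
  rwa [mw_V0] at this

end Gam

variable (p E h k) in
/-- reduction modulo `p ^ j` -/
def red (j : ℕ) : Gam p E h k →* Matrix (E ⊕ Fin h) (E ⊕ Fin h) (TruncatedWittVector p j k) where
  toFun g := g.mat.map (WittVector.truncate j)
  map_one' := Matrix.map_one _ (map_zero _) (map_one _)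
  map_mul' _ _ := Matrix.map_mul

theorem red_eq {j : ℕ} {g g' : Gam p E h k} :
    red p E h k j g = red p E h k j g' ↔ ∀ a b, Cg j (g.mat a b) (g'.mat a b) :=
  ⟨fun e a b => cg_iff.2 (congrFun (congrFun e a) b),
    fun e => Matrix.ext fun a b => cg_iff.1 (e a b)⟩

variable (p E h k) in
/-- the congruence subgroups -/
def Gs (j : ℕ) : Subgroup (Gam p E h k) := (red p E h k j).ker

instance (j : ℕ) : (Gs p E h k j).Normal := MonoidHom.normal_ker _

theorem mem_Gs {j : ℕ} {g : Gam p E h k} :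
    g ∈ Gs p E h k j ↔ ∀ a b, Cg j (g.mat a b) ((1 : MW p E h k) a b) := by
  rw [Gs, MonoidHom.mem_ker, ← map_one (red p E h k j), red_eq, Gam.mat_one]

theorem inv_mul_mem_Gs {j : ℕ} {g g' : Gam p E h k} :
    g⁻¹ * g' ∈ Gs p E h k j ↔ ∀ a b, Cg j (g.mat a b) (g'.mat a b) := by
  rw [Gs, ← red_eq, MonoidHom.mem_ker]
  refine ⟨fun e => ?_, fun e => ?_⟩
  · rw [← mul_inv_cancel_left g g', map_mul, e, mul_one]
  · rw [map_mul, ← e, ← map_mul, inv_mul_cancel, map_one]

theorem Gs_zero : Gs p E h k 0 = ⊤ :=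
  top_unique fun _ _ => mem_Gs.2 fun _ _ j hj => absurd hj (Nat.not_lt_zero j)

theorem Gs_anti {j j' : ℕ} (hj : j ≤ j') : Gs p E h k j' ≤ Gs p E h k j :=
  fun _ hg => mem_Gs.2 fun a b => (mem_Gs.1 hg a b).mono hj

theorem eq_one_of_mem_Gs {g : Gam p E h k} (hg : ∀ j, g ∈ Gs p E h k j) : g = 1 :=
  Gam.ext (Matrix.ext fun a b => Cg.ext fun j => mem_Gs.1 (hg j) a b)

theorem card_roots [IsDomain k] {q : ℕ} (hq : 1 < q) :
    Finite {x : k // x ^ q = x} ∧ Nat.card {x : k // x ^ q = x} ≤ q := by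
  classical
  have h0 : (X ^ q - X : k[X]) ≠ 0 := fun e => by
    have := congrArg (coeff · q) e
    simp [coeff_X, hq.ne] at this
  let f : {x : k // x ^ q = x} → (X ^ q - X : k[X]).roots.toFinset := fun x =>
    ⟨x.1, by simp [h0, x.2]⟩
  have hf : Function.Injective f := fun a b e => Subtype.ext (congrArg (fun z => z.1) e)
  refine ⟨Finite.of_injective f hf, (Nat.card_le_card_of_injective f hf).trans ?_⟩
  rw [Nat.card_eq_fintype_card, Fintype.card_coe]
  refine (Multiset.toFinset_card_le _).trans ((card_roots' _).trans ?_)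
  refine (natDegree_sub_le _ _).trans ?_
  rw [natDegree_X_pow, natDegree_X]
  omega

theorem index_Gs [IsDomain k] (hh : 1 ≤ h) (j : ℕ) : (Gs p E h k j).FiniteIndex ∧
    (Gs p E h k j).index ≤ (p ^ h) ^ ((Fintype.card E + h) * ((Fintype.card E + h) * j)) := by
  obtain ⟨h1, h2⟩ := card_roots (k := k) (Nat.one_lt_pow (n := h) (by omega) (one_lt_p (p := p)))
  let f : Gam p E h k ⧸ Gs p E h k j →
      (E ⊕ Fin h → E ⊕ Fin h → Fin j → {x : k // x ^ p ^ h = x}) :=
    fun g a b n => ⟨(g.out.mat a b).coeff n, g.out.coeff_pow a b n⟩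
  have hf : Function.Injective f := fun g g' e => by
    rw [← g.out_eq', ← g'.out_eq']
    exact QuotientGroup.eq.2 (inv_mul_mem_Gs.2 fun a b n hn =>
      congrArg Subtype.val (congrFun (congrFun (congrFun e a) b) ⟨n, hn⟩))
  have := Finite.of_injective f hf
  refine ⟨Subgroup.finiteIndex_of_finite_quotient, (Nat.card_le_card_of_injective f hf).trans ?_⟩
  simp only [Nat.card_fun, Nat.card_eq_fintype_card, Fintype.card_sum, Fintype.card_fin]
  rw [← pow_mul, ← pow_mul, mul_comm j, ← mul_assoc]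
  exact Nat.pow_le_pow_left h2 _

/-! ### the universal ring -/

variable {A₀ J : Type} [CommRing A₀] [Pf p A₀] [Fintype J] [DecidableEq J] (κ : k →+* A₀)
  (A : Matrix J J (WittVector p A₀))

variable (E h) in
/-- the ring of the isomorphisms with `N₀` -/
def UN : Type := UI (V0 p E h (WittVector p A₀)) A

namespace UN

instance : CommRing (UN E h A) := inferInstanceAs (CommRing (UI (V0 p E h (WittVector p A₀)) A))

instance : Pf p (UN E h A) := inferInstanceAs (Pf p (UI (V0 p E h (WittVector p A₀)) A))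

variable (E h)

/-- the structure map -/
def of : A₀ →+* UN E h A := UI.of _ A

/-- the universal isomorphism -/
def mu : Matrix (E ⊕ Fin h) J (WittVector p (UN E h A)) := UI.mu _ A

/-- its inverse -/
def nu : Matrix J (E ⊕ Fin h) (WittVector p (UN E h A)) := UI.nu _ A

theorem iso : Iso (V0 p E h _) (mw (of E h A) A) (mu E h A) (nu E h A) := by
  have := UI.iso (V0 p E h (WittVector p A₀)) A
  rwa [mw_V0] at this

variable {E h A} {K : Type} [CommRing K] [Pf p K]

theorem iso_map (f : UN E h A →+* K) :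
    Iso (V0 p E h _) (mw (f.comp (of E h A)) A) (mw f (mu E h A)) (mw f (nu E h A)) := by
  have := (iso E h A).map f
  rwa [mw_V0] at this

section

variable (φ : A₀ →+* K) {μ : Matrix (E ⊕ Fin h) J (WittVector p K)}
  {ν : Matrix J (E ⊕ Fin h) (WittVector p K)} (H : Iso (V0 p E h _) (mw φ A) μ ν)

/-- the universal property -/
def lift : UN E h A →+* K := UI.lift φ (by rw [mw_V0]; exact H)

theorem lift_comp : (lift φ H).comp (of E h A) = φ := UI.lift_comp _ _

theorem lift_of (a : A₀) : lift φ H (of E h A a) = φ a := UI.lift_of _ _ a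

theorem lift_mu : mw (lift φ H) (mu E h A) = μ := UI.lift_mu _ _

theorem lift_nu : mw (lift φ H) (nu E h A) = ν := UI.lift_nu _ _

end

theorem hom_ext {f g : UN E h A →+* K} (h0 : f.comp (of E h A) = g.comp (of E h A))
    (h1 : mw f (mu E h A) = mw g (mu E h A)) : f = g := UI.hom_ext h0 h1

theorem eq_top (S : Subring (UN E h A)) (hS : ∀ x ∈ S, rt p _ x ∈ S) (h0 : ∀ a, of E h A a ∈ S)
    (h1 : ∀ i j n, (mu E h A i j).coeff n ∈ S) (h2 : ∀ j i n, (nu E h A j i).coeff n ∈ S) :
    S = ⊤ := UI.eq_top S hS h0 h1 h2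

section

variable (φ : A₀ →+* A₀) {T T' : Matrix J J (WittVector p A₀)} (H : Iso A (mw φ A) T T')

variable (E h) in
/-- the endomorphism `μ ↦ μ T` over `φ` -/
def tr : UN E h A →+* UN E h A := lift ((of E h A).comp φ) ((iso E h A).trans (H.map (of E h A)))

theorem tr_comp : (tr E h φ H).comp (of E h A) = (of E h A).comp φ := lift_comp _ _

theorem tr_of (a : A₀) : tr E h φ H (of E h A a) = of E h A (φ a) := lift_of _ _ a

theorem tr_mu : mw (tr E h φ H) (mu E h A) = mu E h A * mw (of E h A) T := lift_mu _ _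

theorem tr_nu : mw (tr E h φ H) (nu E h A) = mw (of E h A) T' * nu E h A := lift_nu _ _

end

end UN

open UN

/-! ### the action -/

/-- the action of one element -/
def act0 (g : Gam p E h k) : UN E h A →+* UN E h A :=
  lift (of E h A) ((g⁻¹.iso_map ((of E h A).comp κ)).trans (iso E h A))

theorem act0_comp (g : Gam p E h k) : (act0 κ A g).comp (of E h A) = of E h A := lift_comp _ _

theorem act0_mu (g : Gam p E h k) :
    mw (act0 κ A g) (mu E h A) = mw ((of E h A).comp κ) g⁻¹.mat * mu E h A := lift_mu _ _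

/-- the action -/
def act : Gam p E h k →* (UN E h A →+* UN E h A) where
  toFun := act0 κ A
  map_one' := hom_ext (act0_comp κ A 1) (by
    rw [act0_mu, inv_one, Gam.mat_one, mw_one, Matrix.one_mul]; rfl)
  map_mul' g g' := hom_ext
    (by rw [act0_comp, RingHom.mul_def, RingHom.comp_assoc, act0_comp, act0_comp]) (by
      rw [RingHom.mul_def, ← mw_mw (act0 κ A g), act0_mu, act0_mu, mw_mul, act0_mu, mw_mw,
        ← RingHom.comp_assoc, act0_comp, _root_.mul_inv_rev, Gam.mat_mul, mw_mul, Matrix.mul_assoc])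

theorem act_comp (g : Gam p E h k) : (act κ A g).comp (of E h A) = of E h A := act0_comp κ A g

theorem act_of (g : Gam p E h k) (a : A₀) : act κ A g (of E h A a) = of E h A a :=
  RingHom.congr_fun (act_comp κ A g) a

theorem act_mu (g : Gam p E h k) :
    mw (act κ A g) (mu E h A) = mw ((of E h A).comp κ) g⁻¹.mat * mu E h A := act0_mu κ A g

theorem act_nu (g : Gam p E h k) :
    mw (act κ A g) (nu E h A) = nu E h A * mw ((of E h A).comp κ) g.mat :=
  lift_nu _ ((g⁻¹.iso_map ((of E h A).comp κ)).trans (iso E h A))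

theorem act_mu_cg {j : ℕ} {g : Gam p E h k} (hg : g ∈ Gs p E h k j) (a : E ⊕ Fin h) (b : J) :
    Cg j (wm p (act κ A g) (mu E h A a b)) (mu E h A a b) := by
  rw [← mw_apply, act_mu]
  conv_rhs => rw [← Matrix.one_mul (mu E h A), ← mw_one ((of E h A).comp κ)]
  exact Cg.sum fun l _ => ((mem_Gs.1 (inv_mem hg) a l).map _).mul (Cg.refl _)

theorem act_nu_cg {j : ℕ} {g : Gam p E h k} (hg : g ∈ Gs p E h k j) (a : J) (b : E ⊕ Fin h) :
    Cg j (wm p (act κ A g) (nu E h A a b)) (nu E h A a b) := by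
  rw [← mw_apply, act_nu]
  conv_rhs => rw [← Matrix.mul_one (nu E h A), ← mw_one ((of E h A).comp κ)]
  exact Cg.sum fun l _ => (Cg.refl _).mul ((mem_Gs.1 hg l b).map _)

/-- every element is fixed by a congruence subgroup -/
theorem smooth (x : UN E h A) : ∃ j, ∀ g ∈ Gs p E h k j, act κ A g x = x := by
  let S : Subring (UN E h A) :=
    { carrier := {x | ∃ j, ∀ g ∈ Gs p E h k j, act κ A g x = x}
      mul_mem' := fun ⟨i, hi⟩ ⟨j, hj⟩ => ⟨max i j, fun g hg => by
        rw [map_mul, hi g (Gs_anti (le_max_left _ _) hg), hj g (Gs_anti (le_max_right _ _) hg)]⟩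
      add_mem' := fun ⟨i, hi⟩ ⟨j, hj⟩ => ⟨max i j, fun g hg => by
        rw [map_add, hi g (Gs_anti (le_max_left _ _) hg), hj g (Gs_anti (le_max_right _ _) hg)]⟩
      one_mem' := ⟨0, fun _ _ => map_one _⟩
      zero_mem' := ⟨0, fun _ _ => map_zero _⟩
      neg_mem' := fun ⟨i, hi⟩ => ⟨i, fun g hg => by rw [map_neg, hi g hg]⟩ }
  have : S = ⊤ := eq_top S (fun x ⟨j, hj⟩ => ⟨j, fun g hg => by rw [map_rt, hj g hg]⟩)
    (fun a => ⟨0, fun g _ => act_of κ A g a⟩)
    (fun a b n => ⟨n + 1, fun g hg => act_mu_cg κ A hg a b n n.lt_succ_self⟩)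
    fun a b n => ⟨n + 1, fun g hg => act_nu_cg κ A hg a b n n.lt_succ_self⟩
  exact (this.ge (Subring.mem_top x) :)

/-- the endomorphisms over the base commute with the action -/
theorem act_comm {φ : A₀ →+* A₀} (hφ : φ.comp κ = κ) {T T' : Matrix J J (WittVector p A₀)}
    (H : Iso A (mw φ A) T T') (g : Gam p E h k) :
    (tr E h φ H).comp (act κ A g) = (act κ A g).comp (tr E h φ H) :=
  hom_ext (by rw [RingHom.comp_assoc, act_comp, RingHom.comp_assoc, tr_comp, ← RingHom.comp_assoc,
    act_comp]) (by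
    rw [← mw_mw (tr E h φ H), ← mw_mw (act κ A g), act_mu, tr_mu, mw_mul, mw_mul, act_mu, tr_mu,
      mw_mw, mw_mw, act_comp, ← RingHom.comp_assoc, tr_comp, RingHom.comp_assoc, hφ,
      Matrix.mul_assoc])

end P261.Ig
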