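import Vale.Agent.P261Z.Ig.Sk1

/-!
# P261Z, block Ig: the rows of slope zero
-/

noncomputable section

open Matrix

namespace P261.Ig

open P261.C2

variable {p : ℕ} [hp : Fact p.Prime]

namespace IgA

theorem row_Cm {A : Type} [CommRing A] {n : ℕ} (c : Fin n → A) (v : ℕ → A) (j : Fin n) :
    ∑ i : Fin n, v i * Cm c i j =
      if (j : ℕ) + 1 = n then ∑ i : Fin n, v i * c i else v (j + 1) := by
  split_ifs with hj
  · refine Finset.sum_congr rfl fun i _ => ?_
    simp [Cm, i.2.ne, hj]
  · have h1 : (j : ℕ) + 1 < n := by have := j.2; omega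
    rw [Finset.sum_eq_single (⟨j + 1, h1⟩ : Fin n)]
    · simp [Cm]
    · intro i _ hi
      have : ¬ (i : ℕ) = j + 1 := fun h => hi (Fin.ext h)
      simp [Cm, this, hj]
    · simp

/-- additive polynomials with invertible leading coefficient are onto -/
theorem solve {K : Type} [CommRing K] (hK : Aic K) {c : ℕ} (a : ℕ → K) (ha : IsUnit (a c))
    (y : K) : ∃ s : K, ∑ i ∈ Finset.range (c + 1), a i * s ^ p ^ i = y := by
  rcases subsingleton_or_nontrivial K with h | h
  · exact ⟨0, Subsingleton.elim _ _⟩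
  obtain ⟨w, hw⟩ := ha.exists_right_inv
  have h0 : 0 < p ^ c := pow_pos hp.out.pos c
  have h1 : (∑ i ∈ Finset.range c, Polynomial.C (w * a i) * Polynomial.X ^ p ^ i -
      Polynomial.C (w * y)).degree < ((p ^ c : ℕ) : WithBot ℕ) := by
    refine (Polynomial.degree_sub_le _ _).trans_lt (max_lt ?_ ?_)
    · refine (Polynomial.degree_sum_le _ _).trans_lt ?_
      rw [Finset.sup_lt_iff (WithBot.bot_lt_coe _)]
      intro i hi
      refine (Polynomial.degree_C_mul_X_pow_le _ _).trans_lt ?_
      exact_mod_cast Nat.pow_lt_pow_right hp.out.one_lt (Finset.mem_range.1 hi)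
    · exact Polynomial.degree_C_le.trans_lt (by exact_mod_cast h0)
  obtain ⟨t, ht⟩ := hK _ (Polynomial.monic_X_pow_add h1) (by
    rw [Polynomial.natDegree_pos_iff_degree_pos, Polynomial.degree_add_eq_left_of_degree_lt
      (by rwa [Polynomial.degree_X_pow]), Polynomial.degree_X_pow]
    exact_mod_cast h0)
  refine ⟨t, ?_⟩
  have h2 : t ^ p ^ c + (∑ i ∈ Finset.range c, w * a i * t ^ p ^ i - w * y) = 0 := by
    simpa [Polynomial.eval_finsetSum] using ht
  have h3 : ∑ i ∈ Finset.range c, w * a i * t ^ p ^ i =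
      w * ∑ i ∈ Finset.range c, a i * t ^ p ^ i := by
    rw [Finset.mul_sum]
    exact Finset.sum_congr rfl fun i _ => mul_assoc _ _ _
  rw [h3] at h2
  rw [Finset.sum_range_succ]
  linear_combination a c * h2 - (∑ i ∈ Finset.range c, a i * t ^ p ^ i - y) * hw

variable {K : Type} [CommRing K] [Pf p K]

theorem rt_pow_le {i n : ℕ} (h : i ≤ n) (s : K) : (rt p K ^ i) (s ^ p ^ n) = s ^ p ^ (n - i) := by
  conv_lhs => rw [← Nat.sub_add_cancel h, pow_add, pow_mul, rt_pow_pp']

variable (p) in
/-- the last column of the normal form -/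
def cf (u : ℕ → K) (i : ℕ) : WittVector p K := if i = 0 then (p : WittVector p K) else -tm p (u i)

theorem cf_coeff {u : ℕ → K} (h0 : u 0 = 0) (i : ℕ) : (cf p u i).coeff 0 = -u i := by
  unfold cf
  split_ifs with hi
  · have := coeff_p_mul_zero (p := p) (1 : WittVector p K)
    rw [mul_one] at this
    rw [this, hi, h0, neg_zero]
  · rw [← WittVector.constantCoeff_apply, map_neg, WittVector.constantCoeff_apply,
      WittVector.teichmuller_coeff_zero]

variable (p) in
/-- the operator -/
def Ps (n : ℕ) (u : ℕ → K) : WittVector p K →+ WittVector p K where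
  toFun a := (si p K ^ n) a - ∑ i ∈ Finset.range n, (si p K ^ i) a * cf p u i
  map_zero' := by simp
  map_add' a b := by
    simp only [map_add, add_mul, Finset.sum_add_distrib]
    ring

/-- the coefficients of the additive polynomial -/
def co (h c : ℕ) (u : ℕ → K) (j : ℕ) : K := if j = 0 then 1 else u (h + c - j)

theorem Ps_coeff {h c : ℕ} {u : ℕ → K} (h1 : 1 ≤ h) (hu : ∀ i < h, u i = 0) (a : WittVector p K)
    (s : K) (ha : a.coeff 0 = s ^ p ^ (h + c)) :
    (Ps p (h + c) u a).coeff 0 = ∑ i ∈ Finset.range (c + 1), co h c u i * s ^ p ^ i := by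
  have e1 : (Ps p (h + c) u a).coeff 0 =
      s + ∑ i ∈ Finset.range (h + c), s ^ p ^ (h + c - i) * u i := by
    show ((si p K ^ (h + c)) a - ∑ i ∈ Finset.range (h + c), (si p K ^ i) a * cf p u i).coeff 0 = _
    rw [← WittVector.constantCoeff_apply, map_sub, map_sum, WittVector.constantCoeff_apply,
      coeff_si_pow, ha, rt_pow_pp', sub_eq_add_neg, ← Finset.sum_neg_distrib]
    congr 1
    refine Finset.sum_congr rfl fun i hi => ?_
    rw [map_mul, WittVector.constantCoeff_apply, WittVector.constantCoeff_apply, coeff_si_pow, ha,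
      rt_pow_le (Finset.mem_range.1 hi).le, cf_coeff (hu 0 h1), mul_neg, neg_neg]
  rw [e1, Finset.sum_range_add, Finset.sum_eq_zero fun i hi => by
    rw [hu i (Finset.mem_range.1 hi), mul_zero], zero_add, Finset.sum_range_succ',
    ← Finset.sum_range_reflect, add_comm]
  congr 1
  · refine Finset.sum_congr rfl fun i hi => ?_
    have := Finset.mem_range.1 hi
    rw [co, if_neg (Nat.succ_ne_zero i), mul_comm,
      show h + (c - 1 - i) = h + c - (i + 1) by omega,
      show h + c - (h + c - (i + 1)) = i + 1 by omega]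
  · simp [co]

end IgA

open IgA

variable (p) in
theorem iga_of (hW : WLIFT p) (hM : MOORE p) : IGA p := by
  intro h c K _ _ hK u h1 hc hu hh
  have hco : IsUnit (co h c u c) := by
    rw [co, if_neg hc.ne', Nat.add_sub_cancel]
    exact hh
  obtain ⟨s, hs, hm⟩ := hM K hK c (co h c u) (by simp [co]) hco
  obtain ⟨a, ha, ha0⟩ := hW K (Fin c) ((Ps p (h + c) u).compLeft (Fin c)) (fun y => by
      choose t ht using fun i => solve (p := p) hK (co h c u) hco (y i)
      exact ⟨fun i => tm p (t i ^ p ^ (h + c)), fun i =>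
        (Ps_coeff h1 hu _ (t i) (WittVector.teichmuller_coeff_zero p _)).trans (ht i)⟩)
    (fun l => tm p (s l ^ p ^ (h + c))) fun l =>
      (Ps_coeff h1 hu _ (s l) (WittVector.teichmuller_coeff_zero p _)).trans (hs l)
  refine ⟨Matrix.of fun l i => (si p K ^ (i : ℕ)) (a l), ?_, ?_⟩
  · ext1 l j
    have e := row_Cm (n := h + c) (fun i => cf p u i) (fun i => (si p K ^ i) (a l)) j
    have e1 : si p K ((si p K ^ (j : ℕ)) (a l)) = (si p K ^ ((j : ℕ) + 1)) (a l) := by
      rw [pow_succ', RingHom.mul_def, RingHom.comp_apply]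
    refine e1.trans (Eq.trans ?_ e.symm)
    split_ifs with hj
    · have e2 : Ps p (h + c) u (a l) = 0 := congrFun ha l
      rw [hj, Fin.sum_univ_eq_sum_range (fun i => (si p K ^ i) (a l) * cf p u i)]
      exact sub_eq_zero.1 e2
    · rfl
  · have e : (Matrix.of fun l i : Fin c =>
        ((Matrix.of fun (l : Fin c) (i : Fin (h + c)) => (si p K ^ (i : ℕ)) (a l)) l
          (Fin.natAdd h i)).coeff 0) =
        ((fr p K).mapMatrix (Matrix.of fun l i : Fin c => s l ^ p ^ (i : ℕ))).submatrix id
          Fin.revPerm := by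
      ext l i
      have := i.2
      simp only [Matrix.of_apply, Matrix.submatrix_apply, RingHom.mapMatrix_apply,
        Matrix.map_apply, id, Fin.revPerm_apply, Fin.val_natAdd, Fin.val_rev]
      rw [coeff_si_pow, ha0, WittVector.teichmuller_coeff_zero, rt_pow_le (by omega), fr_apply,
        ← pow_mul, ← pow_succ]
      congr 2
      omega
    rw [e]
    have h2 := hm.map (fr p K).mapMatrix
    rw [Matrix.isUnit_iff_isUnit_det] at h2 ⊢
    rw [Matrix.det_permute']
    exact IsUnit.mul ((Equiv.Perm.sign (Fin.revPerm (n := c))).isUnit.map (Int.castRingHom K)) h2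

end P261.Ig
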