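import Vale.Agent.P261Z.Ig.Sk1

/-!
# P261Z, block Ig: the rows of positive slope
-/

noncomputable section

open Matrix Polynomial

namespace P261.Ig

open P261.C2

namespace IgbA

theorem root {K : Type} [CommRing K] (hK : Aic K) {N : ℕ} (hN : 0 < N) (f : K[X])
    (hf : f.degree < N) : ∃ x, x ^ N + f.eval x = 0 := by
  rcases subsingleton_or_nontrivial K with k | k
  · exact ⟨0, Subsingleton.elim _ _⟩
  · obtain ⟨x, hx⟩ := hK (X ^ N + f) (monic_X_pow_add hf) (by
      rw [natDegree_add_eq_left_of_degree_lt (by rwa [degree_X_pow]), natDegree_X_pow]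
      exact hN)
    exact ⟨x, by simpa using hx⟩

/-- triangular systems -/
theorem tri {K : Type} [AddCommGroup K] (g : K → K) (hg : Function.Surjective g)
    (F : (ℕ → K) → ℕ → K) (hF : ∀ x x' j, (∀ m < j, x m = x' m) → F x j = F x' j) (y : ℕ → K)
    (x₀ : K) (h₀ : g x₀ + F 0 0 = y 0) : ∃ x : ℕ → K, x 0 = x₀ ∧ ∀ j, g (x j) + F x j = y j := by
  choose s hs using hg
  let x : ℕ → K := (Nat.lt_wfRel.wf).fix fun j rec =>
    if j = 0 then x₀ else s (y j - F (fun m => if h : m < j then rec m h else 0) j)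
  have hx : ∀ j, x j = if j = 0 then x₀ else
      s (y j - F (fun m => if _ : m < j then x m else 0) j) := fun j => WellFounded.fix_eq _ _ j
  refine ⟨x, by rw [hx, if_pos rfl], fun j => ?_⟩
  rw [hx j]
  split_ifs with h
  · subst h
    rw [hF x 0 0 fun m hm => absurd hm (Nat.not_lt_zero m), h₀]
  · rw [hs, hF _ x j fun m hm => dif_pos hm, sub_add_cancel]

theorem mul_Cm {A I : Type} [CommRing A] {n : ℕ} (c : Fin n → A) (β : Matrix I (Fin n) A) (j : I)
    (i : Fin n) : (β * Cm c) j i =
      if h : (i : ℕ) + 1 < n then β j ⟨i + 1, h⟩ else ∑ l, β j l * c l := by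
  rw [Matrix.mul_apply]
  split_ifs with h
  · rw [Finset.sum_eq_single ⟨i + 1, h⟩ (fun l _ hl => ?_) (by simp)]
    · simp [Cm]
    · have : (l : ℕ) ≠ i + 1 := fun e => hl (Fin.ext e)
      simp [Cm, this, h.ne]
  · refine Finset.sum_congr rfl fun l _ => ?_
    have h1 : (l : ℕ) ≠ i + 1 := by omega
    have h2 : (i : ℕ) + 1 = n := by omega
    simp only [Cm, Matrix.of_apply, if_neg h1, if_pos h2]

variable {p : ℕ} [hp : Fact p.Prime] {K : Type} [CommRing K] [Pf p K]

/-- the operator `V` on sequences -/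
def Vn (h : ℕ) : (ℕ → WittVector p K) →+ (ℕ → WittVector p K) where
  toFun y j := if j = 0 then p * si p K (y (h - 1)) else si p K (y (j - 1))
  map_zero' := by funext j; simp
  map_add' x y := by
    funext j
    by_cases e : j = 0 <;> simp [e, mul_add]

theorem Vn_zero (h : ℕ) (y : ℕ → WittVector p K) : Vn h y 0 = p * si p K (y (h - 1)) := rfl

theorem Vn_succ (h : ℕ) (y : ℕ → WittVector p K) (j : ℕ) : Vn h y (j + 1) = si p K (y j) := rfl

theorem Au_mul {h : ℕ} (y : ℕ → WittVector p K) (j : Fin h) :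
    ∑ l : Fin h, Au p h (0 : ℕ → K) j l * si p K (y l) = Vn h y j := by
  obtain ⟨_ | j, hj⟩ := j
  · rw [Finset.sum_eq_single ⟨h - 1, by omega⟩ (fun l _ hl => ?_) (by simp)]
    · have : h - 1 + 1 = h := by omega
      simp [Au, Cm, this, Vn_zero, hj.ne]
    · have : (l : ℕ) + 1 ≠ h := fun e => hl (Fin.ext (by simp only; omega))
      simp [Au, Cm, this]
  · rw [Finset.sum_eq_single ⟨j, by omega⟩ (fun l _ hl => ?_) (by simp)]
    · simp [Au, Cm, Vn_succ]
    · have : j ≠ l := fun e => hl (Fin.ext e.symm)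
      simp [Au, Cm, this]

theorem coeff_Vn (h i : ℕ) (y : ℕ → WittVector p K) (j : ℕ) : ((Vn h)^[i] y j).coeff 0 =
    if i ≤ j then (rt p K ^ i) ((y (j - i)).coeff 0) else 0 := by
  induction i generalizing j with
  | zero => simp
  | succ i ih =>
    rw [Function.iterate_succ_apply']
    cases j with
    | zero => simp [Vn_zero]
    | succ j =>
      rw [Vn_succ, coeff_si, ih, pow_succ', RingHom.mul_def, RingHom.comp_apply]
      by_cases e : i ≤ j <;> simp [e]

theorem Vn_pow {h k : ℕ} (hk : k ≤ h) (y : ℕ → WittVector p K) (j : ℕ) : (Vn h)^[k] y j =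
    if k ≤ j then (si p K ^ k) (y (j - k)) else p * (si p K ^ k) (y (h + j - k)) := by
  induction k generalizing j with
  | zero => simp
  | succ k ih =>
    rw [Function.iterate_succ_apply', pow_succ', RingHom.mul_def, RingHom.comp_apply,
      RingHom.comp_apply]
    cases j with
    | zero =>
      rw [Vn_zero, ih (by omega), if_pos (by omega), if_neg (by omega)]
      congr 4
      omega
    | succ j =>
      rw [Vn_succ, ih (by omega)]
      by_cases e : k ≤ j
      · simp [e]
      · rw [if_neg e, if_neg (by omega), map_mul, map_natCast]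
        congr 4
        omega

theorem Vn_loc {h : ℕ} (i : ℕ) {y y' : ℕ → WittVector p K} (e : ∀ j < h, y j = y' j) :
    ∀ j < h, (Vn h)^[i] y j = (Vn h)^[i] y' j := by
  induction i with
  | zero => exact e
  | succ i ih =>
    intro j hj
    rw [Function.iterate_succ_apply', Function.iterate_succ_apply']
    cases j with
    | zero => rw [Vn_zero, Vn_zero, ih _ (by omega)]
    | succ j => rw [Vn_succ, Vn_succ, ih _ (by omega)]

theorem Vn_add {h : ℕ} (i : ℕ) (y : ℕ → WittVector p K) {j : ℕ} (hj : j < h) :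
    (Vn h)^[h + i] y j = p * (Vn h)^[i] (fun m => (si p K ^ h) (y m)) j := by
  rw [add_comm, Function.iterate_add_apply,
    Vn_loc i (y' := p • fun m => (si p K ^ h) (y m)) (fun m hm => by
      rw [Vn_pow le_rfl, if_neg (by omega), Nat.add_sub_cancel_left, Pi.smul_apply, nsmul_eq_mul])
      j hj, iterate_map_nsmul, Pi.smul_apply, nsmul_eq_mul]

/-- the operator whose zeros are the solutions -/
def Ps (h c : ℕ) (u : ℕ → K) : (ℕ → WittVector p K) →+ (ℕ → WittVector p K) where
  toFun b j := ∑ i ∈ Finset.range (c + 1),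
    tm p (u i) * (Vn h)^[i] (fun m => (si p K ^ h) (b m)) j - b j
  map_zero' := by
    funext j
    have : (fun m => (si p K ^ h) ((0 : ℕ → WittVector p K) m)) = 0 := funext fun m => map_zero _
    rw [this]
    simp
  map_add' x y := by
    funext j
    have : (fun m => (si p K ^ h) ((x + y) m)) =
        (fun m => (si p K ^ h) (x m)) + fun m => (si p K ^ h) (y m) := funext fun m => map_add _ _ _
    rw [this]
    simp only [iterate_map_add, Pi.add_apply, mul_add, Finset.sum_add_distrib]
    ring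

theorem coeff_Ps (h c : ℕ) (u : ℕ → K) (x : ℕ → K) (j : ℕ) :
    (Ps h c u (fun m => tm p (x m)) j).coeff 0 = (u 0 * (rt p K ^ h) (x j) - x j) +
      ∑ i ∈ Finset.range c, u (i + 1) *
        if i + 1 ≤ j then (rt p K ^ (i + 1)) ((rt p K ^ h) (x (j - (i + 1)))) else 0 := by
  have e : ∀ z : WittVector p K, z.coeff 0 = WittVector.constantCoeff z := fun _ => rfl
  change (∑ i ∈ Finset.range (c + 1),
    tm p (u i) * (Vn h)^[i] (fun m => (si p K ^ h) (tm p (x m))) j - tm p (x j)).coeff 0 = _
  rw [e, map_sub, map_sum, Finset.sum_range_succ']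
  simp only [map_mul]
  simp only [← e, coeff_Vn, coeff_si_pow, WittVector.teichmuller_coeff_zero, zero_le,
    if_true, pow_zero, Nat.sub_zero, RingHom.coe_one, id]
  ring

theorem sol (hK : Aic K) {h : ℕ} (hh : 1 ≤ h) (c : ℕ) (u : ℕ → K) (y : ℕ → K) :
    (∃ x : ℕ → K, ∀ j, (Ps h c u (fun m => tm p (x m)) j).coeff 0 = y j) ∧
    ∀ x₀, u 0 * (rt p K ^ h) x₀ - x₀ = y 0 →
      ∃ x : ℕ → K, x 0 = x₀ ∧ ∀ j, (Ps h c u (fun m => tm p (x m)) j).coeff 0 = y j := by
  have hq : 1 < p ^ h := Nat.one_lt_pow (by omega) hp.out.one_lt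
  have hg : Function.Surjective fun x : K => u 0 * (rt p K ^ h) x - x := fun a => by
    obtain ⟨t, ht⟩ := root hK (N := p ^ h) (by omega) (C (-u 0) * X + C a)
      (degree_linear_le.trans_lt (by exact_mod_cast hq))
    refine ⟨t ^ p ^ h, ?_⟩
    simp only [eval_add, eval_mul, eval_C, eval_X] at ht
    simp only [rt_pow_pp']
    linear_combination -ht
  have k : ∀ x₀, u 0 * (rt p K ^ h) x₀ - x₀ = y 0 →
      ∃ x : ℕ → K, x 0 = x₀ ∧ ∀ j, (Ps h c u (fun m => tm p (x m)) j).coeff 0 = y j := by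
    intro x₀ h₀
    simp only [coeff_Ps]
    refine tri _ hg (fun x j => ∑ i ∈ Finset.range c, u (i + 1) *
      if i + 1 ≤ j then (rt p K ^ (i + 1)) ((rt p K ^ h) (x (j - (i + 1)))) else 0)
      (fun x x' j e => Finset.sum_congr rfl fun i _ => ?_) y x₀ (by simpa using h₀)
    split_ifs with hi
    · rw [e _ (by omega)]
    · rfl
  obtain ⟨x₀, h₀⟩ := hg (y 0)
  obtain ⟨x, -, hx⟩ := k x₀ h₀
  exact ⟨⟨x, hx⟩, k⟩

end IgbA

open IgbA

theorem igb_of (p : ℕ) [hp : Fact p.Prime] (hW : WLIFT p) : IGB p := by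
  intro h c K _ _ hK u hh hc hu huh
  have hq : 1 < p ^ h := Nat.one_lt_pow (by omega) hp.out.one_lt
  let u' : ℕ → K := fun i => if i = c then 1 else u (h + i)
  have u0 : u' 0 = u h := if_neg hc.ne
  obtain ⟨t, ht⟩ := root hK (N := p ^ h - 1) (by omega) (C (-u h))
    (degree_C_le.trans_lt (by exact_mod_cast (by omega : 0 < p ^ h - 1)))
  rw [eval_C, ← sub_eq_add_neg, sub_eq_zero] at ht
  have tu : IsUnit t := (isUnit_pow_iff (by omega : p ^ h - 1 ≠ 0)).1 (ht ▸ huh)
  obtain ⟨x, x0, hx⟩ := (sol (p := p) hK hh c u' 0).2 (t ^ p ^ h) (by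
    rw [rt_pow_pp', u0, ← ht, ← pow_succ, Nat.sub_add_cancel hq.le, sub_self, Pi.zero_apply])
  obtain ⟨b, hb, hb0⟩ := hW K ℕ (Ps h c u') (fun y => ((sol hK hh c u' y).1).elim fun x hx =>
    ⟨_, hx⟩) _ hx
  refine ⟨Matrix.of fun j i => (Vn h)^[i] b j, ?_, ?_, fun j i => ?_⟩
  · ext1 j i
    rw [Matrix.mul_apply, Au, Au, mul_Cm, ← Au]
    simp only [Matrix.map_apply, Matrix.of_apply]
    rw [Au_mul, ← Function.iterate_succ_apply' (Vn h)]
    split_ifs with e
    · rfl
    · have e1 : (i : ℕ).succ = h + c := by omega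
      have e2 : ∑ i ∈ Finset.range (c + 1),
          tm p (u' i) * (Vn h)^[i] (fun m => (si p K ^ h) (b m)) j - b j = 0 := congrFun hb j
      rw [Finset.sum_range_succ] at e2
      rw [e1, Vn_add _ _ j.2, Fin.sum_univ_eq_sum_range (fun l => (Vn h)^[l] b j *
        if l = 0 then (p : WittVector p K) else -tm p (u l)), Finset.sum_range_add,
        Finset.sum_eq_single 0 (fun l hl l0 => by
          rw [if_neg l0, hu l (Finset.mem_range.1 hl), tm, WittVector.teichmuller_zero, neg_zero,
            mul_zero]) (fun k => absurd (Finset.mem_range.2 hh) k), if_pos rfl,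
        Finset.sum_congr rfl (g := fun l => -p * (tm p (u' l) *
          (Vn h)^[l] (fun m => (si p K ^ h) (b m)) j)) fun l hl => by
          rw [if_neg (by omega), Vn_add _ _ j.2,
            show u' l = u (h + l) from if_neg (Finset.mem_range.1 hl).ne]
          ring, ← Finset.mul_sum]
      rw [show u' c = 1 from if_pos rfl, show tm p (1 : K) = 1 from map_one _] at e2
      simp only [Function.iterate_zero, id]
      linear_combination (p : WittVector p K) * e2
  · rw [Matrix.isUnit_iff_isUnit_det, Matrix.det_of_isLowerTriangular _ fun j i hij => ?_]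
    · refine IsUnit.prod_univ_iff.2 fun i => ?_
      simp only [Matrix.of_apply, coeff_Vn, Fin.val_castAdd, le_refl, if_true, Nat.sub_self, hb0,
        WittVector.teichmuller_coeff_zero, x0]
      exact (tu.pow _).map _
    · simp only [Matrix.of_apply, coeff_Vn, Fin.val_castAdd]
      exact if_neg (not_le.2 hij)
  · simp only [Matrix.of_apply, coeff_Vn, Fin.val_natAdd]
    exact if_neg (by omega)

end P261.Ig
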