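import Vale.Agent.P261Z.Ig.Sk1

/-!
# P261Z, block Ig: lifting of zeros, independent roots of additive polynomials
-/

noncomputable section

open Polynomial

namespace P261.Ig

namespace WlH

variable {p : ℕ} [hp : Fact p.Prime] {K : Type} [CommRing K]

theorem surj [Pf p K] {I : Type} (Ψ : (I → WittVector p K) →+ (I → WittVector p K))
    (h : ∀ y : I → K, ∃ x, ∀ i, (Ψ x i).coeff 0 = y i) : Function.Surjective Ψ := by
  intro y
  choose X hX using h
  have sm : ∀ (k : ℕ) (z : I → WittVector p K) i, (p ^ k • z) i = (p : WittVector p K) ^ k * z i :=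
    fun k z i => by rw [Pi.smul_apply, nsmul_eq_mul, Nat.cast_pow]
  let st : (I → WittVector p K) → I → WittVector p K :=
    fun y i => dv (y i - Ψ (X fun i => (y i).coeff 0) i)
  have hst : ∀ y, y = Ψ (X fun i => (y i).coeff 0) + p • st y := fun y => funext fun i => by
    rw [Pi.add_apply, Pi.smul_apply, nsmul_eq_mul, p_mul_dv, add_sub_cancel]
    exact (map_sub (WittVector.constantCoeff : WittVector p K →+* K) _ _).trans
      (sub_eq_zero.2 (hX (fun i => (y i).coeff 0) i).symm)
  let x : ℕ → I → WittVector p K := fun j => X fun i => (st^[j] y i).coeff 0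
  have h1 : ∀ J, y = Ψ (∑ j ∈ Finset.range J, p ^ j • x j) + p ^ J • st^[J] y := fun J => by
    induction J with
    | zero => simp
    | succ J ih =>
      rw [Finset.sum_range_succ, map_add, map_nsmul, Function.iterate_succ_apply', pow_succ',
        mul_nsmul, add_assoc, ← nsmul_add, ← hst]
      exact ih
  refine ⟨fun i => psum fun j => x j i, funext fun i => Cg.ext fun J => ?_⟩
  choose z hz using fun i => cg_zero_iff.1 (Cg.iff_sub.1 (psum_cg (fun j => x j i) J))
  have h2 : (fun i => psum fun j => x j i) = ∑ j ∈ Finset.range J, p ^ j • x j + p ^ J • z :=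
    funext fun i => by
      rw [Pi.add_apply, Finset.sum_apply, sm, ← hz]
      simp only [sm, add_sub_cancel]
  refine Cg.iff_sub.2 (cg_zero_iff.2 ⟨Ψ z i - st^[J] y i, ?_⟩)
  have h3 := congrFun (h1 J) i
  rw [Pi.add_apply, sm] at h3
  rw [h2, map_add, map_nsmul, Pi.add_apply, sm]
  linear_combination -h3

theorem root (hA : Aic K) {n : ℕ} (hn : 0 < n) {m : ℕ} (b : ℕ → K) (e : ℕ → ℕ)
    (he : ∀ i < m, e i < n) : ∃ x : K, x ^ n + ∑ i ∈ Finset.range m, b i * x ^ e i = 0 := by
  rcases subsingleton_or_nontrivial K with k | k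
  · exact ⟨0, Subsingleton.elim _ _⟩
  have h1 : (∑ i ∈ Finset.range m, C (b i) * X ^ e i : K[X]).degree < n :=
    mem_degreeLT.1 (Submodule.sum_mem _ fun i hi => mem_degreeLT.2
      ((degree_C_mul_X_pow_le _ _).trans_lt (by exact_mod_cast he i (Finset.mem_range.1 hi))))
  obtain ⟨x, hx⟩ := hA _ (monic_X_pow_add h1) (by
    rwa [natDegree_add_eq_left_of_degree_lt (by rwa [degree_X_pow]), natDegree_X_pow])
  exact ⟨x, by simpa [eval_finsetSum] using hx⟩

theorem fact [Ch p K] (c : ℕ) (a : ℕ → K) (w : K) : ∃ b : ℕ → K, b c = a (c + 1) ∧ ∀ T : K,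
    ∑ i ∈ Finset.range (c + 1 + 1), a i * T ^ p ^ i =
      ∑ i ∈ Finset.range (c + 1), b i * (T ^ p - w * T) ^ p ^ i + (a 0 + b 0 * w) * T := by
  induction c generalizing a w with
  | zero =>
    refine ⟨fun _ => a 1, rfl, fun T => ?_⟩
    simp only [Finset.sum_range_succ, Finset.sum_range_zero, zero_add, pow_zero, pow_one]
    ring
  | succ c ih =>
    obtain ⟨b, h1, h2⟩ := ih (fun i => a (i + 1)) (w ^ p)
    refine ⟨fun i => Nat.casesOn i (a 1 + b 0 * w ^ p) b, h1, fun T => ?_⟩
    have h3 := sub_pow_pp (T ^ p) (w * T) 1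
    rw [pow_one, mul_pow] at h3
    rw [Finset.sum_range_succ' _ (c + 1), Finset.sum_range_succ' _ (c + 1 + 1)]
    simp only [pow_succ', pow_mul, h3, h2, pow_zero, pow_one, zero_add, Nat.rec_zero]
    ring

end WlH

open WlH

variable (p : ℕ) [hp : Fact p.Prime]

theorem wlift : WLIFT p := by
  intro K _ _ I Ψ h x₀ h0
  obtain ⟨z, hz⟩ := surj Ψ h fun i => dv (Ψ x₀ i)
  refine ⟨x₀ - p • z, funext fun i => ?_, fun i => ?_⟩
  · rw [map_sub, map_nsmul, hz, Pi.sub_apply, Pi.smul_apply, nsmul_eq_mul, p_mul_dv (h0 i),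
      sub_self, Pi.zero_apply]
  · rw [Pi.sub_apply, Pi.smul_apply, nsmul_eq_mul]
    exact (map_sub (WittVector.constantCoeff : WittVector p K →+* K) _ _).trans
      (sub_eq_self.2 (coeff_p_mul_zero _))

theorem moore : MOORE p := by
  intro K _ _ hA c
  have p1 := hp.out.one_lt
  induction c with
  | zero => exact fun a _ _ => ⟨Fin.elim0, fun l => l.elim0, isUnit_of_subsingleton _⟩
  | succ c ih =>
    rintro a h0 ⟨u, hu⟩
    have q : ∀ i, 1 < p ^ (i + 1) := fun i => Nat.one_lt_pow i.succ_ne_zero p1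
    obtain ⟨x, hx⟩ := root hA (n := p ^ (c + 1) - 1) (Nat.sub_pos_of_lt (q c)) (m := c + 1)
      (fun i => u⁻¹ * a i) (fun i => p ^ i - 1) fun i hi => by
        have h1 := Nat.pow_lt_pow_right p1 hi
        have h2 := Nat.pow_pos (n := i) hp.out.pos
        omega
    have h1 : ∑ i ∈ Finset.range (c + 1 + 1), a i * x ^ (p ^ i - 1) = 0 := by
      rw [Finset.sum_range_succ, ← mul_zero (u : K), ← hx, mul_add, Finset.mul_sum, ← hu, add_comm]
      simp only [mul_assoc, Units.mul_inv_cancel_left]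
    have h2 : ∑ i ∈ Finset.range (c + 1 + 1), a i * x ^ p ^ i = 0 := by
      rw [← mul_zero x, ← h1, Finset.mul_sum]
      refine Finset.sum_congr rfl fun i _ => ?_
      rw [mul_left_comm, mul_pow_sub_one (pow_ne_zero _ hp.out.ne_zero)]
    have hxu : IsUnit x := by
      rw [Finset.sum_range_succ', pow_zero, Nat.sub_self, pow_zero, mul_one] at h1
      refine isUnit_of_dvd_unit ?_ h0
      rw [eq_neg_of_add_eq_zero_right h1, dvd_neg]
      exact Finset.dvd_sum fun i _ => (dvd_pow_self x (Nat.sub_pos_of_lt (q i)).ne').mul_left _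
    obtain ⟨w, hw⟩ : ∃ w, x ^ p - w * x = 0 :=
      ⟨x ^ (p - 1), by rw [pow_sub_one_mul hp.out.ne_zero, sub_self]⟩
    obtain ⟨b, hb, hT⟩ := fact c a w
    have z0 : ∀ i, (0 : K) ^ p ^ i = 0 := fun i => zero_pow (pow_ne_zero _ hp.out.ne_zero)
    have hr : a 0 + b 0 * w = 0 := by
      have h3 := hT x
      simp only [h2, hw, z0, mul_zero, Finset.sum_const_zero, zero_add] at h3
      exact hxu.mul_left_eq_zero.1 h3.symm
    obtain ⟨t, ht, hM⟩ := ih b
      (isUnit_of_mul_isUnit_left (eq_neg_of_add_eq_zero_right hr ▸ h0.neg)) ⟨u, hu.trans hb.symm⟩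
    have h4 : ∀ l, ∃ s, s ^ p - w * s = t l := fun l => by
      obtain ⟨s, hs⟩ := root hA hp.out.pos (m := 2) (fun i => if i = 0 then -t l else -w) id
        fun i hi => lt_of_lt_of_le hi hp.out.two_le
      refine ⟨s, ?_⟩
      simp only [Finset.sum_range_succ, Finset.sum_range_zero, id, if_true, one_ne_zero,
        if_false] at hs
      linear_combination hs
    choose s hs using h4
    refine ⟨Fin.cons x s, fun l => ?_, ?_⟩
    · refine Fin.cases h2 (fun l => ?_) l
      rw [Fin.cons_succ, hT, hs, ht, hr, zero_mul, add_zero]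
    obtain ⟨M, hM'⟩ : ∃ M : Matrix (Fin (c + 1)) (Fin (c + 1)) K,
        M = Matrix.of fun l i : Fin (c + 1) => (Fin.cons x s : Fin (c + 1) → K) l ^ p ^ (i : ℕ) :=
      ⟨_, rfl⟩
    let E : Matrix (Fin (c + 1)) (Fin (c + 1)) K := Matrix.of fun j i =>
      Fin.cases (if j = 0 then 1 else 0) (fun i : Fin c =>
        (if j = i.succ then 1 else 0) - if j = i.castSucc then w ^ p ^ (i : ℕ) else 0) i
    have e0 : (M * E) 0 0 = x := by simp [Matrix.mul_apply, E, hM']
    have e1 : ∀ l (i : Fin c), (M * E) l i.succ = ((Fin.cons x s : Fin (c + 1) → K) l ^ p -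
        w * (Fin.cons x s : Fin (c + 1) → K) l) ^ p ^ (i : ℕ) := fun l i => by
      rw [sub_pow_pp, mul_pow, ← pow_mul, ← pow_succ', mul_comm]
      simp [Matrix.mul_apply, E, hM', mul_sub]
    have e2 : (M * E).submatrix Fin.succ (0 : Fin (c + 1)).succAbove =
        Matrix.of fun l i : Fin c => t l ^ p ^ (i : ℕ) := by
      ext l i
      rw [Matrix.submatrix_apply, Fin.succAbove_zero, e1, Fin.cons_succ, hs, Matrix.of_apply]
    rw [← hM', Matrix.isUnit_iff_isUnit_det]
    refine isUnit_of_mul_isUnit_left (y := E.det) ?_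
    rw [← Matrix.det_mul, Matrix.det_succ_row_zero, Fin.sum_univ_succ, e0, e2]
    simp only [e1, Fin.cons_zero, hw, z0, mul_zero, zero_mul, Finset.sum_const_zero, add_zero,
      Fin.val_zero, pow_zero, one_mul]
    exact hxu.mul ((Matrix.isUnit_iff_isUnit_det _).1 hM)

end P261.Ig
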