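import Vale.Agent.P261Z.Ig.Gam
import Vale.Agent.P261Z.Ig.Wlift
import Vale.Agent.P261Z.Ig.Iga
import Vale.Agent.P261Z.Ig.Igb
import Vale.Agent.P261Z.Ig.Igx

/-!
# P261Z, block Ig: the invariants of `Γ`
-/

noncomputable section

open Matrix Polynomial
open scoped TensorProduct

namespace P261.Ig

open P261.C2 UN

variable {p : ℕ} [hp : Fact p.Prime]

theorem igx : IGX p := igx_of p (iga_of p (wlift p) (moore p)) (igb_of p (wlift p))

/-- descent along a point with values in the reduction of a faithfully flat algebra -/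
theorem desc {C D U : Type} [CommRing C] [CommRing D] [CommRing U] [Pf p C] [Pf p U] [Algebra C D]
    [Module.FaithfullyFlat C D] [Pf p (D ⧸ nilradical D)] (j : C →+* U) (e : U →+* D ⧸ nilradical D)
    (he : e.comp j = (Ideal.Quotient.mk _).comp (algebraMap C D)) (x : U)
    (hx : ∀ (L : Type) [CommRing L] [Pf p L] (f₁ f₂ : U →+* L), f₁.comp j = f₂.comp j →
      f₁ x = f₂ x) : ∃ a, j a = x := by
  have : Ch p D := Ch.of_hom (algebraMap C D)
  have fac : ∀ (T : Type) [CommRing T] [Ch p T] (g : D →+* T), ∃ g' : D ⧸ nilradical D →+* PH p T,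
      ∀ d, g' (Ideal.Quotient.mk _ d) = algebraMap T _ (g d) := fun T _ _ g =>
    ⟨Ideal.Quotient.lift _ ((algebraMap T (PH p T)).comp g) fun a ha =>
      PH.of_eq_zero.2 ((mem_nilradical.1 ha).map g), fun _ => rfl⟩
  have he' : ∀ a, e (j a) = Ideal.Quotient.mk _ (algebraMap C D a) := RingHom.congr_fun he
  obtain ⟨d, hd⟩ := Ideal.Quotient.mk_surjective (e x)
  obtain ⟨g₁, h₁⟩ := fac (D ⊗[C] D) Algebra.TensorProduct.includeLeftRingHom
  obtain ⟨g₂, h₂⟩ := fac (D ⊗[C] D) (Algebra.TensorProduct.includeRight (R := C)).toRingHom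
  have k1 := hx _ (g₁.comp e) (g₂.comp e) (RingHom.ext fun a => by
    simp only [RingHom.comp_apply, he', h₁, h₂]
    congr 1
    exact (Algebra.TensorProduct.includeLeft (R := C) (S := C).commutes a).trans
      ((Algebra.TensorProduct.includeRight (R := C)).commutes a).symm)
  rw [RingHom.comp_apply, RingHom.comp_apply, ← hd, h₁, h₂, ← sub_eq_zero, ← map_sub,
    PH.of_eq_zero] at k1
  obtain ⟨N, hN⟩ := k1
  have k2 := pow_eq_zero_of_le (Nat.lt_pow_self (n := N) (one_lt_p (p := p))).le hN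
  rw [sub_pow_pp, ← map_pow, ← map_pow] at k2
  obtain ⟨c, hc⟩ := (Algebra.IsEffective.of_faithfullyFlat C D (d ^ p ^ N)).1 k2
  refine ⟨(rt p C ^ N) c, ?_⟩
  have k3 : e (j ((rt p C ^ N) c)) = e x := pow_pp_inj N (by
    rw [← map_pow, ← map_pow, rt_pow_pp, he', ← hd, ← map_pow, ← hc]; rfl)
  let := j.toAlgebra
  obtain ⟨g, hg⟩ := fac (D ⊗[C] U) Algebra.TensorProduct.includeLeftRingHom
  have k4 : ((algebraMap (D ⊗[C] U) (PH p _)).comp
      (Algebra.TensorProduct.includeRight (R := C)).toRingHom).comp j = (g.comp e).comp j :=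
    RingHom.ext fun a => by
      simp only [RingHom.comp_apply, he', hg]
      congr 1
      exact ((Algebra.TensorProduct.includeRight (R := C)).commutes a).trans
        (Algebra.TensorProduct.includeLeft (R := C) (S := C).commutes a).symm
  have k5 := RingHom.congr_fun k4 ((rt p C ^ N) c)
  rw [RingHom.comp_apply _ j, RingHom.comp_apply _ j, RingHom.comp_apply g, k3,
    ← RingHom.comp_apply g, ← hx _ _ _ k4, ← sub_eq_zero, ← map_sub, RingHom.comp_apply,
    PH.of_eq_zero] at k5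
  obtain ⟨M, hM⟩ := k5
  rw [← map_pow] at hM
  exact sub_eq_zero.1 (eq_zero_of_pow (N := M)
    ((Module.FaithfullyFlat.one_tmul_eq_zero_iff C U (A := D) _).1 hM))

variable {E : Type} [Fintype E] [DecidableEq E] {h : ℕ} {k : Type} [Field k] [Pf p k]
  {A₀ J : Type} [CommRing A₀] [Pf p A₀] [Fintype J] [DecidableEq J] (κ : k →+* A₀)
  {A : Matrix J J (WittVector p A₀)}

/-- two points in a domain differ by an element of `Γ` -/
theorem pt_orbit (hh : 1 ≤ h) (hs : (X ^ p ^ h - X : k[X]).Splits) {L : Type} [CommRing L] [Pf p L]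
    [IsDomain L] {f₁ f₂ : UN E h A →+* L} (e : f₁.comp (of E h A) = f₂.comp (of E h A)) :
    ∃ g : Gam p E h k, f₁ = f₂.comp (act κ A g) := by
  have H := (iso_map f₁).trans (e ▸ (iso_map f₂).symm)
  obtain ⟨a, ha⟩ := end_lift hh hs ((f₂.comp (of E h A)).comp κ) H.eq
  obtain ⟨b, hb⟩ := end_lift hh hs ((f₂.comp (of E h A)).comp κ) H.symm.eq
  have H' : Iso (V0 p E h _) (V0 p E h _) a b :=
    Iso.of_map ((f₂.comp (of E h A)).comp κ).injective (by rw [mw_V0, ha, hb]; exact H)
  refine ⟨(Gam.mk H')⁻¹, hom_ext (by rw [RingHom.comp_assoc, act_comp, e]) ?_⟩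
  rw [← mw_mw f₂, act_mu, inv_inv, Gam.mat_mk, mw_mul, mw_mw, ← RingHom.comp_assoc, ha,
    Matrix.mul_assoc, (iso_map f₂).nm, Matrix.mul_one]

/-- invariants have the same value at all points over a given point of the base -/
theorem inv_pt (hh : 1 ≤ h) (hs : (X ^ p ^ h - X : k[X]).Splits) {x : UN E h A}
    (hx : ∀ g, act κ A g x = x) (L : Type) [CommRing L] [Pf p L] (f₁ f₂ : UN E h A →+* L)
    (e : f₁.comp (of E h A) = f₂.comp (of E h A)) : f₁ x = f₂ x := by
  refine sub_eq_zero.1 ((Pf.isReduced (p := p)).eq_zero _ (nilpotent_iff_mem_prime.2 fun P hP => ?_))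
  have := Pf.quotient (p := p) P fun y hy => hP.mem_of_pow_mem _ hy
  obtain ⟨g, hg⟩ := pt_orbit κ hh hs (f₁ := (Ideal.Quotient.mk P).comp f₁)
    (f₂ := (Ideal.Quotient.mk P).comp f₂) (by rw [RingHom.comp_assoc, e, RingHom.comp_assoc])
  have := RingHom.congr_fun hg x
  rw [RingHom.comp_apply _ (act κ A g), hx] at this
  exact Ideal.Quotient.eq.1 this

variable {c : ℕ} {u : ℕ → A₀} (hh : 1 ≤ h) (hc : 0 < c) (hu : ∀ i < h, u i = 0)

include hh hc hu

theorem vu_UN : IsUnit (of (Fin c) h (Au p (h + c) u) (u h)) ∧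
    IsUnit (Matrix.of fun i l : Fin c =>
      (nu (Fin c) h (Au p (h + c) u) (Fin.natAdd h i) (.inl l)).coeff 0) ∧
    (∀ (i : Fin h) (l : Fin c),
      (nu (Fin c) h (Au p (h + c) u) (Fin.castAdd c i) (.inl l)).coeff 0 = 0) ∧
    ∀ (i : Fin (h + c)) (j : Fin h), (i : ℕ) = 0 → (j : ℕ) = 0 →
      IsUnit ((mu (Fin c) h (Au p (h + c) u) (.inr j) i).coeff 0) :=
  vu p h c _ (fun i => of (Fin c) h (Au p (h + c) u) (u i)) hh hc
    (fun i hi => by rw [hu i hi, map_zero]) _ _ (by rw [← mw_Au]; exact iso _ _ _)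

/-- a point over a faithfully flat algebra of the localisation -/
theorem exists_pt : ∃ (D : Type) (_ : CommRing D) (_ : Algebra (Localization.Away (u h)) D)
    (_ : Module.FaithfullyFlat (Localization.Away (u h)) D) (_ : Pf p (D ⧸ nilradical D))
    (e : UN (Fin c) h (Au p (h + c) u) →+* D ⧸ nilradical D), ∀ a,
      e (of _ _ _ a) = Ideal.Quotient.mk _ (algebraMap (Localization.Away (u h)) D
        (algebraMap A₀ _ a)) := by
  obtain ⟨D, _, _, h1, h2⟩ := exists_aic (Localization.Away (u h))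
  let φ : A₀ →+* D := (algebraMap (Localization.Away (u h)) D).comp (algebraMap A₀ _)
  have : Ch p D := Ch.of_hom φ
  have := h2.pf
  let ψ := (Ideal.Quotient.mk (nilradical D)).comp φ
  obtain ⟨μ, ν, H⟩ := igx h c _ (h2.of_surj _ Ideal.Quotient.mk_surjective) (fun i => ψ (u i)) hh hc
    (fun i hi => by rw [hu i hi, map_zero])
    (((IsLocalization.Away.algebraMap_isUnit (S := Localization.Away (u h)) (u h)).map
      (algebraMap _ D)).map (Ideal.Quotient.mk (nilradical D)))
  rw [← mw_Au] at H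
  exact ⟨D, _, _, h1, this, lift ψ H, lift_of ψ H⟩

/-- the kernel of the structure map -/
theorem of_eq_zero {a : A₀} (ha : of (Fin c) h (Au p (h + c) u) a = 0) : u h * a = 0 := by
  obtain ⟨D, _, _, _, _, e, he⟩ := exists_pt hh hc hu
  have := Pf.loc (p := p) (Submonoid.powers (u h)) (Localization.Away (u h))
  have k := he a
  rw [ha, map_zero, eq_comm, Ideal.Quotient.eq_zero_iff_mem, mem_nilradical] at k
  obtain ⟨N, hN⟩ := k
  rw [← map_pow, map_eq_zero_iff _ (FaithfulSMul.algebraMap_injective _ _)] at hN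
  obtain ⟨⟨_, M, rfl⟩, hM⟩ :=
    (IsLocalization.map_eq_zero_iff (Submonoid.powers (u h)) _ a).1 (eq_zero_of_pow hN)
  exact mul_eq_zero_of_pow hM

/-- **the invariants of `Γ`** -/
theorem inv (hs : (X ^ p ^ h - X : k[X]).Splits) {x : UN (Fin c) h (Au p (h + c) u)}
    (hx : ∀ g, act κ _ g x = x) :
    ∃ (N : ℕ) (a : A₀), of _ _ _ (u h) ^ N * x = of (Fin c) h (Au p (h + c) u) a := by
  obtain ⟨D, _, _, _, _, e, he⟩ := exists_pt hh hc hu
  have := Pf.loc (p := p) (Submonoid.powers (u h)) (Localization.Away (u h))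
  let j : Localization.Away (u h) →+* UN (Fin c) h (Au p (h + c) u) :=
    IsLocalization.Away.lift (u h) (vu_UN hh hc hu).1
  have hj : ∀ a, j (algebraMap A₀ _ a) = of _ _ _ a := IsLocalization.Away.lift_eq _ _
  obtain ⟨a, ha⟩ := desc j e
    (IsLocalization.ringHom_ext (Submonoid.powers (u h)) (RingHom.ext fun a => by
      simp only [RingHom.comp_apply, hj, he])) x fun L _ _ f₁ f₂ hf =>
    inv_pt κ hh hs hx L f₁ f₂ (RingHom.ext fun a => by
      simpa only [RingHom.comp_apply, hj] using RingHom.congr_fun hf (algebraMap A₀ _ a))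
  obtain ⟨N, b, hb⟩ := IsLocalization.Away.surj (u h) a
  exact ⟨N, b, by rw [← ha, ← hj, ← hj, ← hb, map_mul, map_pow, mul_comm]⟩

end P261.Ig
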