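import Vale.Agent.P261Z.Ig.PSk

/-!
# P261, block Ig: small vectors
-/

set_option linter.all false

noncomputable section

namespace P261.Ig

open Vale.Agent.P261Z Vale.Agent.P261Z.N Vale.Agent.P217 Vale.Agent.P251.F P261.C2 Matrix

namespace SmpH

variable {p : ℕ} [hp : Fact p.Prime] {R U : Type} [CommRing R] [CommRing U] [Algebra R U]
  {m : Ideal R} {x y : WittVector p U}

/-- all coefficients are small -/
def NW (m : Ideal R) (x : WittVector p U) : Prop := ∀ k, IsN m (x.coeff k)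

theorem nw_iff : NW m x ↔ ∃ z ∈ RingHom.ker (wm p (Ideal.Quotient.mk
    (JB m (integralClosure R U)))), wm p (integralClosure R U).val.toRingHom z = x := by
  constructor
  · intro hx
    refine ⟨WittVector.mk p fun k => ⟨_, (hx k).1⟩, WittVector.ext fun k => ?_, rfl⟩
    rw [WittVector.zero_coeff]
    exact Ideal.Quotient.eq_zero_iff_mem.2 (hx k).2
  · rintro ⟨z, hz, rfl⟩ k
    have h1 := congrArg (fun w => w.coeff k) (RingHom.mem_ker.1 hz)
    simp only [WittVector.zero_coeff] at h1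
    exact ⟨(z.coeff k).2, Ideal.Quotient.eq_zero_iff_mem.1 h1⟩

theorem NW.zero : NW m (0 : WittVector p U) := nw_iff.2 ⟨0, zero_mem _, map_zero _⟩

theorem NW.add (hx : NW m x) (hy : NW m y) : NW m (x + y) := by
  obtain ⟨a, ha, rfl⟩ := nw_iff.1 hx
  obtain ⟨b, hb, rfl⟩ := nw_iff.1 hy
  exact nw_iff.2 ⟨a + b, add_mem ha hb, map_add _ _ _⟩

theorem NW.neg (hx : NW m x) : NW m (-x) := by
  obtain ⟨a, ha, rfl⟩ := nw_iff.1 hx
  exact nw_iff.2 ⟨-a, neg_mem ha, map_neg _ _⟩

theorem NW.mul (hx : ∀ k, IsIntegral R (x.coeff k)) (hy : NW m y) : NW m (x * y) := by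
  obtain ⟨b, hb, rfl⟩ := nw_iff.1 hy
  obtain ⟨a, rfl⟩ : x ∈ wsub (integralClosure R U).toSubring := mem_wsub.2 hx
  exact nw_iff.2 ⟨a * b, Ideal.mul_mem_left _ _ hb, map_mul _ _ _⟩

theorem tm_coeff {Q : U → Prop} {a : U} (ha : Q a) (h0 : Q 0) : ∀ k, Q ((tm p a).coeff k)
  | 0 => ha
  | k + 1 => by
    rw [WittVector.teichmuller_coeff_pos p a _ k.succ_pos]
    exact h0

variable {ι : Type}

theorem fin_sup (B B' : Subalgebra R U) [Module.Finite R B] [Module.Finite R B'] :
    Module.Finite R (B ⊔ B' : Subalgebra R U) := Subalgebra.finite_sup B B'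

theorem sm_of {z : ι → WittVector p U} (B : Subalgebra R U) [h : Module.Finite R B]
    (h1 : ∀ i, z i ∈ wsub B.toSubring) (h2 : ∀ i, NW m (z i)) : Sm m z :=
  ⟨B, h, fun i k => ⟨mem_wsub.1 (h1 i) k, h2 i k⟩⟩

theorem mem_of {B B' : Subalgebra R U} (h : ∀ k, x.coeff k ∈ B) (hB : B ≤ B') :
    x ∈ wsub B'.toSubring := mem_wsub.2 fun k => hB (h k)

end SmpH

open SmpH

variable (p : ℕ) [hp : Fact p.Prime] (h c : ℕ) (K U : Type) [Field K] [Pf p K] [CommRing U]
  [Algebra (RR c K) U] [Pf p U]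

theorem SmpH.fin_one (B : Subalgebra (RR c K) U) [hB : Module.Finite (RR c K) B] :
    Module.Finite (RR c K) (P.rtA p 1 B) := by
  obtain ⟨s, hs⟩ := (Submodule.fg_top (Subalgebra.toSubmodule B)).1 hB.1
  let M := Submodule.span (RR c K) (Set.range fun a : (Fin c → Fin p) × s =>
    rt p U (PB.mn (MvPowerSeries.X : Fin c → RR c K) a.1 • (a.2 : U)))
  have : Module.Finite (RR c K) M := Module.Finite.span_of_finite _ (Set.finite_range _)
  have key : ∀ y ∈ Submodule.span (RR c K) (s : Set U), ∀ r : RR c K, rt p U (r • y) ∈ M := by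
    intro y hy
    induction hy using Submodule.span_induction with
    | mem b hb =>
      intro r
      obtain ⟨ρ, -, e⟩ := PB.sp_series (p := p) (1 : RR c K) r trivial
      rw [pow_zero, one_mul] at e
      rw [e, Finset.sum_smul, map_sum]
      refine sum_mem fun al _ => ?_
      rw [mul_smul, Algebra.smul_def, map_mul, map_pow, rt_pow', ← Algebra.smul_def]
      exact M.smul_mem _ (Submodule.subset_span ⟨(al, ⟨b, hb⟩), rfl⟩)
    | zero => simp
    | add a b _ _ ha hb =>
      intro r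
      rw [smul_add, map_add]
      exact add_mem (ha r) (hb r)
    | smul a b _ hb =>
      intro r
      rw [← mul_smul]
      exact hb _
  have hle : Subalgebra.toSubmodule (P.rtA p 1 B) ≤ M := fun x hx => by
    have h1 := key _ (hs ▸ hx : x ^ p ^ 1 ∈ _) 1
    rwa [one_smul, pow_one, rt_pow'] at h1
  exact Module.Finite.of_injective (Submodule.inclusion hle) (Submodule.inclusion_injective hle)

theorem fin_rt (B : Subalgebra (RR c K) U) [hB : Module.Finite (RR c K) B] (N : ℕ) :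
    Module.Finite (RR c K) (P.rtA p N B) := by
  induction N with
  | zero => rwa [show P.rtA p 0 B = B from Subalgebra.ext fun x => by simp [P.mem_rtA]]
  | succ N ih =>
    rw [show P.rtA p (N + 1) B = P.rtA p 1 (P.rtA p N B) from Subalgebra.ext fun x => by
      rw [P.mem_rtA, P.mem_rtA, P.mem_rtA, ← pow_mul, ← pow_add, add_comm]]
    exact fin_one p c K U _

theorem SmpH.root {ι : Type} {z z' : ι → WittVector p U} (hz : Sm (mm c K) z)
    (e : ∀ i k, ∃ l, (z' i).coeff k ^ p = (z i).coeff l) : Sm (mm c K) z' := by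
  obtain ⟨B, h1, h2⟩ := hz
  refine ⟨_, fin_rt p c K U B 1, fun i k => ?_⟩
  obtain ⟨l, e⟩ := e i k
  exact ⟨by rw [P.mem_rtA, pow_one, e]; exact (h2 i l).1, IsN.of_pow p_pos (e ▸ (h2 i l).2)⟩

theorem smp (ι : Type) [Fintype ι] : SMP p c K U ι where
  zero := sm_of ⊥ (fun _ => zero_mem _) fun _ => NW.zero
  add := fun z z' ⟨B, _, h1⟩ ⟨B', _, h2⟩ => sm_of _ (h := fin_sup B B') (fun i => add_mem
    (mem_of (fun k => (h1 i k).1) le_sup_left) (mem_of (fun k => (h2 i k).1) le_sup_right))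
    fun i => NW.add (fun k => (h1 i k).2) fun k => (h2 i k).2
  neg := fun z ⟨B, _, h1⟩ => sm_of B (fun i => neg_mem (mem_of (fun k => (h1 i k).1) le_rfl))
    fun i => NW.neg fun k => (h1 i k).2
  of_p z hz := root p c K U hz fun i k => ⟨k + 1, by
    rw [Pi.smul_apply, nsmul_eq_mul, coeff_p_mul_succ]⟩
  si z hz := root p c K U hz fun i k => ⟨k, by rw [coeff_si, rt_pow]⟩
  mulVec := fun T z ⟨N, hT⟩ ⟨B, _, h1⟩ => by
    have := fin_rt p c K U ⊥ N
    have h2 : ∀ i j k, (T i j).coeff k ∈ P.rtA p N (⊥ : Subalgebra (RR c K) U) := fun i j k =>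
      (hT i j k).elim fun r e => Algebra.mem_bot.2 ⟨r, e.symm⟩
    refine sm_of _ (h := fin_sup (P.rtA p N ⊥) B) (fun i => sum_mem fun j _ => mul_mem
      (mem_of (h2 i j) le_sup_left) (mem_of (fun k => (h1 j k).1) le_sup_right)) fun i => ?_
    refine Finset.sum_induction _ (NW (mm c K)) (fun _ _ => NW.add) NW.zero fun j _ =>
      NW.mul (fun k => ?_) fun k => (h1 j k).2
    obtain ⟨r, e⟩ := hT i j k
    exact IsIntegral.of_pow (pow_pos p_pos N) (e ▸ isIntegral_algebraMap)
  smul := fun a z ha ⟨B, _, h1⟩ => by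
    have := finite_adjoin (y := fun _ : Unit => a) fun _ => ha
    have h2 : a ∈ Algebra.adjoin (RR c K) (Set.range fun _ : Unit => a) :=
      Algebra.subset_adjoin ⟨(), rfl⟩
    exact sm_of _ (h := fin_sup (Algebra.adjoin _ (Set.range fun _ : Unit => a)) B) (fun i => mul_mem
      (mem_of (tm_coeff (Q := (· ∈ _)) h2 (zero_mem _)) le_sup_left)
      (mem_of (fun k => (h1 i k).1) le_sup_right)) fun i =>
        NW.mul (tm_coeff ha isIntegral_zero) fun k => (h1 i k).2
  map := fun φ Φ hφ hm z ⟨B, hB, h1⟩ => by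
    obtain ⟨s, hs⟩ := (Submodule.fg_top (Subalgebra.toSubmodule B)).1 hB.1
    have h2 : ∀ b : s, (b : U) ∈ B := fun b =>
      (hs.le (Submodule.subset_span b.2) : _ ∈ Subalgebra.toSubmodule B)
    refine ⟨_, finite_adjoin (y := fun b : s => Φ b) fun b => int_map φ Φ hφ
      ((Algebra.IsIntegral.isIntegral (⟨_, h2 b⟩ : B)).map B.val), fun i k =>
        ⟨?_, (h1 i k).2.map φ Φ hφ hm⟩⟩
    have h3 : (z i).coeff k ∈ Submodule.span (RR c K) (s : Set U) := hs ▸ (h1 i k).1
    rw [WittVector.map_coeff]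
    generalize (z i).coeff k = x at h3
    induction h3 using Submodule.span_induction with
    | mem b hb => exact Algebra.subset_adjoin ⟨⟨b, hb⟩, rfl⟩
    | zero => simp
    | add a b _ _ ha hb =>
      rw [map_add]
      exact add_mem ha hb
    | smul a b _ hb =>
      rw [Algebra.smul_def, map_mul, hφ]
      exact mul_mem (Subalgebra.algebraMap_mem _ _) hb
  tm a ha := ⟨_, finite_adjoin fun i => (ha i).int, fun i =>
    tm_coeff (Q := fun x => x ∈ _ ∧ IsN (mm c K) x) ⟨Algebra.subset_adjoin ⟨i, rfl⟩, ha i⟩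
      ⟨zero_mem _, IsN.zero⟩⟩
  trunc z hz L := by
    have e : ∀ i k, (WittVector.init L (z i)).coeff k = if k < L then (z i).coeff k else 0 :=
      fun i k => by simp [WittVector.init, WittVector.select]
    choose y hy using fun i => cg_zero_iff.1 (Cg.iff_sub.1
      (show Cg L (z i) (WittVector.init L (z i)) from fun k hk => by rw [e, if_pos hk]))
    refine ⟨y, _, finite_adjoin (y := fun a : ι × Fin L => (z a.1).coeff a.2)
      fun a => (hz _ _).int, fun i k => ?_⟩
    rw [Pi.sub_apply, Pi.smul_apply, nsmul_eq_mul, Nat.cast_pow, ← hy, sub_sub_cancel, e]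
    split_ifs with o
    exacts [⟨Algebra.subset_adjoin ⟨(i, ⟨k, o⟩), rfl⟩, hz i k⟩, ⟨zero_mem _, IsN.zero⟩]

theorem rt_Au : Rt p c K U (Au p (h + c) (uU p h c K U)) := by
  refine ⟨h + c, fun i j k => ?_⟩
  have h1 : uU p h c K U i ∈ P.rtA p (h + c) (⊥ : Subalgebra (RR c K) U) := by
    obtain ⟨d, hd⟩ := Nat.exists_eq_add_of_le i.2.le
    rw [P.mem_rtA, congrArg (p ^ ·) hd, pow_add, pow_mul, uU, uy, rt_pow_pp, exh]
    split_ifs
    exacts [pow_mem (Subalgebra.algebraMap_mem _ _) _, pow_mem (zero_mem _) _]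
  have h2 : Au p (h + c) (uU p h c K U) i j ∈
      wsub (P.rtA p (h + c) (⊥ : Subalgebra (RR c K) U)).toSubring := by
    rw [Au, Cm, Matrix.of_apply]
    split_ifs
    exacts [one_mem _, natCast_mem _ p,
      neg_mem (mem_of (tm_coeff (Q := (· ∈ _)) h1 (zero_mem _)) le_rfl), zero_mem _]
  obtain ⟨r, e⟩ := Algebra.mem_bot.1 (mem_wsub.1 h2 k)
  exact ⟨r, e.symm⟩

theorem smv : SMV p h c K U := fun z hz =>
  (smp p c K U _).mulVec _ _ (rt_Au p h c K U) ((smp p c K U _).si z hz)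

end P261.Ig
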