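import Vale.Agent.P261Z.Ig.Sum
import Vale.Agent.P261Z.Ig.Smp
import Vale.Agent.P261Z.Ig.Fixi

/-!
# P261, block Ig: the points of finite order
-/

set_option linter.unusedSectionVars false

noncomputable section

namespace P261.Ig

open Vale.Agent.P261Z Vale.Agent.P261Z.N Vale.Agent.P217 Vale.Agent.P251.F P261.C2 Matrix

variable (p : ℕ) [hp : Fact p.Prime] (h c : ℕ) (K U : Type) [Field K] [Pf p K] [CommRing U]
  [Algebra (RR c K) U] [Pf p U]

theorem lw_uU : lw p (h + c) (uU p h c K U) = (FR p h c K).map (algebraMap (RR c K) U) := by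
  rw [lw_uy, FR, Fx_map]

/-- the group of the small vectors -/
def SmG : AddSubgroup (Fin (h + c) → WittVector p U) where
  carrier := {z | Sm (mm c K) z}
  add_mem' := (smp p c K U _).add _ _
  zero_mem' := (smp p c K U _).zero
  neg_mem' := (smp p c K U _).neg _

variable {p h c K U}

theorem SmG_of_pow {L : ℕ} {z : Fin (h + c) → WittVector p U} (hz : p ^ L • z ∈ SmG p h c K U) :
    z ∈ SmG p h c K U := by
  induction L with
  | zero => rwa [pow_zero, one_smul] at hz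
  | succ L ih => exact ih ((smp p c K U _).of_p _ (by rwa [pow_succ', mul_smul] at hz))

theorem SmG_diff {L : ℕ} (ε : Fix p h c K U) {y : Fin (h + c) → WittVector p U}
    (hy : ε.1 - p ^ L • y ∈ SmG p h c K U) : y - VU' p h c K U y ∈ SmG p h c K U := by
  have h1 := sub_mem (show _ ∈ SmG p h c K U from smv p h c K U _ hy) hy
  rw [map_sub, map_nsmul, show VU' p h c K U ε.1 = ε.1 from ε.2, sub_sub_sub_cancel_left,
    ← smul_sub] at h1
  exact SmG_of_pow h1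

namespace Pq

variable {h1 : 1 ≤ h} (hC : CRVS p h c K U h1)

/-- evaluation of small vectors -/
def ev0 (z : SmG p h c K U) : PtR p h c K U :=
  ⟨(hC z z.2).exists_su.choose, (hC z z.2).exists_su.choose_spec.isN⟩

theorem ev0_spec (z : SmG p h c K U) :
    SU (mm c K) (cv (pos_add h1 c) (uU p h c K U) z).ser (ev0 hC z).val :=
  (hC z z.2).exists_su.choose_spec

/-- evaluation of small vectors -/
def ev : SmG p h c K U →+ PtR p h c K U := AddMonoidHom.mk' (ev0 hC) fun a b => Pt.ext (by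
  refine (ev0_spec hC _).uniq ?_
  rw [AddSubgroup.coe_add, map_add, Cv.ser_add, congrArg Law.ps (lw_uU p h c K U), Pt.val_add]
  exact SU.subst (Fin.forall_fin_two.2 ⟨Cv.cc _, Cv.cc _⟩)
    (Fin.forall_fin_two.2 ⟨ev0_spec hC a, ev0_spec hC b⟩) (FR p h c K).toFG.zero_constantCoeff)

theorem ev_spec (z : SmG p h c K U) :
    SU (mm c K) (cv (pos_add h1 c) (uU p h c K U) z).ser (ev hC z).val := ev0_spec hC z

theorem ev_eq {z : Fin (h + c) → WittVector p U} (hz : z ∈ SmG p h c K U) {s : U}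
    (e : SU (mm c K) (cv (pos_add h1 c) (uU p h c K U) z).ser s) : (ev hC ⟨z, hz⟩).val = s :=
  (ev_spec hC ⟨z, hz⟩).uniq e

theorem ev_V (z : SmG p h c K U) : ev hC ⟨VU' p h c K U z, smv p h c K U _ z.2⟩ = ev hC z :=
  Pt.ext (ev_eq hC _ (by
    rw [(cv_crv _ _).ver, mon_ser, map_one, one_mul]
    exact (ev_spec hC z).ver (pow_ne_zero _ hp.out.ne_zero)))

theorem ev_indep {L : ℕ} (ε : Fix p h c K U) {y y' : Fin (h + c) → WittVector p U}
    (hy : ε.1 - p ^ L • y ∈ SmG p h c K U) (hy' : ε.1 - p ^ L • y' ∈ SmG p h c K U) :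
    ev hC ⟨_, SmG_diff ε hy⟩ = ev hC ⟨_, SmG_diff ε hy'⟩ := by
  have h2 := sub_mem hy' hy
  rw [sub_sub_sub_cancel_left, ← smul_sub] at h2
  have h3 := ev_V hC ⟨_, SmG_of_pow h2⟩
  rw [← sub_eq_zero, ← map_sub] at h3 ⊢
  rw [← neg_eq_zero, ← map_neg] at h3
  convert h3 using 2
  refine Subtype.ext ?_
  simp only [AddSubgroup.coe_sub, AddSubgroup.coe_neg, map_sub]
  abel

include h1 in
theorem exists_y (L : ℕ) (ε : Fix p h c K U) : ∃ y, ε.1 - p ^ L • y ∈ SmG p h c K U :=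
  (smp p c K U _).trunc _ (fixi p h c K U h1 ε.1 ε.2) L

/-- the point -/
def P0 (L : ℕ) (ε : Fix p h c K U) : PtR p h c K U :=
  ev hC ⟨_, SmG_diff ε (exists_y (h1 := h1) L ε).choose_spec⟩

theorem P0_eq {L : ℕ} (ε : Fix p h c K U) {y : Fin (h + c) → WittVector p U}
    (hy : ε.1 - p ^ L • y ∈ SmG p h c K U) : P0 hC L ε = ev hC ⟨_, SmG_diff ε hy⟩ :=
  ev_indep hC ε (exists_y (h1 := h1) L ε).choose_spec hy

theorem P0_add (L : ℕ) (ε ε' : Fix p h c K U) : P0 hC L (ε + ε') = P0 hC L ε + P0 hC L ε' := by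
  obtain ⟨y, hy⟩ := exists_y (h1 := h1) L ε
  obtain ⟨y', hy'⟩ := exists_y (h1 := h1) L ε'
  have h2 := add_mem hy hy'
  rw [← add_sub_add_comm, ← smul_add] at h2
  rw [P0_eq hC ε hy, P0_eq hC ε' hy', P0_eq hC (ε + ε') h2, ← map_add]
  refine congrArg _ (Subtype.ext ?_)
  simp only [AddSubgroup.coe_add, map_add]
  abel

theorem P0_zero (ε : Fix p h c K U) : P0 hC 0 ε = 0 := by
  rw [P0_eq hC ε (y := ε.1) (by rw [pow_zero, one_smul, sub_self]; exact zero_mem _),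
    ← map_zero (ev hC)]
  exact congrArg _ (Subtype.ext (sub_eq_zero.2 ε.2.symm))

theorem P0_succ (L : ℕ) (ε : Fix p h c K U) : p • P0 hC (L + 1) ε = P0 hC L ε := by
  obtain ⟨y, hy⟩ := exists_y (h1 := h1) (L + 1) ε
  rw [P0_eq hC ε hy, P0_eq hC ε (y := p • y) (by rwa [← mul_smul, ← pow_succ]), ← map_nsmul]
  refine congrArg _ (Subtype.ext ?_)
  simp only [AddSubgroup.coe_nsmul, map_nsmul, smul_sub]

theorem P0_nat (φ : RR c K →+* RR c K) (Φ : U →+* U)
    (hΦ : ∀ r, Φ (algebraMap (RR c K) U r) = algebraMap (RR c K) U (φ r))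
    (hφ : ∀ r ∈ mm c K, φ r ∈ (mm c K).radical)
    (T : Matrix (Fin (h + c)) (Fin (h + c)) (WittVector p U)) (s : PowerSeries (RR c K))
    (hT : Rt p c K U T)
    (hI : Itw (Au p (h + c) (uU p h c K U)) T (Au p (h + c) fun i => Φ (uU p h c K U i)))
    (hs : PowerSeries.constantCoeff s = 0)
    (hc : cT (pos_add h1 c) (pos_add h1 c) (uU p h c K U) T =
      PowerSeries.map (algebraMap (RR c K) U) s)
    (L : ℕ) (ε ε' : Fix p h c K U) (e : (T *ᵥ fun i => wm p Φ (ε.1 i)) = ε'.1) :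
    (P0 hC L ε').val = evO1 (mm c K) (Φ (P0 hC L ε).val) s := by
  let Θ : (Fin (h + c) → WittVector p U) →+ (Fin (h + c) → WittVector p U) :=
    T.mulVecLin.toAddMonoidHom.comp ((wm p Φ).toAddMonoidHom.compLeft _)
  have e1 : ∀ z, Θ z = T *ᵥ fun i => wm p Φ (z i) := fun _ => rfl
  have e2 : ∀ z, VU' p h c K U (Θ z) = Θ (VU' p h c K U z) := fun z => by
    rw [e1, e1, Mt.itw_vm hI, Vm_apply, Vm_apply, Mt.map_mulVec, Au_map]
    simp only [wm_si]
  obtain ⟨y, hy⟩ := exists_y (h1 := h1) L ε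
  have h2 : Θ _ ∈ SmG p h c K U :=
    (smp p c K U _).mulVec T _ hT ((smp p c K U _).map φ Φ hΦ hφ _ hy)
  rw [map_sub, map_nsmul, e1, e] at h2
  rw [P0_eq hC ε hy, P0_eq hC ε' h2]
  refine ev_eq hC _ ?_
  rw [e2, ← map_sub, e1, cv_mulVec _ _ hI, cv_map, hc]
  refine SU.subst1 ?_ ((ev_spec hC ⟨_, SmG_diff ε hy⟩).map φ Φ hΦ hφ) hs
  rw [cc_map, Cv.cc, map_zero]

theorem P0_unit (ε : Fix p h c K U)
    (hε : Ideal.span (Set.range fun i => (ε.1 i).coeff 0) = ⊤) : IsUnit (P0 hC 1 ε).val := by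
  have hS := smp p c K U (Fin (h + c))
  obtain ⟨ζ, y, z, a1, a2, a3, a4, a5⟩ := one p h c K U h1 hS (fixi p h c K U h1) ε.1 ε.2
  have b1 : IsUnit ζ := Ideal.span_singleton_eq_top.1 (top_unique (hε.ge.trans (Ideal.span_le.2
    (Set.range_subset_iff.2 fun i => Ideal.mem_span_singleton.2 (a2 i)))))
  have b2 : tm p ζ • z ∈ SmG p h c K U := hS.smul ζ z a1.int a4
  have b3 : ε.1 - p ^ 1 • y ∈ SmG p h c K U := (pow_one p).symm ▸ a3
  have b4 : tm p ζ • e0 (pos_add h1 c) (WittVector p U) ∈ SmG p h c K U := by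
    have := sub_mem (SmG_diff ε b3) b2
    rwa [a5, smul_add, add_sub_cancel_right] at this
  have b5 : P0 hC 1 ε = ev hC ⟨_, b4⟩ + ev hC ⟨_, b2⟩ := by
    rw [P0_eq hC ε b3, ← map_add]
    exact congrArg _ (Subtype.ext (a5.trans (smul_add _ _ _)))
  have b6 : (ev hC ⟨_, b4⟩).val = ζ := ev_eq hC _ (by
    rw [(cv_crv _ _).tei, cv_e0, mon_xx_ser]
    exact SU.mon a1 _)
  obtain ⟨j, b7, b8⟩ := (ev_spec hC ⟨z, a4⟩).resc (Cv.cc _) a1.int
  have b9 : (ev hC ⟨_, b2⟩).val = ζ * j := ev_eq hC _ (by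
    rw [(cv_crv _ _).tei, mon_ser, pow_zero, pow_one]
    exact b8)
  obtain ⟨w, -, c1, c2⟩ := Pt.exists_val_add (ev hC ⟨_, b4⟩) (ev hC ⟨_, b2⟩)
  have c3 : IsIntegral (RR c K) (w⁻¹ : Uˣ).val :=
    (Algebra.adjoin_le (S := integralClosure (RR c K) U) (Set.pair_subset (Pt.isN _).int
      (Pt.isN _).int)) c1
  obtain ⟨t, -, c4⟩ := (b7.mul_left c3).unit
  rw [b5, c2, b6, b9, show ζ * w + ζ * j = ζ * (w * (1 + (w⁻¹ : Uˣ) * j)) by
    rw [mul_add, mul_one, w.mul_inv_cancel_left, mul_add]]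
  exact b1.mul (w.isUnit.mul (IsUnit.of_mul_eq_one t c4))

end Pq

/-- the points of finite order -/
def pts {h1 : 1 ≤ h} (hC : CRVS p h c K U h1) : PTS p h c K U h1 where
  P L := AddMonoidHom.mk' (Pq.P0 hC L) (Pq.P0_add hC L)
  zero := Pq.P0_zero hC
  succ := Pq.P0_succ hC
  nat := Pq.P0_nat hC
  unit := Pq.P0_unit hC

end P261.Ig
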