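import Vale.Agent.P261Z.Ig.Fd1
import Vale.Agent.P261Z.Ig.Crvs
import Vale.Agent.P261Z.Ig.Pts

/-!
# P261, block Ig: the formal data exist
-/

namespace P261.Ig

theorem stFD (p : ℕ) [Fact p.Prime] : Top.StFD p :=
  stFD_of p fun h c h1 _ K _ _ => ⟨pts (crvs p h c K _ h1)⟩

end P261.Ig
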