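import Vale.Agent.P261Z.Ig.PSk

/-!
# P261, block Ig: sums of the coefficients of restricted series
-/

set_option linter.unusedSectionVars false

noncomputable section

namespace P261.Ig

open Vale.Agent.P261Z Vale.Agent.P261Z.Ev Vale.Agent.P217 Vale.Agent.P251.F PowerSeries

section

variable {R B B' : Type} [CommRing R] [CommRing B] [CommRing B'] {I I' J : Ideal B} {J' : Ideal B'}
  {γ γ' : PowerSeries B} {s s' : B}

theorem cc_map (Φ : B →+* B') (γ : PowerSeries B) :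
    constantCoeff (map Φ γ) = Φ (constantCoeff γ) := rfl

/-- the series with coefficients in `I` -/
def CJ (I : Ideal B) : Ideal (PowerSeries B) := RingHom.ker (map (Ideal.Quotient.mk I))

theorem mem_CJ : γ ∈ CJ I ↔ ∀ d, coeff d γ ∈ I := by
  simp only [CJ, RingHom.mem_ker, PowerSeries.ext_iff, coeff_map, map_zero,
    Ideal.Quotient.eq_zero_iff_mem]

theorem CJ_mono (h : I ≤ I') : CJ I ≤ CJ I' := fun _ hγ => mem_CJ.2 fun d => h (mem_CJ.1 hγ d)

theorem CJ_mul : CJ I * CJ I' ≤ CJ (I * I') := Ideal.mul_le.2 fun a ha b hb => mem_CJ.2 fun d => by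
  rw [coeff_mul]
  exact sum_mem fun x _ => Ideal.mul_mem_mul (mem_CJ.1 ha _) (mem_CJ.1 hb _)

theorem CJ_pow (N : ℕ) : CJ I ^ N ≤ CJ (I ^ N) := by
  induction N with
  | zero => exact fun _ _ => mem_CJ.2 fun _ => by simp
  | succ N ih =>
    rw [pow_succ, pow_succ]
    exact (Ideal.mul_mono_left ih).trans CJ_mul

theorem CJ_map (Φ : B →+* B') (h : ∀ x ∈ J, Φ x ∈ J') (hγ : γ ∈ CJ J) : map Φ γ ∈ CJ J' :=
  mem_CJ.2 fun d => h _ (mem_CJ.1 hγ d)

theorem CJ_rep {a : PowerSeries B} (ha : constantCoeff a = 0) (hγ : γ ∈ CJ I) :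
    γ.subst a ∈ CJ I := by
  have h := hasSubst_of_cc ha
  have h1 : map (Ideal.Quotient.mk I) γ = 0 := hγ
  refine (PowerSeries.map_subst h (h := Ideal.Quotient.mk I) γ).trans ?_
  rw [h1]
  exact ps_subst_zero (hasSubst_of_cc ((cc_map _ a).trans (by rw [ha, map_zero])))

theorem C_mem_CJ (h : s ∈ I) : C s ∈ CJ I := by
  rw [CJ, RingHom.mem_ker, map_C, Ideal.Quotient.eq_zero_iff_mem.2 h, map_zero]

theorem eval_mem {P : Polynomial B} (h : (P : PowerSeries B) ∈ CJ I) (x : B) : P.eval x ∈ I := by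
  rw [Polynomial.eval_eq_sum_range]
  exact sum_mem fun d _ => I.mul_mem_right _ (Polynomial.coeff_coe P d ▸ mem_CJ.1 h d)

theorem rs_iff : Rs J γ ↔ ∀ N, ∃ P : Polynomial B, γ - P ∈ CJ (J ^ N) := by
  refine forall_congr' fun N => ⟨fun ⟨d₀, h⟩ => ⟨trunc d₀ γ, mem_CJ.2 fun d => ?_⟩,
    fun ⟨P, h⟩ => ⟨P.natDegree + 1, fun d hd => ?_⟩⟩
  · rw [map_sub, Polynomial.coeff_coe, coeff_trunc]
    split_ifs with h1
    · rw [sub_self]
      exact zero_mem _
    · rw [sub_zero]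
      exact h d (not_lt.1 h1)
  · have := mem_CJ.1 h d
    rwa [map_sub, Polynomial.coeff_coe, Polynomial.coeff_eq_zero_of_natDegree_lt hd, sub_zero] at this

/-- restricted series -/
def RS (J : Ideal B) : Subring (PowerSeries B) where
  carrier := {γ | Rs J γ}
  mul_mem' {a b} ha hb := rs_iff.2 fun N => by
    obtain ⟨P, hP⟩ := rs_iff.1 ha N
    obtain ⟨Q, hQ⟩ := rs_iff.1 hb N
    refine ⟨P * Q, ?_⟩
    rw [Polynomial.coe_mul, show a * b - P * Q = a * (b - Q) + (a - P) * Q by ring]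
    exact add_mem (Ideal.mul_mem_left _ _ hQ) (Ideal.mul_mem_right _ _ hP)
  add_mem' {a b} ha hb := rs_iff.2 fun N => by
    obtain ⟨P, hP⟩ := rs_iff.1 ha N
    obtain ⟨Q, hQ⟩ := rs_iff.1 hb N
    refine ⟨P + Q, ?_⟩
    rw [Polynomial.coe_add, add_sub_add_comm]
    exact add_mem hP hQ
  one_mem' := rs_iff.2 fun _ => ⟨1, by simp⟩
  zero_mem' := rs_iff.2 fun _ => ⟨0, by simp⟩
  neg_mem' ha N := (ha N).imp fun _ h d hd => by
    rw [map_neg]
    exact neg_mem (h d hd)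

theorem mem_RS : γ ∈ RS J ↔ Rs J γ := Iff.rfl

theorem coe_mem_RS (P : Polynomial B) : (P : PowerSeries B) ∈ RS J :=
  rs_iff.2 fun _ => ⟨P, by simp⟩

variable (J) in
/-- `s` is the sum of the coefficients of `γ` -/
def SB (γ : PowerSeries B) (s : B) : Prop :=
  ∀ N, ∃ P : Polynomial B, γ - P ∈ CJ (J ^ N) ∧ s - P.eval 1 ∈ J ^ N

theorem SB.rs (h : SB J γ s) : Rs J γ := rs_iff.2 fun N => (h N).imp fun _ h => h.1

theorem SB.poly (P : Polynomial B) : SB J P (P.eval 1) := fun _ => ⟨P, by simp, by simp⟩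

theorem SB.C (a : B) : SB J (C a) a := by simpa using SB.poly (J := J) (Polynomial.C a)

theorem SB.X : SB J X 1 := by simpa using SB.poly (J := J) Polynomial.X

theorem SB.add (h : SB J γ s) (h' : SB J γ' s') : SB J (γ + γ') (s + s') := fun N => by
  obtain ⟨P, h1, h2⟩ := h N
  obtain ⟨Q, h3, h4⟩ := h' N
  refine ⟨P + Q, ?_, ?_⟩
  · rw [Polynomial.coe_add, add_sub_add_comm]
    exact add_mem h1 h3
  · rw [Polynomial.eval_add, add_sub_add_comm]
    exact add_mem h2 h4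

theorem SB.mul (h : SB J γ s) (h' : SB J γ' s') : SB J (γ * γ') (s * s') := fun N => by
  obtain ⟨P, h1, h2⟩ := h N
  obtain ⟨Q, h3, h4⟩ := h' N
  refine ⟨P * Q, ?_, ?_⟩
  · rw [Polynomial.coe_mul, show γ * γ' - P * Q = γ * (γ' - Q) + (γ - P) * Q by ring]
    exact add_mem (Ideal.mul_mem_left _ _ h3) (Ideal.mul_mem_right _ _ h1)
  · rw [Polynomial.eval_mul, show s * s' - P.eval 1 * Q.eval 1 =
      s * (s' - Q.eval 1) + (s - P.eval 1) * Q.eval 1 by ring]
    exact add_mem (Ideal.mul_mem_left _ _ h4) (Ideal.mul_mem_right _ _ h2)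

theorem SB.sub_mem (h : SB J γ s) (h' : SB J γ' s') {N : ℕ} (e : γ - γ' ∈ CJ (J ^ N)) :
    s - s' ∈ J ^ N := by
  obtain ⟨P, h1, h2⟩ := h N
  obtain ⟨Q, h3, h4⟩ := h' N
  have h5 := eval_mem (P := P - Q) (I := J ^ N) (by
    rw [Polynomial.coe_sub, show (P : PowerSeries B) - Q = γ - γ' - (γ - P) + (γ' - Q) by ring]
    exact add_mem (_root_.sub_mem e h1) h3) 1
  rw [show s - s' = s - P.eval 1 + (P - Q).eval 1 - (s' - Q.eval 1) by
    rw [Polynomial.eval_sub]; ring]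
  exact _root_.sub_mem (add_mem h2 h5) h4

theorem SB.mem (h : SB J γ s) (hγ : γ ∈ CJ J) : s ∈ J := by
  simpa using h.sub_mem (SB.C 0) (N := 1) (by simpa using hγ)

theorem SB.uniq [IsHausdorff J B] (h : SB J γ s) (h' : SB J γ s') : s = s' :=
  eq_of_mem J fun _ => h.sub_mem h' (by simp)

theorem Rs.exists_sb [IsAdicComplete J B] (h : Rs J γ) : ∃ s, SB J γ s := by
  choose P hP using rs_iff.1 h
  obtain ⟨s, hs⟩ := IsPrecomplete.prec (I := J) (M := B) inferInstance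
    (f := fun N => (P N).eval 1) fun {m n} hmn => by
      rw [SModEq.sub_mem, smul_eq_mul, Ideal.mul_top, ← Polynomial.eval_sub]
      refine eval_mem ?_ 1
      rw [Polynomial.coe_sub, ← sub_sub_sub_cancel_left _ _ γ]
      exact _root_.sub_mem (CJ_mono (Ideal.pow_le_pow_right hmn) (hP n)) (hP m)
  refine ⟨s, fun N => ⟨P N, hP N, ?_⟩⟩
  have := (hs N).symm
  rwa [SModEq.sub_mem, smul_eq_mul, Ideal.mul_top] at this

theorem SB.map (Φ : B →+* B') (hΦ : ∀ x ∈ J, Φ x ∈ J') (h : SB J γ s) :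
    SB J' (map Φ γ) (Φ s) := fun N => by
  obtain ⟨P, h1, h2⟩ := h N
  refine ⟨P.map Φ, ?_, ?_⟩
  · rw [Polynomial.polynomial_map_coe, ← map_sub]
    exact CJ_map Φ (NM.map_mem_pow Φ hΦ N) h1
  · rw [← map_one Φ, Polynomial.eval_map_apply, ← map_sub]
    exact NM.map_mem_pow Φ hΦ N h2

theorem rep_poly {a : Polynomial B} (ha : constantCoeff (a : PowerSeries B) = 0) (P : Polynomial B)
    (h : γ - P ∈ CJ I) : γ.subst (a : PowerSeries B) - P.comp a ∈ CJ I := by
  have h0 := hasSubst_of_cc ha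
  have h1 := CJ_rep ha h
  rw [← coe_substAlgHom h0, map_sub, substAlgHom_coe, coe_substAlgHom] at h1
  convert h1 using 2
  exact (Polynomial.aeval_algHom_apply (Polynomial.coeToPowerSeries.algHom B) a P).symm

theorem Rs.rep {a : Polynomial B} (ha : constantCoeff (a : PowerSeries B) = 0) (h : Rs J γ) :
    Rs J (γ.subst (a : PowerSeries B)) := rs_iff.2 fun N =>
  (rs_iff.1 h N).elim fun P hP => ⟨_, rep_poly ha P hP⟩

theorem SB.rep {a : Polynomial B} (ha : constantCoeff (a : PowerSeries B) = 0)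
    (h1 : a.eval 1 = 1) (h : SB J γ s) : SB J (γ.subst (a : PowerSeries B)) s := fun N => by
  obtain ⟨P, h2, h3⟩ := h N
  exact ⟨_, rep_poly ha P h2, by rwa [Polynomial.eval_comp, h1]⟩

variable {σ : Type} [Finite σ]

/-- substitution of series as a ring map -/
def sbH (φ : R →+* B) {γ : σ → PowerSeries B} (h0 : ∀ i, constantCoeff (γ i) = 0) :
    MvPowerSeries σ R →+* PowerSeries B :=
  (MvPowerSeries.substAlgHom (R := B)
    (MvPowerSeries.hasSubst_of_constantCoeff_zero h0)).toRingHom.comp (MvPowerSeries.map φ)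

theorem sbH_apply (φ : R →+* B) {γ : σ → PowerSeries B} (h0 : ∀ i, constantCoeff (γ i) = 0)
    (G : MvPowerSeries σ R) : sbH φ h0 G = MvPowerSeries.subst γ (MvPowerSeries.map φ G) :=
  MvPowerSeries.substAlgHom_apply (MvPowerSeries.hasSubst_of_constantCoeff_zero h0) _

theorem sbH_X (φ : R →+* B) {γ : σ → PowerSeries B} (h0 : ∀ i, constantCoeff (γ i) = 0) (i : σ) :
    sbH φ h0 (MvPowerSeries.X i) = γ i := by
  rw [sbH_apply, MvPowerSeries.map_X,
    MvPowerSeries.subst_X (MvPowerSeries.hasSubst_of_constantCoeff_zero h0)]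

theorem sbH_C (φ : R →+* B) {γ : σ → PowerSeries B} (h0 : ∀ i, constantCoeff (γ i) = 0) (r : R) :
    sbH φ h0 (MvPowerSeries.C r) = C (φ r) := by
  rw [sbH_apply, MvPowerSeries.map_C, MvPowerSeries.subst_C]
  rfl

/-- substitution into a series without constant term -/
theorem subst_mem_ideal (φ : R →+* B) {γ : σ → PowerSeries B} (h0 : ∀ i, constantCoeff (γ i) = 0)
    {L : Ideal (PowerSeries B)} (h : ∀ i, γ i ∈ L) {G : MvPowerSeries σ R}
    (hG : MvPowerSeries.constantCoeff G = 0) :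
    MvPowerSeries.subst γ (MvPowerSeries.map φ G) ∈ L := by
  rw [← sbH_apply φ h0, ← pow_one L]
  exact map_mem_pow _ (fun i => by rw [sbH_X]; exact h i) (by simpa using mem_IX.2 hG)

theorem sbH_trunc (φ : R →+* B) {γ : σ → PowerSeries B} (h0 : ∀ i, constantCoeff (γ i) = 0)
    (h : ∀ i, γ i ∈ CJ J) (G : MvPowerSeries σ R) (N : ℕ) :
    sbH φ h0 G - sbH φ h0 (MvPowerSeries.truncTotal N G : MvPolynomial σ R) ∈ CJ (J ^ N) := by
  rw [← map_sub]
  exact CJ_pow N (map_mem_pow (sbH φ h0) (fun i => by rw [sbH_X]; exact h i) (sub_trunc_mem N G))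

theorem subst_mem_RS (φ : R →+* B) {γ : σ → PowerSeries B} (h0 : ∀ i, constantCoeff (γ i) = 0)
    (h : ∀ i, γ i ∈ CJ J) (h' : ∀ i, γ i ∈ RS J) (G : MvPowerSeries σ R) :
    MvPowerSeries.subst γ (MvPowerSeries.map φ G) ∈ RS J := rs_iff.2 fun N => by
  have h1 : ∀ Q : MvPolynomial σ R, sbH φ h0 Q ∈ RS J := fun Q => by
    induction Q using MvPolynomial.induction_on with
    | C r => rw [MvPolynomial.coe_C, sbH_C, ← Polynomial.coe_C]; exact coe_mem_RS _
    | add a b ha hb => rw [MvPolynomial.coe_add, map_add]; exact add_mem ha hb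
    | mul_X a i ha =>
      rw [MvPolynomial.coe_mul, map_mul, MvPolynomial.coe_X, sbH_X]
      exact mul_mem ha (h' i)
  obtain ⟨P, hP⟩ := rs_iff.1 (h1 (MvPowerSeries.truncTotal N G)) N
  have h2 := add_mem (sbH_trunc φ h0 h G N) hP
  rw [sub_add_sub_cancel, sbH_apply] at h2
  exact ⟨P, h2⟩

theorem SB.subst [IsAdicComplete J B] (φ : R →+* B) {γ : σ → PowerSeries B} {s : σ → B}
    (h0 : ∀ i, constantCoeff (γ i) = 0) (h : ∀ i, γ i ∈ CJ J) (h' : ∀ i, SB J (γ i) (s i))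
    (G : MvPowerSeries σ R) :
    SB J (MvPowerSeries.subst γ (MvPowerSeries.map φ G)) (ev J φ s G) := fun N => by
  have hs := fun i => (h' i).mem (h i)
  have h1 : ∀ Q : MvPolynomial σ R, SB J (sbH φ h0 Q) (ev J φ s Q) := fun Q => by
    induction Q using MvPolynomial.induction_on with
    | C r => rw [MvPolynomial.coe_C, sbH_C, ev_C]; exact SB.C _
    | add a b ha hb => rw [MvPolynomial.coe_add, map_add, map_add]; exact ha.add hb
    | mul_X a i ha =>
      rw [MvPolynomial.coe_mul, map_mul, map_mul, MvPolynomial.coe_X, sbH_X, ev_X φ hs]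
      exact ha.mul (h' i)
  obtain ⟨P, hP, hP'⟩ := h1 (MvPowerSeries.truncTotal N G) N
  have h2 := add_mem (sbH_trunc φ h0 h G N) hP
  have h3 := ev_mem_pow φ hs (sub_trunc_mem N G)
  rw [map_sub] at h3
  have h4 := add_mem h3 hP'
  rw [sub_add_sub_cancel] at h2 h4
  rw [sbH_apply] at h2
  exact ⟨P, h2, h4⟩

end

section

variable {R R' U U' : Type} [CommRing R] [CommRing R'] [CommRing U] [CommRing U'] [Algebra R U]
  [Algebra R' U'] {m : Ideal R} {m' : Ideal R'} {γ γ' : PowerSeries U} {s s' : U}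

variable (m) in
/-- the sum, computed in `B` -/
def SA (B : Subalgebra R U) (γ : PowerSeries U) (s : U) : Prop :=
  ∃ (γ' : PowerSeries B) (s' : B), map B.val.toRingHom γ' = γ ∧ (s' : U) = s ∧
    γ' ∈ CJ (JB m B) ∧ SB (JB m B) γ' s'

variable (m) in
/-- the sum -/
def SU (γ : PowerSeries U) (s : U) : Prop :=
  ∃ B : Subalgebra R U, Module.Finite R B ∧ SA m B γ s

theorem SA.map {B : Subalgebra R U} {B' : Subalgebra R' U'} (φ : R →+* R') (Φ : U →+* U')
    (hφ : ∀ r, Φ (algebraMap R U r) = algebraMap R' U' (φ r)) (hm : ∀ r ∈ m, φ r ∈ m'.radical)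
    (hB : ∀ x ∈ B, Φ x ∈ B') (h : SA m B γ s) : SA m' B' (map Φ γ) (Φ s) := by
  obtain ⟨γ', s', rfl, rfl, h1, h2⟩ := h
  let Ψ : B →+* B' := (Φ.comp B.val.toRingHom).codRestrict B' fun x => hB _ x.2
  have h3 : ∀ x ∈ JB m B, Ψ x ∈ JB m' B' := fun x =>
    JB_map φ Ψ (fun r => Subtype.ext (hφ r)) hm
  exact ⟨PowerSeries.map Ψ γ', Ψ s', PowerSeries.ext fun _ => rfl, rfl, CJ_map Ψ h3 h1, h2.map Ψ h3⟩

theorem SA.mono {B B' : Subalgebra R U} (hB : B ≤ B') (h : SA m B γ s) : SA m B' γ s :=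
  h.map (RingHom.id R) (RingHom.id U) (fun _ => rfl) (fun _ hr => Ideal.le_radical hr) hB

theorem exists_ub {σ : Type} [Finite σ] (B : σ → Subalgebra R U) (h : ∀ i, Module.Finite R (B i)) :
    ∃ B' : Subalgebra R U, Module.Finite R B' ∧ ∀ i, B i ≤ B' := by
  have := Fintype.ofFinite σ
  refine ⟨Finset.univ.sup B, ?_, fun i => Finset.le_sup (Finset.mem_univ i)⟩
  refine Finset.sup_induction (p := fun B : Subalgebra R U => Module.Finite R B) inferInstance
    (fun a ha b hb => ?_) fun i _ => h i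
  exact Subalgebra.finite_sup a b

theorem exists_map_le (φ : R →+* R') (Φ : U →+* U')
    (hφ : ∀ r, Φ (algebraMap R U r) = algebraMap R' U' (φ r)) (B : Subalgebra R U)
    [hB : Module.Finite R B] : ∃ B' : Subalgebra R' U', Module.Finite R' B' ∧ ∀ x ∈ B, Φ x ∈ B' := by
  obtain ⟨n, b, hb⟩ := Module.Finite.exists_fin (R := R) (M := B)
  refine ⟨_, finite_adjoin (y := fun i => Φ (b i)) fun i => int_map φ Φ hφ
    ((Algebra.IsIntegral.isIntegral (b i)).map B.val), fun x hx => ?_⟩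
  have h1 : (⟨x, hx⟩ : B) ∈ Submodule.span R (Set.range b) := hb ▸ trivial
  refine Submodule.span_induction (p := fun y _ => Φ (y : B) ∈ _) ?_ ?_ ?_ ?_ h1
  · rintro _ ⟨i, rfl⟩
    exact Algebra.subset_adjoin ⟨i, rfl⟩
  · exact (map_zero Φ).symm ▸ zero_mem _
  · exact fun x y _ _ hx hy => (map_add Φ _ _).symm ▸ add_mem hx hy
  · intro r x _ hx
    rw [Subalgebra.coe_smul, Algebra.smul_def, map_mul, hφ]
    exact mul_mem (Subalgebra.algebraMap_mem _ _) hx

theorem SU.map (φ : R →+* R') (Φ : U →+* U')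
    (hφ : ∀ r, Φ (algebraMap R U r) = algebraMap R' U' (φ r)) (hm : ∀ r ∈ m, φ r ∈ m'.radical)
    (h : SU m γ s) : SU m' (map Φ γ) (Φ s) := by
  obtain ⟨B, _, h⟩ := h
  obtain ⟨B', h1, h2⟩ := exists_map_le φ Φ hφ B
  exact ⟨B', h1, h.map φ Φ hφ hm h2⟩

theorem SU.isN (h : SU m γ s) : IsN m s := by
  obtain ⟨B, _, γ', s', -, rfl, h1, h2⟩ := h
  exact (isN_iff B s').2 (h2.mem h1)

theorem SU.mon {b : U} (hb : IsN m b) (e : ℕ) : SU m (C b * X ^ e) b := by
  have := finite_adjoin (R := R) (y := fun _ : Unit => b) fun _ => hb.int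
  let b' : Algebra.adjoin R (Set.range fun _ : Unit => b) := ⟨b, Algebra.subset_adjoin ⟨(), rfl⟩⟩
  refine ⟨_, this, C b' * X ^ e, b', by simp [b'], rfl,
    Ideal.mul_mem_right _ _ (C_mem_CJ ((isN_iff _ b').1 hb)), ?_⟩
  have h := SB.poly (J := JB m _) (Polynomial.C b' * Polynomial.X ^ e)
  rwa [Polynomial.coe_mul, Polynomial.coe_C, Polynomial.coe_pow, Polynomial.coe_X,
    Polynomial.eval_mul, Polynomial.eval_C, Polynomial.eval_pow, Polynomial.eval_X, one_pow,
    mul_one] at h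

theorem map_val_cc {B : Subalgebra R U} {γ' : PowerSeries B}
    (h : constantCoeff (PowerSeries.map B.val.toRingHom γ') = 0) : constantCoeff γ' = 0 :=
  Subtype.ext ((cc_map B.val.toRingHom γ').symm.trans h)

theorem SU.ver {e : ℕ} (he : e ≠ 0) (h : SU m γ s) : SU m (γ.subst (X ^ e : PowerSeries U)) s := by
  obtain ⟨B, hB, γ', s', rfl, rfl, h1, h2⟩ := h
  have h0 : constantCoeff ((Polynomial.X ^ e : Polynomial B) : PowerSeries B) = 0 := by simp [he]
  refine ⟨B, hB, _, s', ?_, rfl, CJ_rep h0 h1, h2.rep h0 (by simp)⟩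
  refine (PowerSeries.map_subst (hasSubst_of_cc h0) _).trans (congrArg (subst · _) ?_)
  change PowerSeries.map _ _ = _
  simp

variable [IsNoetherianRing R] [IsAdicComplete m R]

theorem RsU.exists_su (h : RsU m γ) : ∃ s, SU m γ s := by
  obtain ⟨B, γ', hB, h1, h2, h3⟩ := h
  obtain ⟨s, hs⟩ := h3.exists_sb
  exact ⟨s, B, hB, γ', s, h1, rfl, mem_CJ.2 h2, hs⟩

theorem SU.uniq (h : SU m γ s) (h' : SU m γ s') : s = s' := by
  obtain ⟨B, _, h⟩ := h
  obtain ⟨B', _, h'⟩ := h'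
  have := Subalgebra.finite_sup B B'
  obtain ⟨a, b, h1, rfl, -, h2⟩ := h.mono (le_sup_left (b := B'))
  obtain ⟨a', b', h3, rfl, -, h4⟩ := h'.mono (le_sup_right (a := B))
  obtain rfl := PowerSeries.map_injective _ Subtype.val_injective (h1.trans h3.symm)
  rw [h2.uniq h4]

theorem SU.subst {σ : Type} [Finite σ] {γ : σ → PowerSeries U} {s : σ → U}
    (h0 : ∀ i, constantCoeff (γ i) = 0) (h : ∀ i, SU m (γ i) (s i)) {G : MvPowerSeries σ R}
    (hG : MvPowerSeries.constantCoeff G = 0) :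
    SU m (MvPowerSeries.subst γ (MvPowerSeries.map (algebraMap R U) G)) (evO m s G) := by
  choose B hB h using h
  obtain ⟨B', _, h1⟩ := exists_ub B hB
  choose a b h2 h3 h4 h5 using fun i => (h i).mono (h1 i)
  obtain rfl := funext h2
  obtain rfl := funext h3
  have h6 := fun i => map_val_cc (h0 i)
  refine ⟨B', ‹_›, _, _, ?_, (evO_eq B'.val (fun i => (h5 i).mem (h4 i)) G).symm,
    subst_mem_ideal _ h6 h4 hG, SB.subst _ h6 h4 h5 G⟩
  refine (MvPowerSeries.map_subst (MvPowerSeries.hasSubst_of_constantCoeff_zero h6) _).trans ?_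
  rw [MvPowerSeries.map_map]
  rfl

theorem SU.subst1 (h0 : constantCoeff γ = 0) (h : SU m γ s) {G : PowerSeries R}
    (hG : constantCoeff G = 0) :
    SU m ((PowerSeries.map (algebraMap R U) G).subst γ) (evO1 m s G) :=
  SU.subst (σ := Unit) (fun _ => h0) (fun _ => h) hG

theorem SU.resc (h0 : constantCoeff γ = 0) (h : SU m γ s) {ζ : U} (hζ : IsIntegral R ζ) :
    ∃ j, IsN m j ∧ SU m (γ.subst (C ζ * X : PowerSeries U)) (ζ * j) := by
  obtain ⟨B, _, h⟩ := h
  have := finite_adjoin (R := R) (y := fun _ : Unit => ζ) fun _ => hζ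
  obtain ⟨B', hB, h1, h2⟩ : ∃ B' : Subalgebra R U, Module.Finite R B' ∧ B ≤ B' ∧ ζ ∈ B' :=
    ⟨_, Subalgebra.finite_sup B (Algebra.adjoin R (Set.range fun _ : Unit => ζ)), le_sup_left,
      le_sup_right (a := B) (Algebra.subset_adjoin ⟨(), rfl⟩)⟩
  lift ζ to B' using h2
  obtain ⟨a, b, rfl, rfl, h3, h4⟩ := h.mono h1
  obtain ⟨a, rfl⟩ := X_dvd_iff.2 (map_val_cc h0)
  have h5 : constantCoeff ((Polynomial.C ζ * Polynomial.X : Polynomial B') : PowerSeries B') = 0 := by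
    simp
  have h6 : a ∈ CJ (JB m B') := mem_CJ.2 fun d => coeff_succ_X_mul d a ▸ mem_CJ.1 h3 _
  have h7 : Rs (JB m B') a := fun N => (h4.rs N).imp fun d₀ h d hd =>
    coeff_succ_X_mul d a ▸ h _ (hd.trans d.le_succ)
  have h8 := Ideal.mul_mem_left _ X (CJ_rep h5 h6)
  obtain ⟨j, hj⟩ := Rs.exists_sb ((RS _).mul_mem SB.X.rs (h7.rep h5))
  refine ⟨j, (isN_iff B' j).2 (hj.mem h8), B', hB, _, ζ * j, ?_, rfl, Ideal.mul_mem_left _ _ h8,
    (SB.C ζ).mul hj⟩
  have h9 := hasSubst_of_cc (show constantCoeff (C (ζ : U) * X : PowerSeries U) = 0 by simp)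
  rw [map_mul, map_mul, map_mul, map_X, map_C, subst_mul h9, subst_X h9, mul_assoc]
  congr 2
  refine (PowerSeries.map_subst (hasSubst_of_cc h5) _).trans ?_
  congr 1
  change PowerSeries.map _ _ = _
  simp

end

end P261.Ig
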