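import Vale.Agent.P261Z.RT.Mv

/-!
# P261, block N6: the torsors
-/

set_option linter.unusedSectionVars false

noncomputable section

namespace P261.Ig

open Vale.Agent.P261Z Vale.Agent.P261Z.N Vale.Agent.P217 Vale.Agent.P251.F P261.RT

variable {p h c : ℕ} [hp : Fact p.Prime] {K G : Type} [Field K] [Pf p K] [Group G]
  [TopologicalSpace G]

namespace FD

variable {A : RG p h c G K} {hc : 0 < c} {AA : Type} [CommRing AA] [Algebra (RR c K) AA]
  [Pf p AA] {Γ : Type} [Group Γ] {I : FD A hc AA Γ}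

theorem td_TL_zero (j : ℕ) : I.TL 0 j = I.T j := Subalgebra.ext fun z => by
  rw [mem_TL, pow_zero, pow_one]

theorem td_vi (j : ℕ) : ((I.v⁻¹ : AAˣ) : AA) ∈ I.T j :=
  Algebra.subset_adjoin (Set.mem_insert _ _)

theorem td_monS (hB : I.Bas) {D B M j : ℕ} (hBM : B ≤ M) (hj : M ≤ j)
    (h1 : ∀ z ∈ I.OL M j, ∃ r : (Fin c → Fin ((p ^ h) ^ B)) → AA, (∀ α, r α ∈ I.OL (M - B) j) ∧
      (I.v : AA) ^ D * z = ∑ α, r α * PB.mn (I.x M) α)
    (h2 : ∀ r : (Fin c → Fin ((p ^ h) ^ B)) → AA, (∀ α, r α ∈ I.TL (M - B) j) →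
      ∑ α, r α * PB.mn (I.x M) α = 0 → ∀ α, r α = 0) :
    MonS (I.TL (M - B) j) (I.TL M j) ((p ^ h) ^ B) (I.x M) := by
  obtain ⟨n, rfl⟩ := Nat.exists_eq_add_of_le hBM
  have q0 : ∀ n, 0 < (p ^ h) ^ n := fun n => pow_pos (pow_pos hp.out.pos h) n
  have hy : ∀ i, I.y (B + n) i ∈ I.T j := fun i =>
    (hB.L_le j (hB.L_mono hj (Algebra.subset_adjoin (Or.inr ⟨i, rfl⟩)))).2
  rw [Nat.add_sub_cancel_left] at h1 h2 ⊢
  refine ⟨fun z hz => ?_, q0 B, fun i => I.mem_TL.2 (hy i), fun i => I.mem_TL.2 ?_,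
    fun z hz => ?_, h2⟩
  · rw [mem_TL, add_comm, pow_add, pow_mul]
    exact pow_mem (I.mem_TL.1 hz) _
  · rw [← pow_mul, ← pow_add]
    exact hy i
  · have hv : ∀ j, (I.v : AA) ∈ I.O j := fun j => I.v_eq ▸ Subalgebra.algebraMap_mem _ _
    obtain ⟨N, hN⟩ := (hB.mem_T j _).1 (I.mem_TL.1 hz)
    obtain ⟨d, hd⟩ := Nat.exists_eq_add_of_le' (Nat.le_mul_of_pos_right N (q0 (B + n)))
    obtain ⟨r, hr, e⟩ := h1 ((I.v : AA) ^ N * z) ⟨IsIntegral.of_pow (q0 (B + n)) (by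
      rw [mul_pow, ← pow_mul, hd, pow_add, mul_assoc]
      exact IsIntegral.mul (pow_mem (hv j).1 d) (hB.L_le j hN).1),
      mul_mem (I.mem_TL.2 (pow_mem (pow_mem (hv j).2 N) _)) hz⟩
    refine ⟨fun α => (I.v⁻¹ : AAˣ) ^ (D + N) * r α, fun α =>
      mul_mem (I.mem_TL.2 (pow_mem (pow_mem (td_vi j) _) _)) (hr α).2, ?_⟩
    simp only [mul_assoc, ← Finset.mul_sum, ← e]
    rw [← mul_assoc (_ ^ D), ← pow_add, ← mul_assoc, ← mul_pow, Units.inv_mul, one_pow, one_mul]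

theorem td_P_add (B n : ℕ) (i : Fin c) : p ^ B • I.P (n + B) i = I.P n i := by
  induction B with
  | zero => rw [pow_zero, one_smul, add_zero]
  | succ B ih => rw [pow_succ, mul_smul, ← add_assoc, I.P_succ, ih]

variable (I) in
/-- the truncation of `f` -/
def fbT (j : ℕ) : PowerSeries (I.T j) := PowerSeries.mk fun d => if hd : d < (p ^ h) ^ j then
  ⟨PowerSeries.coeff d I.f, Algebra.subset_adjoin (Set.mem_insert_of_mem _ (Or.inl ⟨d, hd, rfl⟩))⟩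
  else 0

theorem coeff_fbT (j : ℕ) : ∀ d < (p ^ h) ^ j,
    (I.T j).val.toRingHom (PowerSeries.coeff d (I.fbT j)) = PowerSeries.coeff d I.f := fun d hd => by
  rw [fbT, PowerSeries.coeff_mk, dif_pos hd]
  rfl

theorem coeff_fbT' (j : ℕ) {d : ℕ} (hd : (p ^ h) ^ j ≤ d) : PowerSeries.coeff d (I.fbT j) = 0 := by
  rw [fbT, PowerSeries.coeff_mk, dif_neg hd.not_gt]

variable [Algebra (ZMod p) (RR c K)] [Algebra (ZMod p) AA] [IsScalarTower (ZMod p) (RR c K) AA]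

theorem td_cd (hB : I.Bas) {D B M j : ℕ} (hBM : B ≤ M) (hj : M + 1 ≤ j)
    (hD : ∀ B M, B ≤ M → M ≤ j →
      (∀ z ∈ I.OL M j, ∃ r : (Fin c → Fin ((p ^ h) ^ B)) → AA, (∀ α, r α ∈ I.OL (M - B) j) ∧
        (I.v : AA) ^ D * z = ∑ α, r α * PB.mn (I.x M) α) ∧
      ∀ r : (Fin c → Fin ((p ^ h) ^ B)) → AA, (∀ α, r α ∈ I.TL (M - B) j) →
        ∑ α, r α * PB.mn (I.x M) α = 0 → ∀ α, r α = 0) :
    ∃ g, CD p h (mm c K) (FR p h c K) (vR K hc) (I.T j) (I.TL (M - B) j) (I.TL M j) M B D (I.x M)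
      (I.fbT j) g := by
  have q2 : 2 ≤ p ^ h := hp.out.two_le.trans (Nat.le_self_pow I.hh p)
  have hn : 2 * (p ^ h) ^ M ≤ (p ^ h) ^ j :=
    (pow_succ' (p ^ h) M ▸ Nat.mul_le_mul_right _ q2).trans (Nat.pow_le_pow_right (by omega) hj)
  have q0 : 0 < (p ^ h) ^ M := pow_pos (by omega) M
  have h0 : PowerSeries.constantCoeff (I.fbT j) = 0 :=
    (PowerSeries.coeff_zero_eq_constantCoeff_apply _).symm.trans (Subtype.ext
      ((coeff_fbT (I := I) j 0 (by omega)).trans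
        ((PowerSeries.coeff_zero_eq_constantCoeff_apply _).trans I.f_hom.1)))
  have hi : ∀ d, IsIntegral (RR c K) ((PowerSeries.coeff d (I.fbT j) : I.T j) : AA) := fun d => by
    rcases lt_or_ge d ((p ^ h) ^ j) with hd | hd
    · have := hB.int d
      rwa [← coeff_fbT j d hd] at this
    · rw [coeff_fbT' j hd]
      exact isIntegral_zero
  let vi : I.T j := ⟨_, td_vi j⟩
  obtain ⟨g, g0, fg, gf, hg⟩ := exists_inv
    ((integralClosure (RR c K) AA).toSubring.comap (I.T j).val.toRingHom) h0 hi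
    (ui := PowerSeries.coeff 1 (I.fbT j) ^ (p ^ h - 2) * vi) (Subtype.ext (by
      have e := hB.one
      rw [← coeff_fbT j 1 (by omega), show p ^ h - 1 = p ^ h - 2 + 1 by omega, pow_succ'] at e
      exact (mul_assoc _ _ _).symm.trans ((congrArg (· * _) e).trans I.v.mul_inv)))
  have hM : ∀ M, M ≤ j → MonS (I.T j) (I.TL M j) ((p ^ h) ^ M) (I.x M) := fun M hM => by
    have := td_monS hB le_rfl hM (hD M M le_rfl hM).1 (hD M M le_rfl hM).2
    rwa [Nat.sub_self, td_TL_zero] at this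
  have hMj : M ≤ j := by omega
  refine ⟨g, I.hh, hBM, fun i => Pt.isN _, hM M hMj,
    td_monS hB hBM hMj (hD B M hBM hMj).1 (hD B M hBM hMj).2, ⟨(p ^ h) ^ (M - B), ?_⟩, h0, g0, fg, gf,
    fun U _ _ ι a b ha hb => ?_, hi, ⟨vi ^ 2, Subtype.ext ?_, fun U _ ι t Λ ht h1 h2 =>
      hg U ι t Λ ht h1 ?_⟩, fun z hz hz' => ?_, fun z hz hz' => ?_⟩
  · convert hM (M - B) (by omega) using 2 with i
    rw [← Pt.val_nsmul, x, ← td_P_add B (M - B), Nat.sub_add_cancel hBM]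
  · have e := fb_add (ι := ι) Subtype.val_injective h0 (coeff_fbT j)
      (F := (FR p h c K).map (algebraMap _ (I.T j))) (H := (HL p h (ZMod p)).map (algebraMap _ _))
      (by rw [Law.map_map, HL_map, HL_map]; exact I.f_hom) ha hb hn
    rwa [Law.map_ps, Law.map_ps, evN_map (Fin.forall_fin_two.2 ⟨⟨_, ha⟩, _, hb⟩),
      evN_map (Fin.forall_fin_two.2 ⟨⟨_, evN1_pow ha h0⟩, _, evN1_pow hb h0⟩),
      RingHom.ext_zmod (ι.comp _) (algebraMap _ U)] at e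
  · show algebraMap _ AA (vR K hc) ^ 2 * ((I.v⁻¹ : AAˣ) : AA) ^ 2 = 1
    rw [← I.v_eq, ← mul_pow, Units.mul_inv, one_pow]
  · rw [map_mul, mul_pow, mul_assoc, ← map_pow ι vi, map_pow ι (PowerSeries.coeff 1 _)]
    exact mul_mem (pow_mem (pow_mem (h1 _ (hi 1)) _) 2) h2
  · obtain ⟨r, hr, e⟩ := (hD M M le_rfl hMj).1 z ⟨hz', hz⟩
    refine ⟨r, fun α => ⟨?_, (hr α).1⟩, I.v_eq ▸ e⟩
    have := (hr α).2
    rwa [Nat.sub_self, td_TL_zero] at this
  · obtain ⟨r, hr, e⟩ := (hD B M hBM hMj).1 z ⟨hz', hz⟩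
    exact ⟨r, fun α => ⟨(hr α).2, (hr α).1⟩, I.v_eq ▸ e⟩

theorem td (hB : I.Bas) (hM : I.Mon) (H : PC.GF p) (C : GC h c H) : I.Td H := by
  obtain ⟨D, hD⟩ := hM
  refine ⟨2 * c * p ^ h + D, fun j M B hBM hj => ?_⟩
  obtain ⟨g, E⟩ := td_cd hB hBM hj fun B M h1 h2 => hD B M j h1 h2
  have q0 : 0 < p ^ h := pow_pos hp.out.pos h
  have hMj : (p ^ h) ^ M ≤ (p ^ h) ^ j := Nat.pow_le_pow_right q0 (by omega)
  have hN : 2 * (c * (p ^ h) ^ M) + D ^ (j + 1) ≤ (2 * c * p ^ h + D) ^ (j + 1) := by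
    refine le_trans (Nat.add_le_add_right ?_ _)
      (pow_add_pow_le (Nat.zero_le _) (Nat.zero_le _) j.succ_ne_zero)
    rw [mul_pow, ← mul_assoc]
    exact Nat.mul_le_mul (Nat.le_self_pow j.succ_ne_zero _)
      (hMj.trans (Nat.pow_le_pow_right q0 j.le_succ))
  have hT : ∀ κ : AA →+* AA, (∀ t ∈ I.T j, κ t ∈ I.T j) → ∀ t ∈ I.TL M j, κ t ∈ I.TL M j :=
    fun κ h1 t ht => I.mem_TL.2 (map_pow κ t _ ▸ h1 _ (I.mem_TL.1 ht))
  refine (E.ts C hN).nonempty_RT hBM E.mon1.le (vi := ⟨_, E.mon0.le (td_vi j)⟩)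
    (Subtype.ext ((congrArg (· * _) I.v_eq.symm).trans I.v.mul_inv)) (fun γ => ?_) ?_ fun s hs => ?_
  · refine E.sym C hN (hB.gg_T γ j) (hT _ (hB.gg_T γ j)) fun κ hκ U _ _ τ k hτ i => ?_
    let κ0 : I.T j →+* I.T j :=
      ((I.gg γ).comp (I.T j).val.toRingHom).codRestrict _ fun t => hB.gg_T γ j _ t.2
    have e1 : (CD.ph (k.comp κ) : RR c K →+* U) = (CD.ph k).comp (A.ph γ) :=
      RingHom.ext fun r => congrArg k (Subtype.ext ((hκ _).trans (I.gg_alg γ r)))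
    have e2 : E.io (k.comp κ) = (E.io k).comp κ0 :=
      RingHom.ext fun r => congrArg k (Subtype.ext (hκ _))
    have h1 := (E.tor C).1 hτ i
    have h2 := evN1_pow (φ := E.io k) h1 E.g0
    have h3 := evN1_pow (φ := CD.ph k) h2 (A.ser γ)⁻¹.cc
    have h4 := fb_twist (ι := E.io k) Subtype.val_injective (coeff_fbT j) (κ := κ0) (κ' := I.gg γ)
      (fun _ => rfl) (s := PowerSeries.map (algebraMap _ _) (A.ser γ).val)
      ((congrArg (algebraMap _ (I.T j)) (A.ser γ).cc).trans (map_zero _)) (I.gg_f γ)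
      (pow_eq_zero_of_le hMj h3)
    rw [evN1_map ⟨_, h3⟩, show (E.io k).comp (algebraMap _ _) = CD.ph k from rfl,
      ← evN1_subst ⟨_, h2⟩ (A.ser γ)⁻¹.cc, InvSeries.inv_subst_val, evN1_X ⟨_, h2⟩,
      E.fb_g ⟨_, h1⟩] at h4
    rw [E.mv_e1 C hτ k i (σ := A.ph γ) ((InvSeries.smul_eq_iff_isHom _ _ _).1
      (inv_smul_eq_iff.2 (A.law γ).symm)) ((hκ _).trans (hB.gg_x γ M i))
      (e1 ▸ E.nh (k.comp κ) i), e1, e2, one_smul, e1_nil ⟨_, h2⟩]
    congr 1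
    conv_rhs => rw [← h4, E.g_fb ⟨_, h3⟩]
  · have h0 : ∀ t ∈ I.T j, (fr p AA ^ h) t ∈ I.T j := fun t ht => fr_pow_apply h t ▸ pow_mem ht _
    refine E.sym C hN h0 (hT _ h0) fun κ hκ U _ _ τ k hτ i => ?_
    have := CD.ch (p := p) (U := U)
    have e0 : ∀ (k : I.TL M j →ₐ[ZMod p] U) t, k (κ t) = (fr p U ^ h) (k t) := fun k t => by
      rw [fr_pow_apply, ← map_pow]
      exact congrArg k (Subtype.ext ((hκ t).trans (fr_pow_apply h _)))
    have h1 := PH1.val_pp I.hh 1 (C.co τ i)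
    rw [pow_one, pow_one, ← fr_pow_apply] at h1
    rw [e0, E.mv_x C hτ, map_ad (E.nh k i) (NH.nil (E.g_nil (PH1.nil _))), map_evN1 (PH1.nil _),
      e0, map_nsmul, Pi.smul_apply, h1,
      show (CD.ph (k.comp κ) : RR c K →+* U) = (fr p U ^ h).comp (CD.ph k) from
        RingHom.ext fun r => e0 k _,
      show E.io (k.comp κ) = (fr p U ^ h).comp (E.io k) from RingHom.ext fun r => e0 k _]
  · refine E.sym C hN (hB.ga_T _ j) (hT _ (hB.ga_T _ j)) fun κ hκ U _ _ τ k hτ i => ?_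
    let κ0 : I.T j →+* I.T j := ((I.ga (I.a s) : AA →+* AA).comp (I.T j).val.toRingHom).codRestrict
      _ fun t => hB.ga_T _ j _ t.2
    have e1 : (CD.ph (k.comp κ) : RR c K →+* U) = CD.ph k :=
      RingHom.ext fun r => congrArg k (Subtype.ext ((hκ _).trans ((I.ga _).commutes r)))
    have e2 : E.io (k.comp κ) = (E.io k).comp κ0 :=
      RingHom.ext fun r => congrArg k (Subtype.ext (hκ _))
    have e3 : PowerSeries.map κ0 (I.fbT j) = I.fbT j := PowerSeries.ext fun d => by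
      rw [PowerSeries.coeff_map]
      rcases lt_or_ge d ((p ^ h) ^ j) with hd | hd
      · refine Subtype.ext ((congrArg (I.ga (I.a s)) (coeff_fbT j d hd)).trans ?_)
        exact (congrArg (PowerSeries.coeff d) (I.a_f s)).trans (coeff_fbT j d hd).symm
      · rw [coeff_fbT' j hd, map_zero]
    have h1 := PH1.nil (C.co (s • τ) i)
    have h2 := E.g_nil (ι := E.io k) h1
    rw [E.mv_mult C hτ k i s ((hκ (E.xT i)).trans ((congrArg Pt.val (I.a_P s hs M i)).trans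
      (Pt.val_nsmul s _))), e1, e2, ← E.g_fb (ι := (E.io k).comp κ0) h2, ← evN1_map h2, e3,
      E.fb_g h1]

end FD

end P261.Ig
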