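import Vale.Agent.P261Z.Ig.Td2a

/-!
# P261, block N6: the torsors
-/

set_option linter.unusedSectionVars false

noncomputable section

namespace P261.Ig

open Vale.Agent.P261Z Vale.Agent.P261Z.N Vale.Agent.P217 Vale.Agent.P251.F

variable {p h c : ℕ} [hp : Fact p.Prime]

section Ad

variable {R U : Type} [CommRing R] [CommRing U] {m : Ideal R} [IsNoetherianRing R]
  [IsAdicComplete m R] {F : Law R} {φ : R →+* U} {a b : U}

theorem ad_pow [Ch p U] (ha : RT.NH m φ a) (hb : RT.NH m φ b) {n : ℕ} (h0 : b ^ (p ^ h) ^ n = 0) :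
    RT.ad m F φ a b ^ (p ^ h) ^ n = a ^ (p ^ h) ^ n := by
  let _ := φ.toAlgebra
  rw [← pow_mul] at h0 ⊢
  exact Pt.add_pow (⟨a, ha⟩ : Pt U m F) (b := ⟨b, hb⟩) h0

theorem ad_pow' [Ch p U] (ha : RT.NH m φ a) (hb : RT.NH m φ b) {n : ℕ}
    (h0 : RT.ad m F φ a b ^ (p ^ h) ^ n = a ^ (p ^ h) ^ n) : b ^ (p ^ h) ^ n = 0 := by
  let _ := φ.toAlgebra
  rw [← pow_mul] at h0 ⊢
  have := Pt.sub_pow (a := (⟨a, ha⟩ : Pt U m F) + ⟨b, hb⟩) (b := ⟨a, ha⟩) h0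
  rwa [add_sub_cancel_left] at this

theorem ad_adjoin (Λ : Subring U) (h0 : ∀ r, φ r ∈ Λ) (ha : a ∈ Λ) :
    RT.ad m F φ a b ∈ Algebra.adjoin Λ {b} :=
  RT.ad_mem (Algebra.adjoin Λ {b}).toSubring (fun r => Subalgebra.algebraMap_mem _ (⟨_, h0 r⟩ : Λ))
    (Subalgebra.algebraMap_mem _ (⟨a, ha⟩ : Λ)) (Algebra.self_mem_adjoin_singleton _ _)

theorem e1_ad_mult (ha : RT.NH m φ a) (hb : RT.NH m φ b) (n : ℕ) :
    RT.e1 m φ (RT.ad m F φ a b) (multSeries F.toFG n) =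
      RT.ad m F φ (RT.e1 m φ a (multSeries F.toFG n)) (RT.e1 m φ b (multSeries F.toFG n)) := by
  let _ := φ.toAlgebra
  have := congrArg Pt.val (smul_add n (⟨a, ha⟩ : Pt U m F) ⟨b, hb⟩)
  rwa [Pt.val_nsmul, Pt.val_add, Pt.val_add, Pt.val_nsmul, Pt.val_nsmul] at this

end Ad

namespace FD

variable {K G : Type} [Field K] [Pf p K] [Group G] [TopologicalSpace G] {A : RG p h c G K}
  {hc : 0 < c} {AA : Type} [CommRing AA] [Algebra (RR c K) AA] [Pf p AA] {Γ : Type} [Group Γ]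
  {I : FD A hc AA Γ} {M B j D : ℕ} (s : I.St D M j) [Algebra (ZMod p) (RR c K)]
  [Algebra (ZMod p) AA] [IsScalarTower (ZMod p) (RR c K) AA] {H : PC.GF p} (C : GC h c H)
  {U U' : Type} [CommRing U] [Algebra (ZMod p) U] [CommRing U'] [Algebra (ZMod p) U']

/-- the points of order `p ^ M` -/
abbrev St.xT (i : Fin c) : I.TL M j := ⟨I.x M i, (s.monS le_rfl).mem i⟩

theorem St.nh (k : I.TL M j →+* U) (i : Fin c) :
    RT.NH (mm c K) (k.comp (algebraMap _ _)) (k (s.xT i)) :=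
  (RT.NH.alg (IsN.of_val (I.TL M j) (y := s.xT i) (I.P M i).isN)).map k

theorem nht {φ : RR c K →+* U} (k : I.TL M j →+* U) (τ : PtH p h U) :
    RT.NH (mm c K) φ (tt _ ((p ^ h) ^ M) I.gi k τ.val) := by
  obtain ⟨N, hN⟩ := nil τ
  exact RT.NH.nil ⟨N, tt_pow I.gi_hom.1 hN⟩

theorem St.ext (hB : B ≤ M) {k k' : I.TL M j →+* U}
    (h0 : ∀ z : I.TL M j, (z : AA) ∈ I.TL (M - B) j → k z = k' z)
    (hx : ∀ i, k (s.xT i) = k' (s.xT i)) : k = k' :=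
  RingHom.ext fun z => (s.monS hB).ext le_rfl h0 hx z z.2

theorem St.ext0 {k k' : I.TL M j →+* U} (h0 : ∀ z : I.TL M j, (z : AA) ∈ I.T j → k z = k' z)
    (hx : ∀ i, k (s.xT i) = k' (s.xT i)) : k = k' :=
  s.ext le_rfl (fun z hz => h0 z (I.mem_TL0.1 (M.sub_self ▸ hz))) hx

/-- the translated coordinate -/
def St.nw (τ : H.Pt U) (k : I.TL M j →+* U) (i : Fin c) : U :=
  RT.ad (mm c K) (FR p h c K) (k.comp (algebraMap _ _)) (k (s.xT i))
    (tt _ ((p ^ h) ^ M) I.gi k (C.co τ i).val)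

theorem St.exists_mv (hB : B ≤ M) {τ : H.Pt U} (hτ : p ^ B • τ = 0) (k : I.TL M j →+* U) :
    ∃ k' : I.TL M j →+* U, (∀ z : I.TL M j, (z : AA) ∈ I.TL (M - B) j → k' z = k z) ∧
      ∀ i, k' (s.xT i) = s.nw C τ k i :=
  have : Ch p U := Ch.of_hom (algebraMap (ZMod p) U)
  (s.monS hB).exists_hom k _ fun i =>
    (ad_pow (s.nh k i) (nht k _) (tt_pow I.gi_hom.1 ((C.tor I.hh).1 hτ i))).symm

open Classical in
/-- the action -/
def St.mv (τ : H.Pt U) (k : I.TL M j →+* U) : I.TL M j →+* U :=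
  if hτ : p ^ M • τ = 0 then (s.exists_mv C le_rfl hτ k).choose else k

variable {τ τ' : H.Pt U} (k : I.TL M j →+* U)

theorem St.mv_bot {z : I.TL M j} (hz : (z : AA) ∈ I.T j) : s.mv C τ k z = k z := by
  unfold St.mv
  split_ifs with hτ
  exacts [(s.exists_mv C le_rfl hτ k).choose_spec.1 z (I.T_le _ hz), rfl]

theorem St.mv_x (hτ : p ^ M • τ = 0) (i : Fin c) : s.mv C τ k (s.xT i) = s.nw C τ k i := by
  rw [St.mv, dif_pos hτ]
  exact (s.exists_mv C le_rfl hτ k).choose_spec.2 i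

theorem St.mv_alg : (s.mv C τ k).comp (algebraMap (RR c K) _) = k.comp (algebraMap _ _) :=
  RingHom.ext fun r => s.mv_bot C k ((I.T j).algebraMap_mem r)

include s in
theorem St.tt_bot {k k' : I.TL M j →+* U} (h0 : ∀ z : I.TL M j, (z : AA) ∈ I.T j → k z = k' z)
    (x : U) : tt _ ((p ^ h) ^ M) I.gi k x = tt _ ((p ^ h) ^ M) I.gi k' x :=
  tt_congr fun e he => h0 _ ((cf_val (s.cf_gi' e he)).symm ▸ s.cf_gi e he)

theorem up (hB : B ≤ M) (hτ : p ^ B • τ = 0) : p ^ M • τ = 0 := by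
  obtain ⟨d, rfl⟩ := Nat.exists_eq_add_of_le' hB
  rw [pow_add, mul_smul, hτ, smul_zero]

theorem St.mv_fix (hB : B ≤ M) (hτ : p ^ B • τ = 0) {z : I.TL M j}
    (hz : (z : AA) ∈ I.TL (M - B) j) : s.mv C τ k z = k z := by
  obtain ⟨k', h1, h2⟩ := s.exists_mv C hB hτ k
  rw [s.ext0 (k := s.mv C τ k) (k' := k') (fun z hz => (s.mv_bot C k hz).trans
    (h1 z (I.T_le _ hz)).symm) fun i => (s.mv_x C k (up hB hτ) i).trans (h2 i).symm, h1 z hz]

theorem St.mv_nat (g : U →ₐ[ZMod p] U') (hτ : p ^ M • τ = 0) :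
    (g : U →+* U').comp (s.mv C τ k) = s.mv C (H.map g τ) ((g : U →+* U').comp k) :=
  s.ext0 (fun z hz => by rw [s.mv_bot C _ hz, RingHom.comp_apply, s.mv_bot C _ hz]; rfl) fun i => by
    rw [s.mv_x C _ (by rw [← map_nsmul, hτ, map_zero]), RingHom.comp_apply, s.mv_x C _ hτ, St.nw,
      RT.map_ad (s.nh k i) (nht k _), map_tt, St.nw, C.co_map]
    rfl

theorem St.mv_zero : s.mv C (0 : H.Pt U) k = k :=
  s.ext0 (fun z hz => s.mv_bot C _ hz) fun i => by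
    have := tt_pow (n := (p ^ h) ^ M) (k := k) I.gi_hom.1 (pow_one (0 : U))
    rw [s.mv_x C _ (smul_zero _), St.nw, map_zero, Pi.zero_apply, Pt.val_zero, ← pow_one (tt ..),
      this, RT.ad_zero (s.nh k i)]

include C in
theorem co_tor (hτ : p ^ M • τ = 0) (i : Fin c) : p ^ M • C.co τ i = 0 := by
  rw [← Pi.smul_apply, ← map_nsmul, hτ, map_zero, Pi.zero_apply]

theorem St.mv_add (hτ : p ^ M • τ = 0) (hτ' : p ^ M • τ' = 0) :
    s.mv C (τ + τ') k = s.mv C τ' (s.mv C τ k) :=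
  s.ext0 (fun z hz => by rw [s.mv_bot C _ hz, s.mv_bot C _ hz, s.mv_bot C _ hz]) fun i => by
    rw [s.mv_x C _ (by rw [smul_add, hτ, hτ', add_zero]), s.mv_x C _ hτ', St.nw, St.nw, s.mv_alg,
      s.mv_x C _ hτ, St.nw, s.tt_bot (k := s.mv C τ k) fun z hz => s.mv_bot C k hz,
      RT.ad_assoc (s.nh k i) (nht k _) (nht k _), map_add, Pi.add_apply,
      s.tt_add k (co_tor C hτ i) (co_tor C hτ' i)]

theorem St.mv_free (hτ : p ^ M • τ = 0) (e : s.mv C τ k = k) : τ = 0 := C.pt_ext fun i => by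
  have h1 := RT.ad_cancel (s.nh k i) (nht k _) ((s.mv_x C k hτ i).symm.trans (by rw [e]))
  have h2 := tt_pow (n := (p ^ h) ^ M) (k := k) I.f_hom.1 (pow_one (0 : U))
  rw [← s.fg k ((C.tor I.hh).1 hτ i), h1, ← pow_one (tt ..), h2, map_zero]
  rfl

theorem St.mv_div (hB : B ≤ M) (k k' : I.TL M j →+* U)
    (hk : ∀ x : I.TL M j, (x : AA) ∈ I.TL (M - B) j → k x = k' x) :
    ∃ τ : H.Pt U, p ^ B • τ = 0 ∧ k = s.mv C τ k' ∧ ∀ Λ : Subring U,
      (∀ x : I.TL M j, IsIntegral (RR c K) (x : AA) → k x ∈ Λ ∧ k' x ∈ Λ) →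
        ∀ f, H.lift B (fun _ : Fin 1 => τ) f ∈ Λ := by
  have : Ch p U := Ch.of_hom (algebraMap (ZMod p) U)
  have e : k.comp (algebraMap (RR c K) _) = k'.comp (algebraMap _ _) :=
    RingHom.ext fun r => hk _ (Subalgebra.algebraMap_mem _ r)
  choose d h1 h2 h3 using fun i => RT.exists_sub (F := FR p h c K) (e ▸ s.nh k i) (s.nh k' i)
  have h4 : ∀ i, d i ^ (p ^ h) ^ B = 0 := fun i => ad_pow' (s.nh k' i) (h1 i) (by
    rw [h2, ← map_pow, ← map_pow]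
    exact hk _ (I.xp_mem s.toBas s.le B i))
  have h5 := fun i => tt_pow (n := (p ^ h) ^ M) (k := k') I.f_hom.1 (h4 i)
  let τ : H.Pt U := C.co.symm fun i => ⟨_, IsN.of_nilpotent ⟨_, h5 i⟩⟩
  have h6 : ∀ i, (C.co τ i).val = tt _ ((p ^ h) ^ M) I.f k' (d i) := fun i => by
    rw [AddEquiv.apply_symm_apply]
  have hτ : p ^ B • τ = 0 := (C.tor I.hh).2 fun i => h6 i ▸ h5 i
  refine ⟨τ, hτ, s.ext0 (fun z hz => (hk z (I.T_le _ hz)).trans (s.mv_bot C _ hz).symm) fun i => ?_,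
    fun Λ hΛ => C.lift_mem I.hh hτ Λ fun i => ?_⟩
  · rw [s.mv_x C _ (up hB hτ), St.nw, h6, s.gf k' (pow_eq_zero_of_le
      (Nat.pow_le_pow_right (pow_pos hp.out.pos h) hB) (h4 i)), h2]
  · rw [h6]
    exact sum_mem fun e he => mul_mem (hΛ _ (by
      rw [cf_val (s.cf_f' e (Finset.mem_range.1 he))]; exact s.int e)).2 (pow_mem (h3 i Λ
        (fun r => (hΛ _ isIntegral_algebraMap).2) (hΛ _ (I.P M i).isN.1).1
        (hΛ _ (I.P M i).isN.1).2) _)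

theorem St.mv_loss (hτ : p ^ M • τ = 0) (Λ : Subring U) (h1 : ∀ i, (C.co τ i).val ∈ Λ)
    (h2 : ∀ x : I.TL M j, IsIntegral (RR c K) (x : AA) → k x ∈ Λ) (x : I.TL M j)
    (hx : IsIntegral (RR c K) (x : AA)) {N : ℕ}
    (hN : D ^ (j + 1) + c * ((p ^ h) ^ M) ^ 4 ≤ N) :
    k (algebraMap (RR c K) _ (vR K hc) ^ N) * s.mv C τ k x ∈ Λ := by
  obtain ⟨Q, hQ⟩ : ∃ Q, Q = (p ^ h) ^ M := ⟨_, rfl⟩
  obtain ⟨w, hw⟩ : ∃ w, w = algebraMap (RR c K) (I.TL M j) (vR K hc) := ⟨_, rfl⟩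
  have hv : (w : AA) = I.v := by rw [hw, I.v_eq]; rfl
  have h0 : ∀ r, k.comp (algebraMap (RR c K) _) r ∈ Λ := fun r => h2 _ isIntegral_algebraMap
  have hw' : k w ∈ Λ := hw ▸ h0 _
  have h3 : ∀ i, k w ^ (Q * Q) * tt _ ((p ^ h) ^ M) I.gi k (C.co τ i).val ∈ Λ := fun i => by
    rw [tt, Finset.mul_sum]
    refine sum_mem fun e he => ?_
    have he := Finset.mem_range.1 he
    obtain ⟨d, hd⟩ := Nat.exists_eq_add_of_le' (Nat.mul_self_le_mul_self (hQ ▸ he.le : e ≤ Q))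
    rw [hd, pow_add, ← mul_assoc, mul_assoc (_ ^ d), ← map_pow k w (e * e), ← map_mul]
    refine mul_mem (mul_mem (pow_mem hw' _) (h2 _ ?_)) (pow_mem (h1 i) _)
    rw [MulMemClass.coe_mul, SubmonoidClass.coe_pow, hv, cf_val (s.cf_gi' e he)]
    exact (s.L_le j (I.gi_mem s.toBas e (s.lt he))).1
  have h4 : ∀ i, (k w ^ (Q * Q)) ^ Q * s.mv C τ k (s.xT i) ∈ Λ := fun i => by
    rw [s.mv_x C k hτ]
    exact pole_adjoin Λ (pow_mem hw' _) (h3 i) (tt_pow I.gi_hom.1 (hQ ▸ (C.tor I.hh).1 hτ i))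
      (ad_adjoin Λ h0 (h2 _ (I.P M i).isN.1))
  obtain ⟨r, hr, e⟩ := s.sp M le_rfl x ⟨hx, x.2⟩
  have hr' : ∀ α, r α ∈ I.T j := fun α => I.mem_TL0.1 (M.sub_self ▸ (hr α).2)
  have e' : w ^ D ^ (j + 1) * x = ∑ α, (⟨r α, I.T_le M (hr' α)⟩ : I.TL M j) * PB.mn s.xT α :=
    Subtype.ext (by rw [RT.coe_sum, MulMemClass.coe_mul, SubmonoidClass.coe_pow, hv, e])
  obtain ⟨d, rfl⟩ := Nat.exists_eq_add_of_le' hN
  rw [← hw, ← hQ, add_comm (D ^ _), ← add_assoc, pow_add, map_mul, mul_assoc,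
    ← s.mv_bot C (τ := τ) k (z := w ^ D ^ (j + 1)) (pow_mem (hv ▸ GalAux.v_mem I _) _), ← map_mul,
    e', map_sum, Finset.mul_sum]
  refine sum_mem fun α _ => ?_
  rw [map_mul, s.mv_bot C k (hr' α), PB.map_mn, map_pow, pow_add, mul_mul_mul_comm,
    show k w ^ (c * Q ^ 4) = ∏ _i : Fin c, ((k w ^ (Q * Q)) ^ Q) ^ Q by
      rw [Finset.prod_const, Finset.card_fin, ← pow_mul, ← pow_mul, ← pow_mul]
      congr 1
      ring, PB.mn, PB.mon, ← Finset.prod_mul_distrib]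
  refine mul_mem (mul_mem (pow_mem hw' _) (h2 _ (hr α).1)) (prod_mem fun i _ => ?_)
  obtain ⟨n, hn⟩ := Nat.exists_eq_add_of_le' (hQ ▸ (α i).2.le : (α i : ℕ) ≤ Q)
  rw [show ((k w ^ (Q * Q)) ^ Q) ^ Q = ((k w ^ (Q * Q)) ^ Q) ^ (n + α i) by rw [← hn], pow_add,
    mul_assoc, ← mul_pow]
  exact mul_mem (pow_mem (pow_mem (pow_mem hw' _) _) _) (pow_mem (h4 i) _)

theorem St.sym (κ : AA →+* AA) (hκ : ∀ z ∈ I.T j, κ z ∈ I.T j) {n : ℕ}
    (hx : ∀ κ' : I.TL M j →+* I.TL M j, (∀ z, (κ' z : AA) = κ z) →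
      ∀ (U : Type) [CommRing U] [Algebra (ZMod p) U] (τ : H.Pt U) (k : I.TL M j →+* U),
        p ^ M • τ = 0 → ∀ i, s.mv C τ k (κ' (s.xT i)) = s.nw C (n • τ) (k.comp κ') i) :
    ∃ κ' : I.TL M j →+* I.TL M j, (∀ z, (κ' z : AA) = κ z) ∧
      ∀ (U : Type) [CommRing U] [Algebra (ZMod p) U] (τ : H.Pt U) (k : I.TL M j →+* U),
        p ^ M • τ = 0 → (s.mv C τ k).comp κ' = s.mv C (n • τ) (k.comp κ') := by
  let κ' : I.TL M j →+* I.TL M j := κ.restrict _ _ fun z hz =>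
    I.mem_TL.2 (map_pow κ z _ ▸ hκ _ (I.mem_TL.1 hz))
  exact ⟨κ', fun _ => rfl, fun U _ _ τ k hτ => s.ext0
    (fun z hz => (s.mv_bot C k (hκ z hz)).trans (s.mv_bot C (k.comp κ') hz).symm) fun i =>
      (hx κ' (fun _ => rfl) U τ k hτ i).trans
        (s.mv_x C _ (by rw [smul_comm, hτ, smul_zero]) i).symm⟩

variable {κ : AA →+* AA} {κ' : I.TL M j →+* I.TL M j} (hκ : ∀ z, (κ' z : AA) = κ z)

include hκ

include s in
theorem St.cf_map {e : ℕ} (he : e < (p ^ h) ^ M) :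
    PowerSeries.coeff e (PowerSeries.map κ I.gi) = κ' (cf _ I.gi e) := by
  rw [hκ, cf_val (s.cf_gi' e he), PowerSeries.coeff_map]

include s in
theorem St.tt_map (x : U) : tt _ ((p ^ h) ^ M) I.gi (k.comp κ') x =
    tt _ ((p ^ h) ^ M) (PowerSeries.map κ I.gi) k x :=
  tt_congr fun _ he => congrArg k (Subtype.ext
    ((cf_val (s.cf_map hκ he ▸ (κ' _).2)).trans (s.cf_map hκ he)).symm)

theorem St.mv_e1 (hτ : p ^ M • τ = 0) (i : Fin c) {σ : PowerSeries (RR c K)}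
    (e : κ (I.x M i) = evO1 (mm c K) (I.x M i) σ) :
    s.mv C τ k (κ' (s.xT i)) = RT.e1 (mm c K) (k.comp (algebraMap _ _)) (s.nw C τ k i) σ ∧
      k (κ' (s.xT i)) = RT.e1 (mm c K) (k.comp (algebraMap _ _)) (k (s.xT i)) σ := by
  have h0 := RT.NH.alg (IsN.of_val (I.TL M j) (y := s.xT i) (I.P M i).isN)
  have h1 : κ' (s.xT i) = RT.e1 (mm c K) (algebraMap _ _) (s.xT i) σ := Subtype.ext (by
    rw [hκ, e, ← RT.e1_alg]
    exact (RT.map_e1 h0 (I.TL M j).val.toRingHom σ).symm)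
  rw [h1, RT.map_e1 h0, RT.map_e1 h0, s.mv_alg, s.mv_x C k hτ]
  exact ⟨rfl, rfl⟩

omit hκ

theorem St.sym_gg (g : G) (hκ : ∀ z, (κ' z : AA) = I.gg g z) (hτ : p ^ M • τ = 0) (i : Fin c) :
    s.mv C τ k (κ' (s.xT i)) = s.nw C (1 • τ) (k.comp κ') i := by
  obtain ⟨h1, h2⟩ := s.mv_e1 C k hκ hτ i (s.gg_x g M i)
  have h3 : (k.comp κ').comp (algebraMap _ _) = (k.comp (algebraMap _ _)).comp (A.ph g) :=
    RingHom.ext fun r => congrArg k (Subtype.ext ((hκ _).trans (I.gg_alg g r)))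
  have h4 : PowerSeries.map (I.gg g) I.gi =
      (PowerSeries.map (algebraMap (RR c K) AA) (A.ser g)⁻¹.val).subst I.gi := by
    have e : InvSeries.map (I.gg g) I.fI = I.fI * InvSeries.map (algebraMap _ _) (A.ser g) :=
      InvSeries.ext (I.gg_f g)
    have e' := congrArg (fun z => z⁻¹.val) e
    rwa [mul_inv_rev, ← map_inv, ← map_inv] at e'
  have hx := (C.tor I.hh).1 hτ i
  have h5 : RT.e1 (mm c K) (k.comp (algebraMap _ _)) (tt _ ((p ^ h) ^ M) I.gi k (C.co τ i).val)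
      (A.ser g)⁻¹.val = tt _ ((p ^ h) ^ M) I.gi (k.comp κ') (C.co τ i).val := by
    rw [s.tt_map k hκ, h4, ← tt_comp (p := p) (fun e _ => by
      rw [PowerSeries.coeff_map]; exact Subalgebra.algebraMap_mem _ _) s.cf_gi' I.gi_hom.1
      (fun e he => by rw [← h4, s.cf_map hκ he]; exact (κ' _).2) hx, tt_alg _ (tt_pow I.gi_hom.1 hx)]
    let _ := (k.comp (algebraMap (RR c K) _)).toAlgebra
    exact evO_evN (fun _ => ⟨_, tt_pow I.gi_hom.1 hx⟩) _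
  rw [h1, St.nw, RT.e1_ad (σ := A.ph g) (s.nh k i) (nht k _)
    ((InvSeries.smul_eq_iff_isHom _ _ _).1 (inv_smul_eq_iff.2 (A.law g).symm))
    (h2 ▸ h3 ▸ s.nh (k.comp κ') i) (h5 ▸ nht _ _), ← h2, h5, ← h3, one_smul]
  rfl

theorem St.sym_fr (hκ : ∀ z, (κ' z : AA) = (fr p AA ^ h) z) (hτ : p ^ M • τ = 0) (i : Fin c) :
    s.mv C τ k (κ' (s.xT i)) = s.nw C (p • τ) (k.comp κ') i := by
  have : Ch p U := Ch.of_hom (algebraMap (ZMod p) U)
  have h1 : ∀ z, κ' z = z ^ p ^ h := fun z => Subtype.ext ((hκ z).trans (fr_pow_apply h _))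
  have h2 : k.comp κ' = (fr p U ^ h).comp k := RingHom.ext fun z => by
    rw [RingHom.comp_apply, RingHom.comp_apply, h1, map_pow, fr_pow_apply]
  have h3 := val_pp I.hh 1 (C.co τ i)
  rw [pow_one, pow_one] at h3
  rw [h1, map_pow, s.mv_x C k hτ, ← fr_pow_apply, St.nw, RT.map_ad (s.nh k i) (nht k _), map_tt,
    St.nw, h2, map_nsmul, Pi.smul_apply, h3, fr_pow_apply h (C.co τ i).val]
  rfl

theorem St.sym_a {n : ℕ} (hn : n % p = 1) (hκ : ∀ z, (κ' z : AA) = I.ga (I.a n) z)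
    (hτ : p ^ M • τ = 0) (i : Fin c) : s.mv C τ k (κ' (s.xT i)) = s.nw C (n • τ) (k.comp κ') i := by
  obtain ⟨h1, h2⟩ := s.mv_e1 C k (κ := (I.ga (I.a n) : AA →+* AA)) hκ hτ i
    ((congrArg Pt.val (I.a_P n hn M i)).trans (Pt.val_nsmul n _))
  have h3 : (k.comp κ').comp (algebraMap _ _) = k.comp (algebraMap (RR c K) _) :=
    RingHom.ext fun r => congrArg k (Subtype.ext ((hκ _).trans ((I.ga _).commutes r)))
  have h4 : PowerSeries.map (I.ga (I.a n) : AA →+* AA) I.gi = I.gi := by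
    have e : InvSeries.map (I.ga (I.a n) : AA →+* AA) I.fI = I.fI := InvSeries.ext (I.a_f n)
    have e' := congrArg (fun z => z⁻¹.val) e
    rwa [← map_inv] at e'
  have h5 : ∀ l : ℕ, RT.e1 (mm c K) (k.comp (algebraMap _ _))
      (tt _ ((p ^ h) ^ M) I.gi k (C.co τ i).val) (multSeries (FR p h c K).toFG l) =
        tt _ ((p ^ h) ^ M) I.gi k (l • C.co τ i).val := fun l => by
    induction l with
    | zero =>
      rw [RT.e1_mult_zero, zero_smul, ← pow_one (tt ..)]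
      exact (tt_pow I.gi_hom.1 (pow_one _)).symm
    | succ l ih =>
      rw [RT.e1_mult_succ (nht k _), ih, succ_nsmul,
        s.tt_add k (by rw [smul_comm, co_tor C hτ, smul_zero]) (co_tor C hτ i)]
  rw [h1, St.nw, e1_ad_mult (s.nh k i) (nht k _), ← h2, h5, St.nw, h3,
    s.tt_map k (κ := (I.ga (I.a n) : AA →+* AA)) hκ, h4, map_nsmul]
  rfl

theorem td2 (hB : I.Bas) (hM : I.Mon) (H : PC.GF p) (C : GC h c H) : I.Td H := by
  obtain ⟨D, hD⟩ := hM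
  refine ⟨D + (c + 1) * (p ^ h) ^ 4, fun j M B hBM hj => ?_⟩
  have s : I.St D M j := ⟨hB, by omega, fun B h => (hD B M j h (by omega)).1,
    fun B h => (hD B M j h (by omega)).2⟩
  have hN : D ^ (j + 1) + c * ((p ^ h) ^ M) ^ 4 ≤ (D + (c + 1) * (p ^ h) ^ 4) ^ (j + 1) := by
    refine le_trans (Nat.add_le_add_left ?_ _) (pow_add_pow_le (Nat.zero_le _) (Nat.zero_le _)
      j.succ_ne_zero)
    rw [mul_pow, ← pow_mul (p ^ h), ← pow_mul (p ^ h)]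
    exact Nat.mul_le_mul (c.le_succ.trans (Nat.le_self_pow j.succ_ne_zero _))
      (Nat.pow_le_pow_right (pow_pos hp.out.pos h) (by omega))
  obtain ⟨π, h1, h2, h3, h4⟩ := (s.monS hBM).exists_ret
  let T : RT.TS H (vR K hc) (I.T j) (I.TL (M - B) j) (I.TL M j) M B
      ((D + (c + 1) * (p ^ h) ^ 4) ^ (j + 1)) :=
    { mv := fun τ k => zA (s.mv C τ k.toRingHom)
      nat := fun g τ k hτ => AlgHom.coe_ringHom_injective (s.mv_nat C k.toRingHom g hτ)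
      zero := fun k => AlgHom.coe_ringHom_injective (s.mv_zero C k.toRingHom)
      add := fun τ τ' k hτ hτ' => AlgHom.coe_ringHom_injective (s.mv_add C k.toRingHom hτ hτ')
      bot := fun τ k _ x hx => s.mv_bot C k.toRingHom hx
      fix := fun τ k hτ x hx => s.mv_fix C k.toRingHom hBM hτ hx
      free := fun τ k hτ e => s.mv_free C k.toRingHom hτ (congrArg AlgHom.toRingHom e)
      div := fun k k' hk => (s.mv_div C hBM k.toRingHom k'.toRingHom hk).imp fun τ h =>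
        ⟨h.1, AlgHom.coe_ringHom_injective h.2.1, h.2.2⟩
      loss := fun g τ k Λ hτ hg hk x hx => s.mv_loss C k.toRingHom
        (by rw [← map_nsmul, hτ, map_zero]) Λ
        (fun i => C.co_map g τ i ▸ hg _) hk x hx hN
      π := π
      π_one := h1
      π_mem := h2
      π_mul := h3
      π_loss := fun x hx => by
        obtain ⟨r, hr, e⟩ := s.sp B hBM x ⟨hx, x.2⟩
        have hv : (I.v : AA) ^ D ^ (j + 1) ∈ I.TL (M - B) j := pow_mem (GalAux.v_mem I _) _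
        have e1 := h4 (⟨_, (s.monS hBM).le hv⟩ * x) r (fun α => (hr α).2) e
        obtain ⟨d, hd⟩ := Nat.exists_eq_add_of_le' ((Nat.le_add_right _ _).trans hN)
        rw [h3 _ _ hv] at e1
        rw [P.mem_pole, hd, pow_add, mul_assoc, ← I.v_eq]
        exact (pow_mem (GalAux.v_mem I I.OO) _ :).mul (e1 ▸ (hr _).1 :) }
  have hS : ∀ (κ : AA →+* AA) (n : ℕ), (∃ κ' : I.TL M j →+* I.TL M j, (∀ z, (κ' z : AA) = κ z) ∧
      ∀ (U : Type) [CommRing U] [Algebra (ZMod p) U] (τ : H.Pt U) (k : I.TL M j →+* U),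
        p ^ M • τ = 0 → (s.mv C τ k).comp κ' = s.mv C (n • τ) (k.comp κ')) → T.Sym κ n :=
    fun κ n ⟨κ', e1, e2⟩ => ⟨zA κ', e1, fun U _ _ τ k hτ =>
      AlgHom.coe_ringHom_injective (e2 U τ k.toRingHom hτ)⟩
  exact T.nonempty_RT hBM (s.monS hBM).le (vi := ⟨_, I.T_le M I.vi_T⟩)
    (Subtype.ext ((congrArg (· * _) I.v_eq.symm).trans I.v.mul_inv))
    (fun g => hS _ _ (s.sym C _ (hB.gg_T g j) fun κ' e U _ _ τ k hτ i => s.sym_gg C k g e hτ i))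
    (hS _ _ (s.sym C _ (fun z hz => (fr_pow_apply h z).symm ▸ pow_mem hz _)
      fun κ' e U _ _ τ k hτ i => s.sym_fr C k e hτ i))
    fun n hn => hS _ _ (s.sym C _ (hB.ga_T _ j) fun κ' e U _ _ τ k hτ i => s.sym_a C k hn e hτ i)

end FD

end P261.Ig
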