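import Vale.Agent.P261Z.Ig.Tn
import Vale.Agent.P261Z.RT.Abs
import Vale.Agent.P261Z.RT.Ad
import Vale.Agent.P261Z.RT.Mns

/-!
# P261, block N6: truncated series over the rings of finite level
-/

set_option linter.unusedSectionVars false

noncomputable section

namespace P261.Ig

open Vale.Agent.P261Z Vale.Agent.P261Z.N Vale.Agent.P217 Vale.Agent.P251.F
open scoped TensorProduct

variable {p h c : ℕ} [hp : Fact p.Prime]

theorem IsN.of_val {R U : Type*} [CommRing R] [CommRing U] [Algebra R U] {m : Ideal R}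
    (B : Subalgebra R U) {y : B} (hy : IsN m (y : U)) : IsN m y := by
  have h1 : IsIntegral R y := (isIntegral_algHom_iff B.val Subtype.val_injective).1 hy.1
  let Φ : integralClosure R B →ₐ[R] integralClosure R U :=
    (B.val.comp (integralClosure R B).val).codRestrict _ fun x => x.2.map B.val
  exact ⟨h1, JB_comap m Φ (fun a b e => Subtype.ext (Subtype.ext (congrArg Subtype.val e :)))
    (fun x => RingHom.IsIntegralElem.of_comp (f := algebraMap R _) (by
      rw [Φ.comp_algebraMap]; exact integralClosure.isIntegral x)) hy.2⟩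

theorem pole_adjoin {U : Type} [CommRing U] (Λ : Subring U) {w t : U} {n : ℕ} (hw : w ∈ Λ)
    (ht : w * t ∈ Λ) (hn : t ^ n = 0) {z : U} (hz : z ∈ Algebra.adjoin Λ {t}) : w ^ n * z ∈ Λ := by
  rw [Algebra.adjoin_singleton_eq_range_aeval] at hz
  obtain ⟨P, rfl⟩ := hz
  induction P using Polynomial.induction_on' with
  | add P Q hP hQ => rw [map_add, mul_add]; exact add_mem hP hQ
  | monomial e a =>
    show _ * Polynomial.aeval t _ ∈ Λ
    rw [Polynomial.aeval_monomial]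
    rcases le_total n e with he | he
    · rw [pow_eq_zero_of_le he hn, mul_zero, mul_zero]
      exact zero_mem _
    · obtain ⟨d, rfl⟩ := Nat.exists_eq_add_of_le' he
      rw [pow_add, mul_mul_mul_comm, ← mul_pow]
      exact mul_mem (mul_mem (pow_mem hw _) a.2) (pow_mem ht _)

namespace GC

variable {H : PC.GF p} (C : GC h c H) {U U' : Type} [CommRing U] [Algebra (ZMod p) U]
  [CommRing U'] [Algebra (ZMod p) U']

theorem tor (hh : h ≠ 0) {m : ℕ} {τ : H.Pt U} :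
    p ^ m • τ = 0 ↔ ∀ i, (C.co τ i).val ^ (p ^ h) ^ m = 0 := by
  rw [← C.co.map_eq_zero_iff, map_nsmul, funext_iff]
  exact forall_congr' fun i => pp_eq_zero hh

theorem pt_ext {τ τ' : H.Pt U} (e : ∀ i, (C.co τ i).val = (C.co τ' i).val) : τ = τ' :=
  C.co.injective (funext fun i => Pt.ext (e i))

theorem lift_mem (hh : h ≠ 0) {B : ℕ} {τ : H.Pt U} (hτ : p ^ B • τ = 0) (Λ : Subring U)
    (hf : ∀ i, (C.co τ i).val ∈ Λ) (z : H.O B 1) : H.lift B (fun _ : Fin 1 => τ) z ∈ Λ := by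
  let Λ' : Subalgebra (ZMod p) U := { Λ with
    algebraMap_mem' := fun r => by
      obtain ⟨n, rfl⟩ := ZMod.intCast_surjective r
      rw [map_intCast]
      exact intCast_mem Λ n }
  have hs : ∀ i, (⟨_, hf i⟩ : Λ') ^ (p ^ h) ^ B = 0 := fun i => Subtype.ext ((C.tor hh).1 hτ i)
  let τ' : H.Pt Λ' := C.co.symm fun i => ⟨⟨_, hf i⟩, IsN.of_nilpotent ⟨_, hs i⟩⟩
  rw [H.ext B (H.lift B fun _ : Fin 1 => τ) (Λ'.val.comp (H.lift B fun _ => τ')) fun k => by
    rw [H.map_comp, H.lift_u B _ fun _ => hτ, H.lift_u B _ fun _ => (C.tor hh).2 fun i => by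
      rw [AddEquiv.apply_symm_apply]; exact hs i]
    exact C.pt_ext fun i => by rw [C.co_map, AddEquiv.apply_symm_apply]; rfl]
  exact Subtype.property _

end GC

section Trunc

variable {R AA U U' : Type} [CommRing R] [CommRing AA] [Algebra R AA] [CommRing U] [CommRing U']
  (T : Subalgebra R AA) (n : ℕ)

open Classical in
/-- a coefficient as an element of `T` -/
def cf (g : PowerSeries AA) (e : ℕ) : T :=
  if h : PowerSeries.coeff e g ∈ T then ⟨_, h⟩ else 0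

/-- the value of the truncated series -/
def tt (g : PowerSeries AA) (k : T →+* U) (x : U) : U :=
  ∑ e ∈ Finset.range n, k (cf T g e) * x ^ e

/-- the first coefficients lie in `T` -/
def Cf (g : PowerSeries AA) : Prop := ∀ e < n, PowerSeries.coeff e g ∈ T

variable {T n} {g g' : PowerSeries AA} {k k' : T →+* U} {x : U}

theorem cf_val {e : ℕ} (he : PowerSeries.coeff e g ∈ T) :
    (cf T g e : AA) = PowerSeries.coeff e g := by rw [cf, dif_pos he]

theorem map_tt (Φ : U →+* U') : Φ (tt T n g k x) = tt T n g (Φ.comp k) (Φ x) := by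
  simp only [tt, map_sum, map_mul, map_pow, RingHom.comp_apply]

theorem tt_congr (hk : ∀ e < n, k (cf T g e) = k' (cf T g' e)) : tt T n g k x = tt T n g' k' x :=
  Finset.sum_congr rfl fun e he => by rw [hk e (Finset.mem_range.1 he)]

theorem tt_pow (hg : PowerSeries.constantCoeff g = 0) {N : ℕ} (hx : x ^ N = 0) :
    tt T n g k x ^ N = 0 := sum_pow_zero hx (a := fun e => k (cf T g e)) (by
  have : PowerSeries.coeff 0 g = 0 := by rwa [PowerSeries.coeff_zero_eq_constantCoeff_apply]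
  rw [show cf T g 0 = 0 from Subtype.ext ((cf_val (this ▸ zero_mem T)).trans this), map_zero])

theorem tt_eq (hg : Cf T n g) {α : AA →+* U} (hk : ∀ z : T, k z = α z) (hx : x ^ n = 0) :
    tt T n g k x = evN α (fun _ : Unit => x) g := by
  rw [evN_sum α hx]
  exact Finset.sum_congr rfl fun e he => by rw [hk, cf_val (hg e (Finset.mem_range.1 he))]

theorem tt_alg (s : PowerSeries R) (hx : x ^ n = 0) :
    tt T n (PowerSeries.map (algebraMap R AA) s) k x =
      evN (k.comp (algebraMap R T)) (fun _ : Unit => x) s := by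
  rw [evN_sum _ hx]
  exact Finset.sum_congr rfl fun e _ => congrArg (fun z => k z * _) (Subtype.ext
    ((cf_val (by rw [PowerSeries.coeff_map]; exact T.algebraMap_mem _)).trans
      (PowerSeries.coeff_map _ _ _)))

theorem tt_X (hx : x ^ n = 0) : tt T n PowerSeries.X k x = x := by
  rw [← PowerSeries.map_X (algebraMap R AA), tt_alg _ hx]
  exact evN_X _ (fun _ => ⟨n, hx⟩) ()

variable [Algebra (ZMod p) R] [Algebra (ZMod p) AA] [IsScalarTower (ZMod p) R AA]
  [Algebra (ZMod p) U]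

variable (k) in
include hp in
theorem red : ∃ (V V' : Type) (_ : CommRing V) (_ : CommRing V') (ι : T →+* V) (σ : U →+* V)
    (Θ : V →+* U) (Φ : V →+* V') (α : AA →+* V'), Θ.comp ι = k ∧ (∀ u, Θ (σ u) = u) ∧
      Function.Injective Φ ∧ ∀ z : T, Φ.comp ι z = α z :=
  ⟨U ⊗[ZMod p] T, U ⊗[ZMod p] AA, _, _, Algebra.TensorProduct.includeRight.toRingHom,
    Algebra.TensorProduct.includeLeftRingHom, (Algebra.TensorProduct.lift (AlgHom.id (ZMod p) U)
      (zA k) fun _ _ => Commute.all _ _).toRingHom, (Algebra.TensorProduct.map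
      (AlgHom.id (ZMod p) U) (T.val.restrictScalars (ZMod p))).toRingHom,
    Algebra.TensorProduct.includeRight.toRingHom, RingHom.ext fun z => one_mul (k z),
    fun u => (congrArg (u * ·) (map_one k)).trans (mul_one u),
    Module.Flat.lTensor_preserves_injective_linearMap (M := U)
      (T.val.toLinearMap.restrictScalars (ZMod p)) Subtype.val_injective, fun _ => rfl⟩

include hp in
theorem tt_comp (hg : Cf T n g) (hg' : Cf T n g') (h0 : PowerSeries.constantCoeff g' = 0)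
    (h1 : Cf T n (g.subst g')) (hx : x ^ n = 0) :
    tt T n g k (tt T n g' k x) = tt T n (g.subst g') k x := by
  obtain ⟨V, V', _, _, ι, σ, Θ, Φ, α, rfl, h2, h3, h4⟩ := red (p := p) k
  have hx' : Φ (σ x) ^ n = 0 := by rw [← map_pow, ← map_pow, hx, map_zero, map_zero]
  rw [← h2 x, ← map_tt, ← map_tt, ← map_tt]
  refine congrArg Θ (h3 ?_)
  rw [map_tt, map_tt, map_tt, tt_eq hg h4 (tt_pow h0 hx'), tt_eq hg' h4 hx', tt_eq h1 h4 hx',
    FD.evN_one _ (fun _ => ⟨n, hx'⟩) h0]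

end Trunc

namespace FD

variable {K G : Type} [Field K] [Pf p K] [Group G] [TopologicalSpace G] {A : RG p h c G K}
  {hc : 0 < c} {AA : Type} [CommRing AA] [Algebra (RR c K) AA] [Pf p AA] {Γ : Type} [Group Γ]
  (I : FD A hc AA Γ) {M M' B j : ℕ}

theorem TL_le (hM : M' ≤ M) : I.TL M' j ≤ I.TL M j := fun z hz => by
  obtain ⟨d, rfl⟩ := Nat.exists_eq_add_of_le hM
  rw [mem_TL] at hz ⊢
  rw [pow_add, pow_mul]
  exact pow_mem hz _

theorem mem_TL0 {z : AA} : z ∈ I.TL 0 j ↔ z ∈ I.T j := by rw [mem_TL, pow_zero, pow_one]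

theorem T_le (M : ℕ) : I.T j ≤ I.TL M j := fun _ hz => I.TL_le M.zero_le (I.mem_TL0.2 hz)

theorem vi_T : ((I.v⁻¹ : AAˣ) : AA) ∈ I.T j := Algebra.subset_adjoin (Set.mem_insert _ _)

theorem xp_mem (hB : I.Bas) (hj : M ≤ j) (B : ℕ) (i : Fin c) :
    I.x M i ^ (p ^ h) ^ B ∈ I.TL (M - B) j := by
  have h1 : I.x M i ^ (p ^ h) ^ M ∈ I.T j :=
    hB.T_mono hj (Algebra.subset_adjoin (Set.mem_insert_of_mem _ (Or.inr ⟨i, rfl⟩)))
  obtain ⟨d, hd⟩ := Nat.exists_eq_add_of_le (show M ≤ B + (M - B) by omega)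
  rw [mem_TL, ← pow_mul, ← pow_add, hd, pow_add, pow_mul]
  exact pow_mem h1 _

theorem exh (hB : I.Bas) {z : AA} (hz : z ∈ I.TL M j) : ∃ N, (I.v : AA) ^ N * z ∈ I.OL M j := by
  obtain ⟨N, hN⟩ := (hB.mem_T j _).1 (I.mem_TL.1 hz)
  have q0 : 0 < (p ^ h) ^ M := pow_pos (pow_pos hp.out.pos h) M
  obtain ⟨d, hd⟩ := Nat.exists_eq_add_of_le' (Nat.le_mul_of_pos_right N q0)
  refine ⟨N, IsIntegral.of_pow q0 ?_, mul_mem (pow_mem (GalAux.v_mem I _) _) hz⟩
  rw [mul_pow, ← pow_mul, hd, pow_add, mul_assoc]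
  exact (pow_mem (GalAux.v_mem I I.OO) _ :).mul (hB.L_le j hN).1

theorem cancel_v (N : ℕ) (z : AA) : ((I.v⁻¹ : AAˣ) : AA) ^ N * ((I.v : AA) ^ N * z) = z := by
  rw [← mul_assoc, ← mul_pow, Units.inv_mul, one_pow, one_mul]

/-- the standing assumptions -/
structure St (D M j : ℕ) : Prop extends I.Bas where
  le : M ≤ j
  sp : ∀ B ≤ M, ∀ z ∈ I.OL M j, ∃ r : (Fin c → Fin ((p ^ h) ^ B)) → AA,
    (∀ α, r α ∈ I.OL (M - B) j) ∧ (I.v : AA) ^ D ^ (j + 1) * z = ∑ α, r α * PB.mn (I.x M) α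
  ind : ∀ B ≤ M, ∀ r : (Fin c → Fin ((p ^ h) ^ B)) → AA, (∀ α, r α ∈ I.TL (M - B) j) →
    ∑ α, r α * PB.mn (I.x M) α = 0 → ∀ α, r α = 0

variable {I} {D : ℕ} (s : I.St D M j)

include s

theorem St.monS (hB : B ≤ M) : RT.MonS (I.TL (M - B) j) (I.TL M j) ((p ^ h) ^ B) (I.x M) where
  le := I.TL_le (Nat.sub_le M B)
  pos := pow_pos (pow_pos hp.out.pos h) B
  mem i := by simpa using I.xp_mem s.toBas s.le 0 i
  pw := I.xp_mem s.toBas s.le B
  ind := s.ind B hB
  sp z hz := by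
    obtain ⟨N, hN⟩ := I.exh s.toBas hz
    obtain ⟨r, hr, e⟩ := s.sp B hB _ hN
    refine ⟨fun α => _, fun α => mul_mem (pow_mem (I.T_le _ I.vi_T) (D ^ (j + 1) + N)) (hr α).2, ?_⟩
    simp only [mul_assoc]
    rw [← Finset.mul_sum, ← e, ← mul_assoc (_ ^ _ ^ _), ← pow_add, cancel_v]

theorem St.lt {e : ℕ} (he : e < (p ^ h) ^ M) : e < (p ^ h) ^ j :=
  he.trans_le (Nat.pow_le_pow_right (pow_pos hp.out.pos h) s.le)

theorem St.f_L {e : ℕ} (he : e < (p ^ h) ^ M) : PowerSeries.coeff e I.f ∈ I.L j :=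
  Algebra.subset_adjoin (Or.inl ⟨e, s.lt he, rfl⟩)

theorem St.cf_f : Cf (I.T j) ((p ^ h) ^ M) I.f := fun _ he => GalAux.L_T I j (s.f_L he)

theorem St.cf_gi : Cf (I.T j) ((p ^ h) ^ M) I.gi := fun e he =>
  (s.mem_T j _).2 ⟨_, I.gi_mem s.toBas e (s.lt he)⟩

theorem St.cf_f' : Cf (I.TL M j) ((p ^ h) ^ M) I.f := fun e he => I.T_le M (s.cf_f e he)

theorem St.cf_gi' : Cf (I.TL M j) ((p ^ h) ^ M) I.gi := fun e he => I.T_le M (s.cf_gi e he)

variable [Algebra (ZMod p) (RR c K)] [Algebra (ZMod p) AA] [IsScalarTower (ZMod p) (RR c K) AA]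
  {U : Type} [CommRing U] [Algebra (ZMod p) U] (k : I.TL M j →+* U)

omit s in
theorem cf_X {T : Subalgebra (RR c K) AA} {n : ℕ} : Cf T n PowerSeries.X := fun e _ => by
  rw [PowerSeries.coeff_X]
  split_ifs
  exacts [one_mem _, zero_mem _]

theorem St.fg {x : U} (hx : x ^ (p ^ h) ^ M = 0) :
    tt _ ((p ^ h) ^ M) I.f k (tt _ ((p ^ h) ^ M) I.gi k x) = x := by
  have e : I.f.subst I.gi = PowerSeries.X := I.fI.inv_subst_val
  rw [tt_comp (p := p) s.cf_f' s.cf_gi' I.gi_hom.1 (e ▸ cf_X) hx, e, tt_X hx]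

theorem St.gf {x : U} (hx : x ^ (p ^ h) ^ M = 0) :
    tt _ ((p ^ h) ^ M) I.gi k (tt _ ((p ^ h) ^ M) I.f k x) = x := by
  have e : I.gi.subst I.f = PowerSeries.X := I.fI.subst_inv_val
  rw [tt_comp (p := p) s.cf_gi' s.cf_f' I.f_hom.1 (e ▸ cf_X) hx, e, tt_X hx]

theorem St.tt_add {a b : PtH p h U} (ha : p ^ M • a = 0) (hb : p ^ M • b = 0) :
    tt _ ((p ^ h) ^ M) I.gi k (a + b).val = RT.ad (mm c K) (FR p h c K) (k.comp (algebraMap _ _))
      (tt _ ((p ^ h) ^ M) I.gi k a.val) (tt _ ((p ^ h) ^ M) I.gi k b.val) := by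
  obtain ⟨V, V', _, _, ι, σ, Θ, Φ, α, rfl, h2, h3, h4⟩ := red (p := p) k
  have hn : ∀ τ : PtH p h U, RT.NH (mm c K) (ι.comp (algebraMap _ _))
      (tt _ ((p ^ h) ^ M) I.gi ι (σ τ.val)) := fun τ => by
    obtain ⟨N, hN⟩ := (nil τ).map σ
    exact RT.NH.nil ⟨N, tt_pow I.gi_hom.1 hN⟩
  rw [← h2 a.val, ← h2 b.val, ← h2 (a + b).val, ← map_tt, ← map_tt, ← map_tt, RingHom.comp_assoc,
    ← RT.map_ad (hn a) (hn b)]
  refine congrArg Θ (h3 ?_)
  let _ := (α.comp (algebraMap (ZMod p) AA)).toAlgebra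
  let _ := (α.comp (algebraMap (RR c K) AA)).toAlgebra
  have hE : ∀ τ : PtH p h U, p ^ M • τ = 0 → Φ (tt _ ((p ^ h) ^ M) I.gi ι (σ τ.val)) =
      (I.E ⟨α, fun _ => rfl⟩ (Pt.mapA (zA (p := p) (Φ.comp σ)) τ)).val := fun τ hτ => by
    rw [map_tt, tt_eq s.cf_gi' h4 (by
      rw [← map_pow, ← map_pow, (pp_eq_zero I.hh).1 hτ, map_zero, map_zero])]
    rfl
  rw [RT.map_ad (hn a) (hn b), hE a ha, hE b hb, hE _ (by rw [smul_add, ha, hb, add_zero]), map_add,
    map_add, show Φ.comp (ι.comp (algebraMap _ _)) = α.comp (algebraMap (RR c K) AA) from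
      RingHom.ext fun r => h4 _]
  rfl

end FD

end P261.Ig
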