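import Vale.Agent.P261Z.Ig.FD
import Vale.Agent.P261Z.RT.Abs
import Vale.Agent.P261Z.RT.Ad
import Vale.Agent.P261Z.RT.Mns

/-!
# P261, torsors: the action of nilpotent points on the points of the ring of finite level
-/

set_option linter.unusedSectionVars false

noncomputable section

namespace P261.Ig.Th

open Vale.Agent.P261Z Vale.Agent.P217 Vale.Agent.P251.F P261.RT P261.PB

variable {p h c : ℕ} [hp : Fact p.Prime]

theorem val_pp (hh : h ≠ 0) {S : Type} [CommRing S] [Algebra (ZMod p) S] (m : ℕ)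
    (τ : Pt S (⊥ : Ideal (ZMod p)) (HL p h (ZMod p))) : (p ^ m • τ).val = τ.val ^ (p ^ h) ^ m := by
  induction m with
  | zero => rw [pow_zero, one_smul, pow_zero, pow_one]
  | succ m ih =>
    rw [pow_succ', mul_smul, Pt.val_nsmul, HL_p (ZMod.natCast_self p) hh, map_pow,
      evO1_X (p ^ m • τ).isN, ih, ← pow_mul, ← pow_succ]

theorem tor_iff (hh : h ≠ 0) {H : PC.GF p} (C : GC h c H) {S : Type} [CommRing S]
    [Algebra (ZMod p) S] {m : ℕ} {τ : H.Pt S} :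
    p ^ m • τ = 0 ↔ ∀ i, (C.co τ i).val ^ (p ^ h) ^ m = 0 := by
  rw [← C.co.map_eq_zero_iff, map_nsmul, funext_iff]
  exact forall_congr' fun i => by rw [Pi.smul_apply, Pt.ext_iff, val_pp hh]; rfl

theorem isN_of_inj {R U U' : Type} [CommRing R] [CommRing U] [CommRing U'] [Algebra R U]
    [Algebra R U'] {m : Ideal R} (Φ : U →ₐ[R] U') (hΦ : Function.Injective Φ) {y : U}
    (hy : IsN m (Φ y)) : IsN m y := by
  obtain ⟨Ψ, hΨ⟩ : ∃ Ψ : integralClosure R U →ₐ[R] integralClosure R U', ∀ z, (Ψ z : U') = Φ z :=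
    ⟨(Φ.comp (integralClosure R U).val).codRestrict (integralClosure R U') fun z =>
      IsIntegral.map Φ z.2, fun _ => rfl⟩
  refine ⟨(isIntegral_algHom_iff Φ hΦ).1 hy.1, JB_comap m Ψ
    (fun a b e => Subtype.ext (hΦ (by rw [← hΨ, e, hΨ]))) (fun x => ?_) ?_⟩
  · refine RingHom.IsIntegralElem.of_comp (f := algebraMap R _) ?_
    rw [Ψ.comp_algebraMap]
    exact integralClosure.isIntegral x
  · convert hy.2
    exact Subtype.ext (hΨ _)

theorem nil_bound {U : Type} [CommRing U] (Λ : Subring U) {w : U} (hw : w ∈ Λ) {σ : Fin c → U}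
    {N : ℕ} (h1 : ∀ i, σ i ^ N = 0) (h2 : ∀ i, w * σ i ∈ Λ) {z : U}
    (hz : z ∈ Algebra.adjoin Λ (Set.range σ)) : w ^ (N * c) * z ∈ Λ := by
  rw [Algebra.adjoin_range_eq_range_aeval] at hz
  obtain ⟨P, rfl⟩ := hz
  show _ * MvPolynomial.aeval σ P ∈ Λ
  induction P using MvPolynomial.induction_on' with
  | add P Q hP hQ => rw [map_add, mul_add]; exact add_mem hP hQ
  | monomial d a =>
    rw [MvPolynomial.aeval_monomial, Finsupp.prod_fintype _ _ fun _ => pow_zero _, mul_left_comm]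
    refine mul_mem a.2 ?_
    have : w ^ (N * c) = ∏ _i : Fin c, w ^ N := by simp [pow_mul]
    rw [this, ← Finset.prod_mul_distrib]
    refine prod_mem fun i _ => ?_
    rcases le_total N (d i) with e | e
    · rw [pow_eq_zero_of_le e (h1 i), mul_zero]
      exact zero_mem _
    · obtain ⟨r, e⟩ := Nat.exists_eq_add_of_le' e
      rw [e, pow_add, mul_assoc, ← mul_pow]
      exact mul_mem (pow_mem hw _) (pow_mem (h2 i) _)

variable {R AA : Type} [CommRing R] [CommRing AA] [Algebra R AA] [IsNoetherianRing R]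

variable (p h) in
/-- the data -/
structure DT (m : Ideal R) (F : Law R) (f : PowerSeries AA) (T0 T : Subalgebra R AA) (M n : ℕ)
    (x : Fin c → AA) where
  mon : MonS T0 T ((p ^ h) ^ M) x
  xN : ∀ i, IsN m (x i)
  hom : IsHom (F.map (algebraMap R AA)).toFG (HL p h AA).toFG f
  hn : 2 * (p ^ h) ^ M ≤ n
  /-- the truncation -/
  fb : PowerSeries T0
  /-- its inverse -/
  g : PowerSeries T0
  h0 : PowerSeries.constantCoeff fb = 0
  hfb : ∀ d < n, T0.val.toRingHom (PowerSeries.coeff d fb) = PowerSeries.coeff d f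
  g0 : PowerSeries.constantCoeff g = 0
  fg : fb.subst g = PowerSeries.X
  gf : g.subst fb = PowerSeries.X

namespace DT

variable {m : Ideal R} [IsAdicComplete m R] {F : Law R} {f : PowerSeries AA}
  {T0 T : Subalgebra R AA} {M n : ℕ} {x : Fin c → AA} (D : DT p h m F f T0 T M n x)
  {U U' : Type} [CommRing U] [CommRing U']

/-- the generators -/
def X (i : Fin c) : T := ⟨x i, D.mon.mem i⟩

/-- restriction -/
def k0 (k : T →+* U) : T0 →+* U := k.comp (Subalgebra.inclusion D.mon.le).toRingHom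

/-- the inverse series -/
def tt (k : T →+* U) (τ : U) : U := evN1 (D.k0 k) τ D.g

/-- the structure map -/
abbrev ph (k : T →+* U) : R →+* U := k.comp (algebraMap R T)

theorem nh (k : T →+* U) (i : Fin c) : NH m (ph k) (k (D.X i)) :=
  (NH.alg (isN_of_inj T.val Subtype.val_injective (y := D.X i) (D.xN i))).map k

theorem tt_nil (k : T →+* U) {τ : U} (hτ : IsNilpotent τ) : IsNilpotent (D.tt k τ) :=
  evN_nil (fun _ => hτ) D.g0

theorem tt_pow (k : T →+* U) {τ : U} {N : ℕ} (hτ : τ ^ N = 0) : D.tt k τ ^ N = 0 :=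
  evN1_pow hτ D.g0

theorem f_tt (k : T →+* U) {τ : U} (hτ : IsNilpotent τ) :
    evN1 (D.k0 k) (D.tt k τ) D.fb = τ := by
  rw [tt, ← evN1_subst hτ D.g0, D.fg, evN1_X hτ]

theorem tt_f (k : T →+* U) {τ : U} (hτ : IsNilpotent τ) :
    D.tt k (evN1 (D.k0 k) τ D.fb) = τ := by
  rw [tt, ← evN1_subst hτ D.h0, D.gf, evN1_X hτ]

theorem tt_zero (k : T →+* U) : D.tt k 0 = 0 := by
  simpa using D.tt_pow k (τ := 0) (N := 1) (by simp)

theorem tt_add [Algebra (ZMod p) U] [Algebra (ZMod p) T0] (k : T →+* U)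
    (a b : Pt U (⊥ : Ideal (ZMod p)) (HL p h (ZMod p))) (ha : a.val ^ (p ^ h) ^ M = 0)
    (hb : b.val ^ (p ^ h) ^ M = 0) :
    D.tt k (a + b).val = ad m F (ph k) (D.tt k a.val) (D.tt k b.val) := by
  have h2 : ∀ i, IsNilpotent (![a.val, b.val] i) := Fin.forall_fin_two.2 ⟨⟨_, ha⟩, ⟨_, hb⟩⟩
  have h3 : ∀ i, IsNilpotent (![D.tt k a.val, D.tt k b.val] i) :=
    Fin.forall_fin_two.2 ⟨D.tt_nil k ⟨_, ha⟩, D.tt_nil k ⟨_, hb⟩⟩
  have e := fb_add (ι := D.k0 k) (e := T0.val.toRingHom) Subtype.val_injective D.h0 D.hfb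
    (F := F.map (algebraMap R T0)) (H := HL p h T0) (by
      rw [HL_map, Law.map_map]
      exact D.hom) (D.tt_pow k ha) (D.tt_pow k hb) D.hn
  rw [D.f_tt k ⟨_, ha⟩, D.f_tt k ⟨_, hb⟩, ← HL_map (algebraMap (ZMod p) T0), Law.map_ps,
    Law.map_ps, evN_map h2, evN_map h3] at e
  rw [Pt.val_add, evO_eq_evN h2, RingHom.ext_zmod (algebraMap (ZMod p) U)
    ((D.k0 k).comp (algebraMap _ _)), ← e, ad_nil (D.tt_nil k ⟨_, ha⟩) (D.tt_nil k ⟨_, hb⟩)]
  exact D.tt_f k (evN_nil h3 F.toFG.zero_constantCoeff)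

/-- `k'` is the translate of `k` by `τ` -/
def Mv (k : T →+* U) (τ : Fin c → U) (k' : T →+* U) : Prop :=
  (∀ t : T, (t : AA) ∈ T0 → k' t = k t) ∧
    ∀ i, k' (D.X i) = ad m F (ph k) (k (D.X i)) (D.tt k (τ i))

variable {D} {k k' k'' : T →+* U} {τ τ' : Fin c → U}

theorem Mv.k0_eq (e : D.Mv k τ k') : D.k0 k' = D.k0 k := RingHom.ext fun t => e.1 _ t.2

theorem Mv.ph_eq (e : D.Mv k τ k') : ph k' = ph k :=
  RingHom.ext fun r => e.1 _ (T0.algebraMap_mem r)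

theorem Mv.uniq (e : D.Mv k τ k') (e' : D.Mv k τ k'') : k' = k'' :=
  RingHom.ext fun t => D.mon.ext le_rfl (fun t ht => (e.1 t ht).trans (e'.1 t ht).symm)
    (fun i => (e.2 i).trans (e'.2 i).symm) t t.2

theorem Mv.zero (hτ : ∀ i, τ i = 0) : D.Mv k τ k :=
  ⟨fun _ _ => rfl, fun i => by rw [hτ, tt_zero, ad_zero (D.nh k i)]⟩

theorem Mv.map (e : D.Mv k τ k') (hτ : ∀ i, IsNilpotent (τ i)) (Ψ : U →+* U') :
    D.Mv (Ψ.comp k) (fun i => Ψ (τ i)) (Ψ.comp k') :=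
  ⟨fun t ht => congrArg Ψ (e.1 t ht), fun i => by
    rw [RingHom.comp_apply, e.2, map_ad (D.nh k i) (NH.nil (D.tt_nil k (hτ i))), tt,
      map_evN1 (hτ i)]
    rfl⟩

variable (D k) in
theorem exists_mv [Ch p U] (hτ : ∀ i, τ i ^ (p ^ h) ^ M = 0) : ∃ k', D.Mv k τ k' :=
  D.mon.exists_hom k _ fun i => by
    have := map_ad (F := F) (D.nh k i) (NH.nil (D.tt_nil k ⟨_, hτ i⟩)) (fr p U ^ (h * M))
    rw [fr_pow_apply, fr_pow_apply, fr_pow_apply, pow_mul, D.tt_pow k (hτ i), ad_zero] at this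
    · exact this.symm
    · rw [← pow_mul, ← fr_pow_apply]
      exact (D.nh k i).map _

theorem Mv.add [Algebra (ZMod p) U] [Algebra (ZMod p) T0]
    {a b : Fin c → Pt U (⊥ : Ideal (ZMod p)) (HL p h (ZMod p))}
    (ha : ∀ i, (a i).val ^ (p ^ h) ^ M = 0) (hb : ∀ i, (b i).val ^ (p ^ h) ^ M = 0)
    (e : D.Mv k (fun i => (a i).val) k') (e' : D.Mv k' (fun i => (b i).val) k'') :
    D.Mv k (fun i => (a i + b i).val) k'' :=
  ⟨fun t ht => (e'.1 t ht).trans (e.1 t ht), fun i => by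
    rw [e'.2, e.2, e.ph_eq, D.tt_add k _ _ (ha i) (hb i), tt, tt, tt, e.k0_eq]
    exact ad_assoc (D.nh k i) (NH.nil (D.tt_nil k ⟨_, ha i⟩)) (NH.nil (D.tt_nil k ⟨_, hb i⟩))⟩

theorem Mv.pow [Ch p U] (e : D.Mv k τ k') {a : ℕ} (hτ : ∀ i, τ i ^ p ^ a = 0) (t : T) :
    k' (t ^ p ^ a) = k (t ^ p ^ a) := by
  have := (e.map (fun i => ⟨_, hτ i⟩) (fr p U ^ a)).uniq
    (Mv.zero fun i => (fr_pow_apply a _).trans (hτ i))
  simpa only [RingHom.comp_apply, fr_pow_apply, map_pow] using RingHom.congr_fun this t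

theorem Mv.free (e : D.Mv k τ k) (hτ : ∀ i, IsNilpotent (τ i)) (i : Fin c) : τ i = 0 := by
  rw [← D.f_tt k (hτ i), ad_cancel (D.nh k i) (NH.nil (D.tt_nil k (hτ i))) (e.2 i).symm]
  simpa using evN1_pow (φ := D.k0 k) (x := 0) (n := 1) (by simp) D.h0

variable (D) in
theorem div [Ch p U] (h1 : ∀ t : T, (t : AA) ∈ T0 → k t = k' t) {a : ℕ}
    (h2 : ∀ i, k (D.X i) ^ p ^ a = k' (D.X i) ^ p ^ a) :
    ∃ τ : Fin c → U, (∀ i, τ i ^ p ^ a = 0) ∧ D.Mv k' τ k ∧ ∀ Λ : Subring U,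
      (∀ d, D.k0 k' (PowerSeries.coeff d D.fb) ∈ Λ) → (∀ r, ph k' r ∈ Λ) →
      (∀ i, k (D.X i) ∈ Λ) → (∀ i, k' (D.X i) ∈ Λ) → ∀ i, τ i ∈ Λ := by
  have e0 : ph k = ph k' := RingHom.ext fun r => h1 _ (T0.algebraMap_mem r)
  choose z z1 z2 z3 using fun i => exists_sub (F := F) (e0 ▸ D.nh k i) (D.nh k' i)
  have z4 : ∀ i, z i ^ p ^ a = 0 := fun i => by
    have := map_ad (F := F) (D.nh k' i) (z1 i) (fr p U ^ a)
    rw [z2] at this
    rw [← fr_pow_apply]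
    refine ad_cancel (F := F) ((D.nh k' i).map _) ((z1 i).map _) (this.symm.trans ?_)
    rw [fr_pow_apply, fr_pow_apply, h2]
  exact ⟨fun i => evN1 (D.k0 k') (z i) D.fb, fun i => evN1_pow (z4 i) D.h0,
    ⟨h1, fun i => by rw [D.tt_f k' ⟨_, z4 i⟩, z2]⟩, fun Λ h3 h4 h5 h6 i =>
      evN1_mem ⟨_, z4 i⟩ Λ (z3 i Λ h4 (h5 i) (h6 i)) h3⟩

/-- symmetries -/
theorem Mv.sym (e : D.Mv k τ k') (hτ : ∀ i, τ i ^ (p ^ h) ^ M = 0) (κ : AA →+* AA) (κ' : T →+* T)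
    (hκ : ∀ t, (κ' t : AA) = κ t) (h0 : ∀ t ∈ T0, κ t ∈ T0) (σ : R →+* R)
    (hσ : ∀ r, κ (algebraMap R AA r) = algebraMap R AA (σ r)) {s w : PowerSeries R}
    (hs : IsHom F.toFG (F.map σ).toFG s) (hX : ∀ i, κ (x i) = evO1 m (x i) s)
    (hw : PowerSeries.constantCoeff w = 0)
    (hf : PowerSeries.map κ f = f.subst (PowerSeries.map (algebraMap R AA) w))
    (hτ' : ∀ i, τ' i = evN1 (D.k0 k) (evN1 (ph k) (e1 m (ph k) (D.tt k (τ i)) s) w) D.fb) :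
    D.Mv (k.comp κ') τ' (k'.comp κ') := by
  refine ⟨fun t ht => e.1 _ (hκ t ▸ h0 t ht), fun i => ?_⟩
  have hN := NH.alg (isN_of_inj T.val Subtype.val_injective (y := D.X i) (D.xN i))
  have e1X : κ' (D.X i) = e1 m (algebraMap R T) (D.X i) s := Subtype.ext (by
    rw [hκ, e1_alg]
    exact (hX i).trans (alg_evO T.val (y := fun _ => D.X i) (fun _ =>
      isN_of_inj T.val Subtype.val_injective (y := D.X i) (D.xN i)) s).symm)
  have e2 : ph (k.comp κ') = (ph k).comp σ := RingHom.ext fun r =>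
    congrArg k (Subtype.ext ((hκ _).trans (hσ r)))
  have t1 := D.tt_pow k (hτ i)
  have t2 : e1 m (ph k) (D.tt k (τ i)) s ^ (p ^ h) ^ M = 0 := by
    rw [e1_nil ⟨_, t1⟩]
    exact evN1_pow t1 hs.1
  have e3 : k (κ' (D.X i)) = e1 m (ph k) (k (D.X i)) s := by rw [e1X, map_e1 hN]
  have e4 : D.tt (k.comp κ') (τ' i) = e1 m (ph k) (D.tt k (τ i)) s := by
    have := fb_twist (ι := D.k0 k) (e := T0.val.toRingHom) Subtype.val_injective D.hfb
      (κ := κ.restrict T0 T0 h0) (κ' := κ) (fun _ => rfl)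
      (s := PowerSeries.map (algebraMap R T0) w) ((congrArg (algebraMap R T0) hw).trans (map_zero _))
      (hf.trans (by rw [← RingHom.comp_apply, ← PowerSeries.map_comp]; rfl))
      (pow_eq_zero_of_le (by have := D.hn; omega) t2)
    rw [evN1_map ⟨_, t2⟩, show (D.k0 k).comp (κ.restrict T0 T0 h0) = D.k0 (k.comp κ') from
      RingHom.ext fun t => congrArg k (Subtype.ext (hκ ⟨t, D.mon.le t.2⟩).symm)] at this
    rw [hτ']
    exact (congrArg _ this.symm).trans (D.tt_f (k.comp κ') ⟨_, t2⟩)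
  rw [RingHom.comp_apply, RingHom.comp_apply, e4, e3, e1X, map_e1 hN, e.2, e2]
  refine (congrArg (e1 m · _ s) e.ph_eq).trans (e1_ad (D.nh k i) (NH.nil ⟨_, t1⟩) hs ?_
    (NH.nil ⟨_, t2⟩))
  rw [← e3, ← e2]
  exact D.nh (k.comp κ') i

theorem e1_mult [Algebra (ZMod p) U] [Algebra (ZMod p) T0] (hh : h ≠ 0)
    (a : Pt U (⊥ : Ideal (ZMod p)) (HL p h (ZMod p))) (ha : a.val ^ (p ^ h) ^ M = 0) (s : ℕ) :
    e1 m (ph k) (D.tt k a.val) (multSeries F.toFG s) = D.tt k (s • a).val := by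
  induction s with
  | zero => rw [e1_mult_zero, zero_smul, Pt.val_zero, tt_zero]
  | succ s ih =>
    rw [e1_mult_succ (NH.nil (D.tt_nil k ⟨_, ha⟩)), ih, succ_nsmul, D.tt_add k _ _ _ ha]
    rw [← val_pp hh, smul_comm, show p ^ M • a = 0 from Pt.ext ((val_pp hh M a).trans ha),
      smul_zero, Pt.val_zero]

theorem Mv.loss (e : D.Mv k τ k') (hτ : ∀ i, τ i ^ (p ^ h) ^ M = 0) (Λ : Subring U) {u w : U}
    (hw : w ∈ Λ) (h1 : ∀ i, w * (u * τ i) ∈ Λ) (h2 : ∀ r, ph k r ∈ Λ) (h3 : ∀ i, k (D.X i) ∈ Λ)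
    (h4 : ∀ (t : U) (Λ' : Subring U), Λ ≤ Λ' → IsNilpotent t → u * t ∈ Λ' → D.tt k t ∈ Λ')
    (α : Fin c → Fin ((p ^ h) ^ M)) : w ^ ((p ^ h) ^ M * c) * k' (mn D.X α) ∈ Λ := by
  refine nil_bound Λ hw (σ := fun i => u * τ i) (fun i => by rw [mul_pow, hτ, mul_zero]) h1 ?_
  have h5 : Λ ≤ (Algebra.adjoin Λ (Set.range fun i => u * τ i)).toSubring := fun z hz =>
    Subalgebra.algebraMap_mem _ (⟨z, hz⟩ : Λ)
  rw [map_mn]
  refine mn_mem (S := (Algebra.adjoin Λ (Set.range fun i => u * τ i)).toSubring) (fun i => ?_) α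
  rw [e.2]
  exact ad_mem _ (fun r => h5 (h2 r)) (h5 (h3 i))
    (h4 _ _ h5 ⟨_, hτ i⟩ (Algebra.subset_adjoin ⟨i, rfl⟩))

variable (D) {H : PC.GF p} (C : GC h c H) [Algebra (ZMod p) T]

open Classical in
/-- the action -/
def mv [Algebra (ZMod p) U] (τ : H.Pt U) (k : T →ₐ[ZMod p] U) : T →ₐ[ZMod p] U :=
  if e : ∃ k', D.Mv (k : T →+* U) (fun i => (C.co τ i).val) k' then alg e.choose else k

theorem mv_spec (hh : h ≠ 0) [Algebra (ZMod p) U] {τ : H.Pt U} (hτ : p ^ M • τ = 0)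
    (k : T →ₐ[ZMod p] U) : D.Mv (k : T →+* U) (fun i => (C.co τ i).val) (D.mv C τ k) := by
  have : Ch p U := Ch.of_hom (algebraMap (ZMod p) U)
  have e := D.exists_mv (k : T →+* U) ((tor_iff hh C).1 hτ)
  rw [mv, dif_pos e]
  exact e.choose_spec

theorem eq_mv (hh : h ≠ 0) [Algebra (ZMod p) U] {τ : H.Pt U} (hτ : p ^ M • τ = 0)
    {k k' : T →ₐ[ZMod p] U} (e : D.Mv (k : T →+* U) (fun i => (C.co τ i).val) k') :
    k' = D.mv C τ k := AlgHom.coe_ringHom_injective (e.uniq (D.mv_spec C hh hτ k))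

end DT

theorem lift_mem (hh : h ≠ 0) {H : PC.GF p} (C : GC h c H) {U : Type} [CommRing U]
    [Algebra (ZMod p) U] {A : ℕ} {τ : H.Pt U} (hτ : p ^ A • τ = 0) (Λ : Subring U)
    (hΛ : ∀ i, (C.co τ i).val ∈ Λ) (φ : H.O A 1) : H.lift A (fun _ : Fin 1 => τ) φ ∈ Λ := by
  let Λ' : Subalgebra (ZMod p) U := { Λ with
    algebraMap_mem' := fun r => by
      obtain ⟨n, rfl⟩ := ZMod.natCast_zmod_surjective r
      rw [map_natCast]
      exact natCast_mem Λ n }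
  have h1 : ∀ i, (⟨_, hΛ i⟩ : Λ') ^ (p ^ h) ^ A = 0 := fun i =>
    Subtype.ext ((tor_iff hh C).1 hτ i)
  let τ' : H.Pt Λ' := C.co.symm fun i => ⟨⟨_, hΛ i⟩, IsN.of_nilpotent ⟨_, h1 i⟩⟩
  have h2 : p ^ A • τ' = 0 := (tor_iff hh C).2 fun i => by
    rw [AddEquiv.apply_symm_apply]
    exact h1 i
  have h3 : H.map Λ'.val τ' = τ := C.co.injective (funext fun i => Pt.ext (by
    rw [C.co_map, AddEquiv.apply_symm_apply]
    rfl))
  rw [H.ext A (H.lift A fun _ : Fin 1 => τ) (Λ'.val.comp (H.lift A fun _ : Fin 1 => τ')) fun i => by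
    rw [H.map_comp, H.lift_u _ _ fun _ => hτ, H.lift_u _ _ fun _ => h2, h3]]
  exact Subtype.property _

end P261.Ig.Th
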