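import Vale.Agent.P261Z.Ig.GF
import Vale.Agent.P261Z.Ig.BasF
import Vale.Agent.P261Z.Ig.Gal

/-!
# P261, block N6: evaluation at nilpotent elements, the points given by the inverse of `f`
-/

set_option linter.unusedSectionVars false

noncomputable section

open MvPowerSeries

namespace P261.Ig

open Vale.Agent.P261Z Vale.Agent.P261Z.Ev Vale.Agent.P261Z.N Vale.Agent.P217 Vale.Agent.P251.F

section Nil

variable {A A' U U' σ τ : Type*} [CommRing A] [CommRing A'] [CommRing U] [CommRing U']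
  [Finite σ] [Finite τ] (φ : A →+* U) {y : σ → U}

theorem complete_nil (h : ∀ i, IsNilpotent (y i)) :
    IsAdicComplete (Ideal.span (Set.range y)) U := by
  obtain ⟨N, hN⟩ := Ideal.exists_pow_le_of_le_radical_of_fg (J := (⊥ : Ideal U))
    (Ideal.span_le.2 (Set.range_subset_iff.2 fun i => mem_nilradical.2 (h i)))
    (Submodule.fg_span (Set.finite_range y))
  exact complete_of_pow bot_le hN

open Classical in
/-- evaluation at nilpotent elements -/
def evN (y : σ → U) : MvPowerSeries σ A →+* U :=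
  if h : ∀ i, IsNilpotent (y i) then
    have := complete_nil h
    ev (Ideal.span (Set.range y)) φ y
  else φ.comp constantCoeff

theorem eq_evN (h : ∀ i, IsNilpotent (y i)) (E : MvPowerSeries σ A →+* U)
    (hC : ∀ r, E (C r) = φ r) (hX : ∀ i, E (X i) = y i) (f : MvPowerSeries σ A) :
    E f = evN φ y f := by
  have := complete_nil h
  rw [evN, dif_pos h]
  exact eq_ev φ E hC hX (fun i => Ideal.subset_span (Set.mem_range_self i)) f

@[simp] theorem evN_C (r : A) : evN φ y (C r) = φ r := by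
  unfold evN
  split_ifs <;> simp

theorem evN_X (h : ∀ i, IsNilpotent (y i)) (i : σ) : evN φ y (X i) = y i := by
  have := complete_nil h
  rw [evN, dif_pos h]
  exact ev_X φ (fun i => Ideal.subset_span (Set.mem_range_self i)) i

theorem evN_nil (h : ∀ i, IsNilpotent (y i)) {f : MvPowerSeries σ A} (hf : constantCoeff f = 0) :
    IsNilpotent (evN φ y f) := by
  have := complete_nil h
  rw [evN, dif_pos h]
  exact mem_nilradical.1 (Ideal.span_le.2 (Set.range_subset_iff.2 fun i => mem_nilradical.2 (h i))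
    (ev_mem φ (fun i => Ideal.subset_span (Set.mem_range_self i)) hf))

theorem evN_map (κ : A' →+* A) (h : ∀ i, IsNilpotent (y i)) (f : MvPowerSeries σ A') :
    evN φ y (map κ f) = evN (φ.comp κ) y f :=
  eq_evN _ h ((evN φ y).comp (map κ)) (fun r => by simp) (fun i => by simp [evN_X φ h]) f

theorem comp_evN (Φ : U →+* U') (h : ∀ i, IsNilpotent (y i)) (f : MvPowerSeries σ A) :
    Φ (evN φ y f) = evN (Φ.comp φ) (fun i => Φ (y i)) f :=
  eq_evN _ (fun i => (h i).map Φ) (Φ.comp (evN φ y)) (fun r => by simp)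
    (fun i => by simp [evN_X φ h]) f

theorem evN_subst (h : ∀ i, IsNilpotent (y i)) {a : τ → MvPowerSeries σ A}
    (ha : ∀ s, constantCoeff (a s) = 0) (f : MvPowerSeries τ A) :
    evN φ y (subst a f) = evN φ (fun s => evN φ y (a s)) f := by
  have h1 := hasSubst_of_constantCoeff_zero ha
  rw [← substAlgHom_apply h1]
  exact eq_evN φ (fun s => evN_nil φ h (ha s)) ((evN φ y).comp (substAlgHom (R := A) h1))
    (fun r => (congrArg _ ((substAlgHom h1).commutes r)).trans (evN_C φ r))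
    (fun i => congrArg _ (substAlgHom_X h1 i)) f

theorem evO_evN [Algebra A U] [IsNoetherianRing A] {m : Ideal A} [IsAdicComplete m A]
    (h : ∀ i, IsNilpotent (y i)) (f : MvPowerSeries σ A) :
    evO m y f = evN (algebraMap A U) y f :=
  eq_evN _ h _ (evO_C y) (evO_X fun i => IsN.of_nilpotent (h i)) f

theorem evN_sum {x : U} {N : ℕ} (h : x ^ N = 0) (f : PowerSeries A) :
    evN φ (fun _ : Unit => x) f = ∑ e ∈ Finset.range N, φ (PowerSeries.coeff e f) * x ^ e := by
  have h1 : evN φ (fun _ : Unit => x) (PowerSeries.X : PowerSeries A) = x :=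
    evN_X φ (fun _ => ⟨N, h⟩) ()
  have h2 : ∀ r, evN φ (fun _ : Unit => x) (PowerSeries.C r : PowerSeries A) = φ r := evN_C φ
  conv_lhs => rw [PowerSeries.eq_X_pow_mul_shift_add_trunc N f]
  rw [map_add, map_mul, map_pow, h1, h, zero_mul, zero_add, PowerSeries.trunc_apply,
    Nat.Ico_zero_eq_range, ← Polynomial.coeToPowerSeries.ringHom_apply, map_sum, map_sum]
  exact Finset.sum_congr rfl fun e _ => by
    rw [← Polynomial.C_mul_X_pow_eq_monomial, Polynomial.coeToPowerSeries.ringHom_apply,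
      Polynomial.coe_mul, Polynomial.coe_pow, Polynomial.coe_C, Polynomial.coe_X, map_mul, map_pow,
      h1, h2]

theorem sum_pow_zero {x : U} {N k : ℕ} (h : x ^ k = 0) {a : ℕ → U} (ha : a 0 = 0) :
    (∑ e ∈ Finset.range N, a e * x ^ e) ^ k = 0 := by
  obtain ⟨z, hz⟩ : x ∣ ∑ e ∈ Finset.range N, a e * x ^ e := Finset.dvd_sum fun e _ => by
    rcases e with _ | e
    · rw [ha, zero_mul]
      exact dvd_zero x
    · exact (dvd_pow_self x e.succ_ne_zero).mul_left _
  rw [hz, mul_pow, h, zero_mul]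

end Nil

variable {p h c : ℕ} [hp : Fact p.Prime]

/-- ring maps are linear over the prime field -/
def zA {U U' : Type*} [CommRing U] [CommRing U'] [Algebra (ZMod p) U] [Algebra (ZMod p) U']
    (Φ : U →+* U') : U →ₐ[ZMod p] U' :=
  ⟨Φ, fun r => RingHom.congr_fun (RingHom.ext_zmod (Φ.comp (algebraMap _ _)) (algebraMap _ _)) r⟩

section Pow

variable {R U : Type*} [CommRing R] [CommRing U] [Algebra R U] {m : Ideal R} [IsNoetherianRing R]
  [IsAdicComplete m R] {F : Law R} [Ch p U] {k : ℕ}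

theorem Pt.add_pow (a : Pt U m F) {b : Pt U m F} (hb : b.val ^ p ^ k = 0) :
    (a + b).val ^ p ^ k = a.val ^ p ^ k := by
  obtain ⟨u, -, -, e⟩ := Pt.exists_val_add b a
  rw [add_comm, e, add_pow_pp, mul_pow, hb, zero_mul, zero_add]

theorem Pt.sub_pow {a b : Pt U m F} (hb : a.val ^ p ^ k = b.val ^ p ^ k) :
    (a - b).val ^ p ^ k = 0 := by
  obtain ⟨u, -, -, e⟩ := Pt.exists_val_add (a - b) b
  rw [sub_add_cancel] at e
  rw [e, add_pow_pp, mul_pow, add_eq_right] at hb
  exact (u.isUnit.pow _).mul_left_eq_zero.1 hb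

end Pow

namespace FD

variable {K G : Type} [Field K] [Pf p K] [Group G] [TopologicalSpace G] {A : RG p h c G K}
  {hc : 0 < c} {AA : Type} [CommRing AA] [Algebra (RR c K) AA] [Pf p AA] {Γ : Type} [Group Γ]
  (I : FD A hc AA Γ)

/-- `f` as an invertible series -/
def fI : InvSeries AA := ⟨I.f, I.f_hom.1, I.f_unit⟩

/-- the inverse of `f` -/
def gi : PowerSeries AA := I.fI⁻¹.val

theorem gi_hom : IsHom (HL p h AA).toFG ((FR p h c K).map (algebraMap (RR c K) AA)).toFG I.gi :=
  (InvSeries.smul_eq_iff_isHom _ _ _).1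
    (inv_smul_eq_iff.2 ((InvSeries.smul_eq_iff_isHom I.fI _ _).2 I.f_hom).symm)

theorem gi_mem (hB : I.Bas) {j : ℕ} (d : ℕ) (hd : d < (p ^ h) ^ j) :
    (I.v : AA) ^ (d * d) * PowerSeries.coeff d I.gi ∈ I.L j := by
  induction d using Nat.strong_induction_on with
  | _ d ih =>
  have hf : ∀ e ≤ d, PowerSeries.coeff e I.f ∈ I.L j := fun e he =>
    Algebra.subset_adjoin (Or.inl ⟨e, he.trans_lt hd, rfl⟩)
  rcases d.eq_zero_or_pos with rfl | d0
  · rw [PowerSeries.coeff_zero_eq_constantCoeff_apply, I.gi_hom.1, mul_zero]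
    exact zero_mem _
  have h1 := congrArg (PowerSeries.coeff d) I.fI.subst_inv_val
  rw [Bf.coeff_subst_sum I.fI.cc, Finset.sum_range_succ, Bf.coeff_pow_self I.fI.cc,
    ← eq_sub_iff_add_eq'] at h1
  obtain ⟨r, hr⟩ := Nat.exists_eq_add_of_le' (Nat.le_sub_one_of_lt
    (Nat.one_lt_pow I.hh hp.out.one_lt))
  obtain ⟨s, hs⟩ := Nat.exists_eq_add_of_le' (Nat.le_mul_of_pos_left d d0)
  rw [hs, pow_add, show (I.v : AA) ^ d = (PowerSeries.coeff 1 I.f ^ r) ^ d *
    PowerSeries.coeff 1 I.f ^ d by rw [← mul_pow, ← pow_succ, ← hr, hB.one], mul_left_comm,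
    mul_assoc, mul_assoc, mul_comm (_ ^ d) (PowerSeries.coeff d I.gi)]
  refine mul_mem (pow_mem (pow_mem (hf 1 d0) _) _) (Set.mem_of_eq_of_mem (congrArg _ h1) ?_)
  rw [mul_sub, Finset.mul_sum]
  refine sub_mem (mul_mem (pow_mem (GalAux.v_mem I _) _) ?_) (sum_mem fun e he => ?_)
  · rw [PowerSeries.coeff_X]
    split_ifs
    exacts [one_mem _, zero_mem _]
  · have he := Finset.mem_range.1 he
    obtain ⟨t, ht⟩ := Nat.exists_eq_add_of_le' (show e * e ≤ s by nlinarith)
    rw [ht, pow_add, mul_assoc, ← mul_assoc (_ ^ (e * e))]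
    exact mul_mem (pow_mem (GalAux.v_mem I _) _) (mul_mem (ih e he (he.trans hd))
      (Bf.coeff_pow_mem _ _ d hf e d le_rfl))

variable {U U' : Type} [CommRing U] [Algebra (RR c K) U] [Algebra (ZMod p) U] [CommRing U']
  [Algebra (RR c K) U'] [Algebra (ZMod p) U'] [Algebra (ZMod p) AA]

theorem nil {U : Type} [CommRing U] [Algebra (ZMod p) U] (τ : PtH p h U) : IsNilpotent τ.val := by
  obtain ⟨h1, N, h2⟩ := τ.isN
  rw [Ideal.map_bot] at h2
  exact ⟨N, congrArg Subtype.val h2⟩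

theorem evN_one {B V σ : Type*} [CommRing B] [CommRing V] [Finite σ] (φ : B →+* V) {y : σ → V}
    (h : ∀ i, IsNilpotent (y i)) {a : MvPowerSeries σ B} (ha : constantCoeff a = 0)
    (f : PowerSeries B) : evN φ y (PowerSeries.subst a f) = evN φ (fun _ : Unit => evN φ y a) f :=
  evN_subst φ h (fun _ => ha) f

/-- the point of `F` given by a point of `H` -/
def E (α : AA →ₐ[RR c K] U) : PtH p h U →+ PtR p h c K U := AddMonoidHom.mk'
  (fun τ => ⟨evN (α : AA →+* U) (fun _ : Unit => τ.val) I.gi,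
    IsN.of_nilpotent (evN_nil _ (fun _ => nil τ) I.gi_hom.1)⟩) fun a b => Pt.ext (by
  have h0 : ∀ i, IsNilpotent (![a.val, b.val] i) := Fin.forall_fin_two.2 ⟨nil a, nil b⟩
  have h1 := congrArg (evN (α : AA →+* U) ![a.val, b.val]) I.gi_hom.2
  have h2 : ∀ i : Fin 2, constantCoeff (PowerSeries.subst (X i : MvPowerSeries (Fin 2) AA) I.gi) =
      0 := fun i => PowerSeries.constantCoeff_subst_eq_zero (constantCoeff_X _) _ I.gi_hom.1
  have h3 : ∀ i, IsNilpotent (evN (α : AA →+* U) ![a.val, b.val]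
      (![PowerSeries.subst (X 0) I.gi, PowerSeries.subst (X 1) I.gi] i)) :=
    Fin.forall_fin_two.2 ⟨evN_nil _ h0 (h2 0), evN_nil _ h0 (h2 1)⟩
  rw [evN_one _ h0 (HL p h AA).toFG.zero_constantCoeff,
    evN_subst _ h0 (Fin.forall_fin_two.2 ⟨h2 0, h2 1⟩), ← HL_map (algebraMap (ZMod p) AA),
    ← Law.ps, ← Law.ps, Law.map_ps, Law.map_ps, evN_map _ _ h0, evN_map _ _ h3,
    RingHom.ext_zmod (RingHom.comp _ _) (algebraMap _ U), α.comp_algebraMap, ← evO_evN (m := ⊥) h0,
    ← evO_evN (m := mm c K) h3] at h1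
  refine h1.trans ?_
  rw [Pt.val_add]
  congr 2
  exact funext (Fin.forall_fin_two.2 ⟨(evN_one _ h0 (constantCoeff_X _) _).trans (by
    rw [evN_X _ h0]; rfl), (evN_one _ h0 (constantCoeff_X _) _).trans (by rw [evN_X _ h0]; rfl)⟩))

variable (α : AA →ₐ[RR c K] U) (α' : AA →ₐ[RR c K] U')

theorem E_val (τ : PtH p h U) :
    (I.E α τ).val = evN (α : AA →+* U) (fun _ : Unit => τ.val) I.gi := rfl

theorem E_f {d : PtR p h c K U} (hd : IsNilpotent d.val) {δ : PtH p h U}
    (hδ : δ.val = evN (α : AA →+* U) (fun _ : Unit => d.val) I.f) : I.E α δ = d := Pt.ext (by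
  rw [E_val, hδ, ← evN_one _ (fun _ => hd) I.f_hom.1]
  exact (congrArg _ I.fI.subst_inv_val).trans (evN_X _ (fun _ => hd) ()))

theorem E_inj : Function.Injective (I.E α) := fun a b e => Pt.ext (by
  have h1 : ∀ τ, evN (α : AA →+* U) (fun _ : Unit => (I.E α τ).val) I.f = τ.val := fun τ => by
    rw [E_val, ← evN_one _ (fun _ => nil τ) I.gi_hom.1]
    exact (congrArg _ I.fI.inv_subst_val).trans (evN_X _ (fun _ => nil τ) ())
  rw [← h1, e, h1])

theorem E_nat (Φ : U →+* U') (κ : AA →+* AA)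
    (hκ : Φ.comp (α : AA →+* U) = (α' : AA →+* U').comp κ) (τ : PtH p h U) :
    Φ (I.E α τ).val = evN (α' : AA →+* U') (fun _ : Unit => Φ τ.val) (PowerSeries.map κ I.gi) := by
  rw [E_val, comp_evN _ Φ fun _ => nil τ, hκ]
  exact (evN_map _ κ (fun _ => (nil τ).map Φ) _).symm

end FD

end P261.Ig
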